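import Vale.Agent.P226_h5.Defs

open MeasureTheory ProbabilityTheory Set
open scoped RealInnerProductSpace

namespace P226

set_option linter.unusedSectionVars false
set_option linter.style.haveILetI false

theorem phi_eq_gaussianPDFReal (x : ℝ) : phi x = gaussianPDFReal 0 1 x := by
  simp [phi, gaussianPDFReal]

theorem gaussianReal_eq_phi :
    gaussianReal 0 1 = volume.withDensity (fun x => ENNReal.ofReal (phi x)) := by
  rw [gaussianReal_of_var_ne_zero 0 one_ne_zero]
  congr 1
  ext x
  rw [phi_eq_gaussianPDFReal]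
  rfl

variable {E : Type*} [NormedAddCommGroup E] [InnerProductSpace ℝ E] [FiniteDimensional ℝ E]
  [MeasurableSpace E] [BorelSpace E]

/-- the splitting map -/
noncomputable def splitMap (v : E) (p : ℝ × E) : E := p.1 • v + (p.2 - ⟪v, p.2⟫ • v)

theorem continuous_splitMap (v : E) : Continuous (splitMap v) := by
  unfold splitMap
  fun_prop

theorem stdGaussian_split (v : E) (hv : ‖v‖ = 1) :
    ((gaussianReal 0 1).prod (stdGaussian E)).map
      (fun p : ℝ × E => p.1 • v + (p.2 - ⟪v, p.2⟫ • v)) = stdGaussian E := by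
  have hc : Continuous (fun p : ℝ × E => p.1 • v + (p.2 - ⟪v, p.2⟫ • v)) := by fun_prop
  haveI : IsProbabilityMeasure (((gaussianReal 0 1).prod (stdGaussian E)).map
      (fun p : ℝ × E => p.1 • v + (p.2 - ⟪v, p.2⟫ • v))) :=
    Measure.isProbabilityMeasure_map hc.measurable.aemeasurable
  apply Measure.ext_of_charFun (E := E)
  ext t
  rw [charFun_stdGaussian, charFun_apply, integral_map hc.measurable.aemeasurable
    (by fun_prop : Measurable _).aestronglyMeasurable]
  have h1 : ∀ p : ℝ × E, Complex.exp ((⟪p.1 • v + (p.2 - ⟪v, p.2⟫ • v), t⟫ : ℝ) * Complex.I) =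
      Complex.exp ((⟪p.1, (⟪v, t⟫ : ℝ)⟫ : ℝ) * Complex.I) *
        Complex.exp ((⟪p.2, t - ⟪v, t⟫ • v⟫ : ℝ) * Complex.I) := by
    intro p
    rw [← Complex.exp_add]
    congr 1
    rw [← add_mul]
    congr 1
    rw [← Complex.ofReal_add]
    congr 1
    simp only [inner_add_left, inner_sub_left, inner_sub_right, real_inner_smul_right,
      real_inner_comm]
    simp
    ring
  simp_rw [h1]
  rw [integral_prod_mul (fun x : ℝ => Complex.exp ((⟪x, (⟪v, t⟫ : ℝ)⟫ : ℝ) * Complex.I))
    (fun y : E => Complex.exp ((⟪y, t - ⟪v, t⟫ • v⟫ : ℝ) * Complex.I))]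
  rw [← charFun_apply, ← charFun_apply, charFun_stdGaussian, charFun_gaussianReal]
  rw [← Complex.exp_add]
  congr 1
  have h2 : ‖t - ⟪v, t⟫ • v‖ ^ 2 = ‖t‖ ^ 2 - ⟪v, t⟫ ^ 2 := by
    rw [norm_sub_sq_real, norm_smul, hv, real_inner_smul_right, real_inner_comm]
    simp
    ring
  have h2' : ((‖t - ⟪v, t⟫ • v‖ : ℝ) : ℂ) ^ 2 = (‖t‖ : ℂ) ^ 2 - (⟪v, t⟫ : ℝ) ^ 2 := by
    exact_mod_cast h2
  rw [h2']
  push_cast
  ring

theorem integrable_comp_split (v : E) (hv : ‖v‖ = 1) {f : E → ℝ}
    (hf : Integrable f (stdGaussian E)) :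
    Integrable (fun p : ℝ × E => f (p.1 • v + (p.2 - ⟪v, p.2⟫ • v)))
      ((gaussianReal 0 1).prod (stdGaussian E)) := by
  have hc : Continuous (fun p : ℝ × E => p.1 • v + (p.2 - ⟪v, p.2⟫ • v)) := by fun_prop
  rw [← stdGaussian_split v hv] at hf
  exact (integrable_map_measure hf.aestronglyMeasurable hc.measurable.aemeasurable).1 hf

theorem integral_gaussianReal_phi (h : ℝ → ℝ) :
    ∫ u, h u ∂(gaussianReal 0 1) = ∫ u, h u * phi u := by
  rw [integral_gaussianReal_eq_integral_smul one_ne_zero]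
  refine integral_congr_ae (Filter.Eventually.of_forall fun u => ?_)
  simp only [smul_eq_mul]
  rw [phi_eq_gaussianPDFReal, mul_comm]

theorem integral_split (v : E) (hv : ‖v‖ = 1) {f : E → ℝ} (hf : Integrable f (stdGaussian E)) :
    ∫ y, f y ∂(stdGaussian E) =
      ∫ y, (∫ u, f (u • v + (y - ⟪v, y⟫ • v)) * phi u) ∂(stdGaussian E) := by
  have hc : Continuous (fun p : ℝ × E => p.1 • v + (p.2 - ⟪v, p.2⟫ • v)) := by fun_prop
  have hi := integrable_comp_split v hv hf
  have h1 : ∫ y, f y ∂(stdGaussian E) =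
      ∫ p : ℝ × E, f (p.1 • v + (p.2 - ⟪v, p.2⟫ • v)) ∂((gaussianReal 0 1).prod (stdGaussian E)) := by
    conv_lhs => rw [← stdGaussian_split v hv]
    have hf' := hf
    rw [← stdGaussian_split v hv] at hf'
    rw [integral_map hc.measurable.aemeasurable hf'.aestronglyMeasurable]
  rw [h1, integral_prod_symm _ hi]
  refine integral_congr_ae (Filter.Eventually.of_forall fun y => ?_)
  simp only
  rw [integral_gaussianReal_phi]

theorem integrable_split (v : E) (hv : ‖v‖ = 1) {f : E → ℝ} (hf : Integrable f (stdGaussian E)) :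
    Integrable (fun p : E × ℝ => f (p.2 • v + (p.1 - ⟪v, p.1⟫ • v)) * phi p.2)
      ((stdGaussian E).prod volume) := by
  have hi := (integrable_comp_split v hv hf).swap
  have h1 : (stdGaussian E).prod (gaussianReal 0 1) =
      ((stdGaussian E).prod volume).withDensity (fun p => ENNReal.ofReal (phi p.2)) := by
    rw [gaussianReal_eq_phi]
    rw [prod_withDensity_right]
    unfold phi
    fun_prop
  rw [h1] at hi
  rw [integrable_withDensity_iff_integrable_smul'] at hi
  · refine hi.congr (Filter.Eventually.of_forall fun p => ?_)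
    simp only [Function.comp, Prod.swap]
    rw [ENNReal.toReal_ofReal (by unfold phi; positivity), smul_eq_mul, mul_comm]
  · unfold phi
    fun_prop
  · exact Filter.Eventually.of_forall fun p => ENNReal.ofReal_lt_top

/-- hyperplanes are null -/
theorem stdGaussian_hyperplane (v : E) (hv : v ≠ 0) (c : ℝ) :
    stdGaussian E {y | ⟪v, y⟫ = c} = 0 := by
  have hg : HasGaussianLaw (fun y : E => ⟪v, y⟫) (stdGaussian E) :=
    (IsGaussian.hasGaussianLaw_id (μ := stdGaussian E)).map_fun (innerSL ℝ v)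
  have hm := hg.map_eq_gaussianReal
  have hvar : Var[fun y : E => ⟪v, y⟫; stdGaussian E] = ‖v‖ ^ 2 := by
    have := variance_dual_stdGaussian (E := E) (innerSL ℝ v)
    rw [innerSL_apply_norm] at this
    exact this
  have hne : (Var[fun y : E => ⟪v, y⟫; stdGaussian E]).toNNReal ≠ 0 := by
    rw [hvar]
    have : 0 < ‖v‖ ^ 2 := by positivity
    rw [Ne, Real.toNNReal_eq_zero, not_le]
    exact this
  haveI := nullSingletonClass_gaussianReal (μ := ∫ y, ⟪v, y⟫ ∂(stdGaussian E)) hne
  have h2 : (Measure.map (fun y : E => ⟪v, y⟫) (stdGaussian E)) {c} = 0 := by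
    rw [hm]
    exact measure_singleton c
  rw [Measure.map_apply (by fun_prop) (measurableSet_singleton c)] at h2
  exact h2

end P226
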