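import Vale.Agent.P226_h5.Defs
import Vale.Agent.P226_h5.Split

open MeasureTheory ProbabilityTheory Set
open scoped RealInnerProductSpace

namespace P226

set_option linter.unusedSectionVars false
set_option linter.unusedVariables false

variable {E : Type*} [NormedAddCommGroup E] [InnerProductSpace ℝ E] [FiniteDimensional ℝ E]
  [MeasurableSpace E] [BorelSpace E]

theorem integrable_id_std : Integrable (fun x : E => x) (stdGaussian E) :=
  IsGaussian.integrable_id

theorem integrableOn_id_std (A : Set E) : IntegrableOn (fun x : E => x) A (stdGaussian E) :=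
  integrable_id_std.integrableOn

theorem mom_union {A B : Set E} (hB : MeasurableSet B) (hd : Disjoint A B) :
    mom (A ∪ B) = mom A + mom B := by
  unfold mom
  exact setIntegral_union hd hB (integrableOn_id_std A) (integrableOn_id_std B)

theorem sum_mom {ι : Type*} [Fintype ι] {A : ι → Set E} (hm : ∀ i, MeasurableSet (A i))
    (hd : Pairwise (fun i j => Disjoint (A i) (A j))) : ∑ i, mom (A i) = mom (⋃ i, A i) := by
  unfold mom
  rw [integral_iUnion_fintype hm hd (fun i => integrableOn_id_std (A i))]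

theorem mom_univ : mom (univ : Set E) = 0 := by
  unfold mom
  rw [setIntegral_univ]
  exact integral_id_stdGaussian

theorem sum_w (n : ℕ) (w : Fin (n + 1) → E) (A : Fin (n + 1) → Set E)
    (hA : IsPart A) (hw : ∀ i, mom (A i) = w i) : ∑ i, w i = 0 := by
  simp_rw [← hw]
  rw [sum_mom hA.meas hA.disj, hA.cover, mom_univ]

theorem inner_mom (v : E) (A : Set E) :
    ⟪v, mom A⟫ = ∫ x in A, ⟪v, x⟫ ∂(stdGaussian E) := by
  unfold mom
  exact (integral_inner (integrableOn_id_std A) v).symm

/-- redistribute the cell `i0` over the other cells -/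
theorem isPart_redist {n : ℕ} {A : Fin (n + 1) → Set E} (hA : IsPart A) (i0 : Fin (n + 1))
    {C : Fin n → Set E} (hCm : ∀ l, MeasurableSet (C l))
    (hCd : Pairwise (fun i j => Disjoint (C i) (C j))) (hCu : ⋃ l, C l = A i0) :
    IsPart (fun l => A (i0.succAbove l) ∪ C l) := by
  have hsub : ∀ l, C l ⊆ A i0 := fun l => by
    rw [← hCu]; exact subset_iUnion C l
  have hne : ∀ l, i0.succAbove l ≠ i0 := fun l => Fin.succAbove_ne i0 l
  refine ⟨fun l => (hA.meas _).union (hCm l), ?_, ?_⟩
  · intro l j hlj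
    have h1 : Disjoint (A (i0.succAbove l)) (A (i0.succAbove j)) :=
      hA.disj (fun h => hlj (Fin.succAbove_right_injective h))
    have h2 : Disjoint (A (i0.succAbove l)) (C j) :=
      (hA.disj (hne l)).mono_right (hsub j)
    have h3 : Disjoint (C l) (A (i0.succAbove j)) :=
      (hA.disj (hne j).symm).mono_left (hsub l)
    have h4 := hCd hlj
    exact Disjoint.union_left (Disjoint.union_right h1 h2) (Disjoint.union_right h3 h4)
  · rw [eq_univ_iff_forall]
    intro x
    have hx : x ∈ ⋃ i, A i := by rw [hA.cover]; trivial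
    obtain ⟨i, hi⟩ := mem_iUnion.1 hx
    by_cases h : i = i0
    · subst h
      rw [← hCu] at hi
      obtain ⟨l, hl⟩ := mem_iUnion.1 hi
      exact mem_iUnion.2 ⟨l, Or.inr hl⟩
    · obtain ⟨l, rfl⟩ := Fin.exists_succAbove_eq h
      exact mem_iUnion.2 ⟨l, Or.inl hi⟩

theorem redist_ineq {n : ℕ} {w : Fin (n + 1) → E} {A : Fin (n + 1) → Set E}
    (hA : IsPart A) (hw : ∀ i, mom (A i) = w i)
    (hstrict : ∀ B : Fin n → Set E, IsPart B → ∑ i, ‖mom (B i)‖ ^ 2 < ∑ i, ‖w i‖ ^ 2)
    (i0 : Fin (n + 1)) {C : Fin n → Set E} (hCm : ∀ l, MeasurableSet (C l))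
    (hCd : Pairwise (fun i j => Disjoint (C i) (C j))) (hCu : ⋃ l, C l = A i0) :
    ∑ l, (2 * ⟪w (i0.succAbove l), mom (C l)⟫ + ‖mom (C l)‖ ^ 2) < ‖w i0‖ ^ 2 := by
  have hsub : ∀ l, C l ⊆ A i0 := fun l => by
    rw [← hCu]; exact subset_iUnion C l
  have h1 := hstrict _ (isPart_redist hA i0 hCm hCd hCu)
  rw [Fin.sum_univ_succAbove (fun i => ‖w i‖ ^ 2) i0] at h1
  have h2 : ∀ l, ‖mom (A (i0.succAbove l) ∪ C l)‖ ^ 2 =
      ‖w (i0.succAbove l)‖ ^ 2 +
        (2 * ⟪w (i0.succAbove l), mom (C l)⟫ + ‖mom (C l)‖ ^ 2) := by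
    intro l
    rw [mom_union (hCm l) ((hA.disj (Fin.succAbove_ne i0 l)).mono_right (hsub l)), hw,
      norm_add_sq_real]
    ring
  simp_rw [h2] at h1
  rw [Finset.sum_add_distrib] at h1
  linarith

theorem merge_neg (n : ℕ) (h1 : 1 ≤ n) (w : Fin (n + 1) → E) (A : Fin (n + 1) → Set E)
    (hA : IsPart A) (hw : ∀ i, mom (A i) = w i)
    (hstrict : ∀ B : Fin n → Set E, IsPart B → ∑ i, ‖mom (B i)‖ ^ 2 < ∑ i, ‖w i‖ ^ 2)
    (i j : Fin (n + 1)) (hij : i ≠ j) : ⟪w i, w j⟫ < 0 := by
  obtain ⟨i', hi'⟩ := Fin.exists_succAbove_eq hij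
  have h := redist_ineq hA hw hstrict j (C := fun l => if l = i' then A j else ∅)
    (fun l => by
      by_cases h : l = i'
      · simpa [h] using hA.meas j
      · simp [h])
    (fun a b hab => by
      by_cases ha : a = i'
      · have hb : b ≠ i' := fun hb => hab (ha.trans hb.symm)
        simp [hb]
      · simp [ha])
    (by
      ext x
      simp only [mem_iUnion]
      constructor
      · rintro ⟨l, hl⟩
        by_cases h : l = i'
        · simpa [h] using hl
        · simp [h] at hl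
      · intro hx
        exact ⟨i', by simpa using hx⟩)
  rw [Finset.sum_eq_single i'] at h
  · simp only [if_true] at h
    rw [hw, hi'] at h
    linarith
  · intro b _ hb
    simp [hb, mom]
  · intro hx
    exact absurd (Finset.mem_univ _) hx

/-- first-index argmax partition of a cell -/
theorem exists_argmax_part {n : ℕ} [Nonempty (Fin n)] (W : Fin n → E) {S : Set E}
    (hS : MeasurableSet S) :
    ∃ C : Fin n → Set E, (∀ l, MeasurableSet (C l)) ∧
      Pairwise (fun i j => Disjoint (C i) (C j)) ∧ ⋃ l, C l = S ∧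
      ∀ l, ∀ x ∈ C l, ∀ j, ⟪W j, x⟫ ≤ ⟪W l, x⟫ := by
  refine ⟨fun l => S ∩ ((⋂ j, {x | ⟪W j, x⟫ ≤ ⟪W l, x⟫}) ∩
      ⋂ j, ⋂ (_ : j < l), {x | ⟪W j, x⟫ < ⟪W l, x⟫}), ?_, ?_, ?_, ?_⟩
  · intro l
    refine hS.inter (MeasurableSet.inter (MeasurableSet.iInter fun j => ?_)
      (MeasurableSet.iInter fun j => MeasurableSet.iInter fun _ => ?_))
    · exact measurableSet_le (by fun_prop) (by fun_prop)
    · exact measurableSet_lt (by fun_prop) (by fun_prop)
  · intro l j hlj
    rw [Set.disjoint_left]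
    rintro x ⟨_, hx1, hx2⟩ ⟨_, hy1, hy2⟩
    simp only [mem_iInter] at hx1 hx2 hy1 hy2
    rcases lt_or_gt_of_ne hlj with h | h
    · have a := hy2 l h
      have b := hx1 j
      simp only [mem_ofPred_eq] at a b
      linarith
    · have a := hx2 j h
      have b := hy1 l
      simp only [mem_ofPred_eq] at a b
      linarith
  · ext x
    simp only [mem_iUnion]
    constructor
    · rintro ⟨l, hl⟩
      exact hl.1
    · intro hx
      obtain ⟨l0, _, hl0⟩ := Finset.exists_max_image Finset.univ (fun j => ⟪W j, x⟫)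
        Finset.univ_nonempty
      have hex : ∃ l : Fin n, ∀ j, ⟪W j, x⟫ ≤ ⟪W l, x⟫ := ⟨l0, fun j => hl0 j (Finset.mem_univ _)⟩
      classical
      let T : Finset (Fin n) := Finset.univ.filter (fun l => ∀ j, ⟪W j, x⟫ ≤ ⟪W l, x⟫)
      have hT : T.Nonempty := by
        obtain ⟨l, hl⟩ := hex
        exact ⟨l, by simpa [T] using hl⟩
      refine ⟨T.min' hT, hx, ?_, ?_⟩
      · have := T.min'_mem hT
        simp only [T, Finset.mem_filter, Finset.mem_univ, true_and] at this
        exact mem_iInter.2 this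
      · simp only [mem_iInter]
        intro j hj
        have h1 := T.min'_mem hT
        have h1' : ∀ j, ⟪W j, x⟫ ≤ ⟪W (T.min' hT), x⟫ := by
          have := h1
          simp only [T, Finset.mem_filter, Finset.mem_univ, true_and] at this
          exact this
        by_contra hcon
        have hle : ⟪W (T.min' hT), x⟫ ≤ ⟪W j, x⟫ := not_lt.1 hcon
        have hjT : j ∈ T := by
          simp only [T, Finset.mem_filter, Finset.mem_univ, true_and]
          intro k
          exact (h1' k).trans hle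
        exact absurd (T.min'_le j hjT) (not_le.2 hj)
  · intro l x hx j
    have := hx.2.1
    simp only [mem_iInter] at this
    exact this j

theorem exists_crit (n : ℕ) [Nonempty (Fin n)] (h2 : 2 ≤ n) (w : Fin (n + 1) → E)
    (A : Fin (n + 1) → Set E) (hA : IsPart A) (hw : ∀ i, mom (A i) = w i)
    (hmax : ∀ i, ∀ x ∈ A i, ∀ j, ⟪w j, x⟫ ≤ ⟪w i, x⟫)
    (hstrict : ∀ B : Fin n → Set E, IsPart B → ∑ i, ‖mom (B i)‖ ^ 2 < ∑ i, ‖w i‖ ^ 2) :
    Nonempty (Crit (Fin n) E) := by
  have hneg := merge_neg n (by omega) w A hA hw hstrict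
  have hsum := sum_w n w A hA hw
  obtain ⟨i0, _, hi0⟩ := Finset.exists_min_image Finset.univ (fun i => ‖w i‖)
    Finset.univ_nonempty
  have hmin : ∀ i, ‖w i0‖ ≤ ‖w i‖ := fun i => hi0 i (Finset.mem_univ _)
  set m : ℝ := ‖w i0‖ with hm
  set e : E := m⁻¹ • w i0 with he
  set W : Fin n → E := fun l => w (i0.succAbove l) with hW
  have hWneg : ∀ l, ⟪W l, w i0⟫ < 0 := fun l => hneg _ _ (Fin.succAbove_ne i0 l)
  have hmpos : 0 < m := by
    have hne : w i0 ≠ 0 := by
      intro h0
      obtain ⟨l⟩ := (inferInstance : Nonempty (Fin n))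
      have := hWneg l
      rw [h0, inner_zero_right] at this
      exact lt_irrefl _ this
    exact norm_pos_iff.2 hne
  have hmne : m ≠ 0 := hmpos.ne'
  have hee : ⟪e, e⟫ = (1:ℝ) := by
    rw [he, real_inner_smul_left, real_inner_smul_right, real_inner_self_eq_norm_sq, ← hm]
    field_simp
  have hw0 : w i0 = m • e := by
    rw [he, smul_smul, mul_inv_cancel₀ hmne, one_smul]
  set ε : Fin n → ℝ := fun l => -(m⁻¹ * ⟪W l, e⟫) with hε
  set V : Fin n → E := fun l => m⁻¹ • W l + ε l • e with hV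
  have hsumW : ∑ l, W l = - w i0 := by
    rw [Fin.sum_univ_succAbove w i0] at hsum
    exact eq_neg_of_add_eq_zero_right hsum
  have hWe : ∀ l, ⟪W l, e⟫ = -(ε l * m) := by
    intro l
    simp only [hε]
    field_simp
  have hse : ∑ l, ε l = 1 := by
    simp only [hε]
    rw [Finset.sum_neg_distrib, ← Finset.mul_sum, ← sum_inner, hsumW, hw0, ← hw0, inner_neg_left,
      hw0, real_inner_smul_left, hee]
    field_simp
  have hWV : ∀ l, W l = m • V l - (ε l * m) • e := by
    intro l
    simp only [hV]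
    rw [smul_add, smul_smul, mul_inv_cancel₀ hmne, one_smul, smul_smul, mul_comm (ε l) m]
    abel
  have hVe : ∀ l, ⟪V l, e⟫ = (0:ℝ) := by
    intro l
    simp only [hV]
    rw [inner_add_left, real_inner_smul_left, real_inner_smul_left, hee, hWe]
    field_simp
    ring
  have heV : ∀ l, ⟪e, V l⟫ = (0:ℝ) := fun l => by rw [real_inner_comm]; exact hVe l
  have hWW : ∀ l j, ⟪W l, W j⟫ = m ^ 2 * ⟪V l, V j⟫ + m ^ 2 * (ε l * ε j) := by
    intro l j
    rw [hWV l, hWV j]
    simp only [inner_sub_left, inner_sub_right, real_inner_smul_left, real_inner_smul_right,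
      hVe, heV, hee]
    ring
  have heps : ∀ l, 0 ≤ ε l := by
    intro l
    have h1 := hWneg l
    rw [hw0, real_inner_smul_right, hWe] at h1
    by_contra hcon
    push Not at hcon
    have : 0 < m * (-(ε l * m)) := by
      have : 0 < -(ε l) := by linarith
      have h3 : 0 < m * m * (-(ε l)) := by positivity
      nlinarith
    linarith
  let F : Frame (Fin n) E :=
    { e := e
      V := V
      ε := ε
      m := m
      norm_e := by
        have : ‖e‖ ^ 2 = 1 := by rw [← real_inner_self_eq_norm_sq, hee]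
        nlinarith [norm_nonneg e, sq_nonneg (‖e‖ - 1)]
      m_pos := hmpos
      eps_nonneg := heps
      sum_eps := hse
      V_perp := hVe
      sum_V := by
        simp only [hV]
        rw [Finset.sum_add_distrib, ← Finset.smul_sum, hsumW, ← Finset.sum_smul, hse, hw0,
          smul_neg, smul_smul, inv_mul_cancel₀ hmne]
        simp
      V_neg := by
        intro l j hlj
        have h1 : ⟪W l, W j⟫ < 0 :=
          hneg _ _ (fun h => hlj (Fin.succAbove_right_injective h))
        rw [hWW] at h1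
        have h2 : 0 ≤ m ^ 2 * (ε l * ε j) := by
          have := heps l
          have := heps j
          positivity
        have h3 : m ^ 2 * ⟪V l, V j⟫ < 0 := by linarith
        have h4 : 0 < m ^ 2 := by positivity
        by_contra hcon
        push Not at hcon
        have : 0 ≤ m ^ 2 * ⟪V l, V j⟫ := mul_nonneg h4.le hcon
        linarith
      V_norm := by
        intro l
        have h1 : ⟪W l, W l⟫ = m ^ 2 * ⟪V l, V l⟫ + m ^ 2 * (ε l * ε l) := hWW l l
        rw [real_inner_self_eq_norm_sq, real_inner_self_eq_norm_sq] at h1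
        have h2 : m ≤ ‖W l‖ := hmin _
        have h3 : m ^ 2 ≤ ‖W l‖ ^ 2 := by nlinarith
        have h4 : 0 < m ^ 2 := by positivity
        have h5 : m ^ 2 * 1 ≤ m ^ 2 * (‖V l‖ ^ 2 + ε l * ε l) := by linarith
        have h6 := le_of_mul_le_mul_left h5 h4
        nlinarith }
  have hLx : ∀ l x, F.o l * ⟪F.e, x⟫ - F.Z l x = m⁻¹ * (⟪w i0, x⟫ - ⟪W l, x⟫) := by
    intro l x
    change (1 + ε l) * ⟪e, x⟫ - ⟪m⁻¹ • W l + ε l • e, x⟫ = _
    rw [inner_add_left, real_inner_smul_left (W l), real_inner_smul_left e]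
    have : ⟪w i0, x⟫ = m * ⟪e, x⟫ := by
      conv_lhs => rw [hw0, real_inner_smul_left]
    rw [this]
    field_simp
    ring
  have hK : F.K = {x | ∀ l, ⟪W l, x⟫ ≤ ⟪w i0, x⟫} := by
    ext x
    simp only [Frame.K, mem_ofPred_eq]
    refine forall_congr' fun l => ?_
    have h := hLx l x
    have hminv : 0 < m⁻¹ := inv_pos.2 hmpos
    constructor
    · intro hle
      have h1 : 0 ≤ m⁻¹ * (⟪w i0, x⟫ - ⟪W l, x⟫) := by rw [← h]; linarith
      have := nonneg_of_mul_nonneg_right h1 hminv
      linarith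
    · intro hle
      have h1 : 0 ≤ m⁻¹ * (⟪w i0, x⟫ - ⟪W l, x⟫) :=
        mul_nonneg hminv.le (by linarith)
      rw [← h] at h1
      linarith
  have hAK : A i0 ⊆ F.K := by
    rw [hK]
    intro x hx l
    exact hmax i0 x hx _
  have hKA : F.K =ᵐ[stdGaussian E] A i0 := by
    have hnull : stdGaussian E (⋃ l, {y | ⟪w i0 - W l, y⟫ = 0}) = 0 := by
      rw [measure_iUnion_null_iff]
      intro l
      apply stdGaussian_hyperplane
      intro h0
      have h1 := hWneg l
      have h2 : W l = w i0 := (sub_eq_zero.1 h0).symm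
      rw [h2, real_inner_self_eq_norm_sq] at h1
      have : 0 ≤ ‖w i0‖ ^ 2 := sq_nonneg _
      linarith
    refine (ae_eq_set).2 ⟨?_, ?_⟩
    · refine measure_mono_null ?_ hnull
      rintro x ⟨hxK, hxA⟩
      have hx : x ∈ ⋃ i, A i := by rw [hA.cover]; trivial
      obtain ⟨i, hi⟩ := mem_iUnion.1 hx
      have hne : i ≠ i0 := fun h => hxA (h ▸ hi)
      obtain ⟨l, rfl⟩ := Fin.exists_succAbove_eq hne
      rw [hK] at hxK
      refine mem_iUnion.2 ⟨l, ?_⟩
      have a := hmax _ x hi i0
      have b := hxK l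
      simp only [mem_ofPred_eq, inner_sub_left]
      change ⟪w i0, x⟫ ≤ ⟪W l, x⟫ at a
      linarith
    · rw [sdiff_eq_empty.2 hAK]
      exact measure_empty
  obtain ⟨C, hCm, hCd, hCu, hCmax⟩ := exists_argmax_part W (hA.meas i0)
  have hred := redist_ineq hA hw hstrict i0 hCm hCd hCu
  have hsumC : ∑ l, mom (C l) = w i0 := by
    rw [sum_mom hCm hCd, hCu, hw]
  have hminL : ∀ l, ∀ x ∈ C l, F.minL x = m⁻¹ * ⟪w i0 - W l, x⟫ := by
    intro l x hx
    unfold Frame.minL
    apply le_antisymm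
    · refine (Finset.inf'_le _ (Finset.mem_univ l)).trans ?_
      rw [hLx, inner_sub_left]
    · apply Finset.le_inf'
      intro j _
      rw [hLx, inner_sub_left]
      have := hCmax l x hx j
      have hminv : 0 < m⁻¹ := inv_pos.2 hmpos
      exact mul_le_mul_of_nonneg_left (by linarith) hminv.le
  have hint : ∫ x in F.K, F.minL x ∂(stdGaussian E) =
      m⁻¹ * ∑ l, ⟪w i0 - W l, mom (C l)⟫ := by
    rw [setIntegral_congr_set hKA, ← hCu]
    have hli : ∀ l, IntegrableOn (fun x => m⁻¹ * ⟪w i0 - W l, x⟫) (C l) (stdGaussian E) := by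
      intro l
      exact ((integrableOn_id_std (C l)).const_inner (w i0 - W l)).const_mul _
    rw [integral_iUnion_fintype hCm hCd (fun l =>
      (hli l).congr_fun (fun x hx => (hminL l x hx).symm) (hCm l))]
    rw [Finset.mul_sum]
    refine Finset.sum_congr rfl fun l _ => ?_
    rw [setIntegral_congr_fun (hCm l) (fun x hx => hminL l x hx), integral_const_mul, inner_mom]
  have hcs : m ^ 2 ≤ n * ∑ l, ‖mom (C l)‖ ^ 2 := by
    have h1 : m = ‖∑ l, mom (C l)‖ := by rw [hsumC]
    have h2 : ‖∑ l, mom (C l)‖ ≤ ∑ l, ‖mom (C l)‖ := norm_sum_le _ _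
    have h3 : (∑ l, ‖mom (C l)‖) ^ 2 ≤ n * ∑ l, ‖mom (C l)‖ ^ 2 := by
      have := sq_sum_le_card_mul_sum_sq (s := (Finset.univ : Finset (Fin n)))
        (f := fun l => ‖mom (C l)‖)
      simpa using this
    have h4 : m ^ 2 ≤ (∑ l, ‖mom (C l)‖) ^ 2 := by
      rw [h1]
      exact pow_le_pow_left₀ (norm_nonneg _) h2 2
    linarith
  have hIval : m * ∫ x in F.K, F.minL x ∂(stdGaussian E) =
      m ^ 2 - ∑ l, ⟪W l, mom (C l)⟫ := by
    rw [hint, ← mul_assoc, mul_inv_cancel₀ hmne, one_mul]
    simp_rw [inner_sub_left]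
    rw [Finset.sum_sub_distrib, ← inner_sum, hsumC, real_inner_self_eq_norm_sq]
  refine ⟨{ toFrame := F, moment_K := ?_, removal := ?_ }⟩
  · rw [setIntegral_congr_set hKA]
    have := hw i0
    unfold mom at this
    rw [this]
    exact hw0
  · have hn : (0:ℝ) < n := by
      have : 0 < n := by omega
      exact_mod_cast this
    rw [Fintype.card_fin]
    rw [Finset.sum_add_distrib, ← Finset.mul_sum] at hred
    change 2 * ∑ l, ⟪W l, mom (C l)⟫ + ∑ l, ‖mom (C l)‖ ^ 2 < m ^ 2 at hred
    have h5 : m ^ 2 / n ≤ ∑ l, ‖mom (C l)‖ ^ 2 := by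
      rw [div_le_iff₀ hn]
      linarith
    have h6 : m * (((n:ℝ) + 1) / (2 * n) * m) <
        m * ∫ x in F.K, F.minL x ∂(stdGaussian E) := by
      rw [hIval]
      have h7 : m * (((n:ℝ) + 1) / (2 * n) * m) = (m ^ 2 + m ^ 2 / n) / 2 := by
        field_simp
      rw [h7]
      linarith
    exact lt_of_mul_lt_mul_left h6 hmpos.le

end P226
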