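import Vale.Agent.P226_h5.Defs

/-! P226 module OPT: existence of a maximiser. -/

open MeasureTheory ProbabilityTheory Set Filter Topology
open scoped RealInnerProductSpace

namespace P226

variable {E : Type*} [NormedAddCommGroup E] [InnerProductSpace ℝ E] [FiniteDimensional ℝ E]
  [MeasurableSpace E] [BorelSpace E]

section opt

variable {k : ℕ} [NeZero k]

/-- pointwise maximum of the linear forms -/
noncomputable def op_mx (w : Fin k → E) (x : E) : ℝ :=
  Finset.univ.sup' Finset.univ_nonempty (fun i => (⟪w i, x⟫ : ℝ))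

/-- argmax cells, ties broken by the first index -/
def op_cell (w : Fin k → E) (i : Fin k) : Set E :=
  {x | (∀ j, ⟪w j, x⟫ ≤ ⟪w i, x⟫) ∧ ∀ j, j < i → ⟪w j, x⟫ < ⟪w i, x⟫}

theorem op_cell_part (w : Fin k → E) : IsPart (op_cell w) := by
  refine ⟨fun i => ?_, fun i j hij => ?_, ?_⟩
  · have : op_cell w i = (⋂ j, {x : E | ⟪w j, x⟫ ≤ ⟪w i, x⟫}) ∩
        ⋂ j, ⋂ (_ : j < i), {x : E | ⟪w j, x⟫ < ⟪w i, x⟫} := by
      ext x; simp [op_cell]
    rw [this]
    refine MeasurableSet.inter (MeasurableSet.iInter fun j => ?_)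
      (MeasurableSet.iInter fun j => MeasurableSet.iInter fun _ => ?_)
    · exact (isClosed_le (by fun_prop) (by fun_prop)).measurableSet
    · exact (isOpen_lt (by fun_prop) (by fun_prop)).measurableSet
  · show Disjoint (op_cell w i) (op_cell w j)
    rw [Set.disjoint_left]
    rintro x ⟨h1, h2⟩ ⟨h3, h4⟩
    rcases lt_or_gt_of_ne hij with h | h
    · exact absurd (h4 i h) (not_lt.2 (h1 j))
    · exact absurd (h2 j h) (not_lt.2 (h3 i))
  · refine eq_univ_of_forall fun x => ?_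
    obtain ⟨i0, -, hi0⟩ := Finset.exists_max_image (Finset.univ : Finset (Fin k))
      (fun i => (⟪w i, x⟫ : ℝ)) Finset.univ_nonempty
    classical
    set S : Finset (Fin k) := Finset.univ.filter (fun i => ∀ j, (⟪w j, x⟫ : ℝ) ≤ ⟪w i, x⟫) with hS
    have hne : S.Nonempty := ⟨i0, by
      rw [hS, Finset.mem_filter]
      exact ⟨Finset.mem_univ _, fun j => hi0 j (Finset.mem_univ j)⟩⟩
    have hm := S.min'_mem hne
    rw [mem_iUnion]
    refine ⟨S.min' hne, ?_, ?_⟩
    · exact (Finset.mem_filter.1 hm).2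
    · intro j hj
      by_contra hcon
      have h1 : ∀ l, (⟪w l, x⟫ : ℝ) ≤ ⟪w j, x⟫ := fun l =>
        ((Finset.mem_filter.1 hm).2 l).trans (not_lt.1 hcon)
      have h2 : j ∈ S := by
        rw [hS, Finset.mem_filter]; exact ⟨Finset.mem_univ _, h1⟩
      exact absurd (S.min'_le j h2) (not_le.2 hj)

theorem op_mx_continuous (w : Fin k → E) : Continuous (op_mx w) := by
  unfold op_mx
  exact Continuous.finset_sup'_apply _ fun l _ => by fun_prop

omit [FiniteDimensional ℝ E] [MeasurableSpace E] [BorelSpace E] in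
theorem op_mx_le_add (w w' : Fin k → E) (x : E) : op_mx w x ≤ op_mx w' x + ‖w - w'‖ * ‖x‖ := by
  unfold op_mx
  apply Finset.sup'_le
  intro i _
  have h1 : (⟪w i, x⟫ : ℝ) = ⟪w' i, x⟫ + ⟪(w - w') i, x⟫ := by
    rw [Pi.sub_apply, inner_sub_left]; ring
  rw [h1]
  apply add_le_add
  · exact Finset.le_sup' (fun i => (⟪w' i, x⟫ : ℝ)) (Finset.mem_univ i)
  · calc (⟪(w - w') i, x⟫ : ℝ) ≤ ‖(w - w') i‖ * ‖x‖ := real_inner_le_norm _ _
      _ ≤ ‖w - w'‖ * ‖x‖ := by gcongr; exact norm_le_pi_norm _ i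

omit [FiniteDimensional ℝ E] [MeasurableSpace E] [BorelSpace E] in
theorem op_mx_zero (x : E) : op_mx (0 : Fin k → E) x = 0 := by
  unfold op_mx
  simp

omit [FiniteDimensional ℝ E] [MeasurableSpace E] [BorelSpace E] in
theorem op_abs_mx_le (w : Fin k → E) (x : E) : |op_mx w x| ≤ ‖w‖ * ‖x‖ := by
  rw [abs_le]
  have h1 := op_mx_le_add w 0 x
  have h2 := op_mx_le_add 0 w x
  rw [op_mx_zero] at h1 h2
  rw [sub_zero] at h1
  rw [zero_sub, norm_neg] at h2
  constructor <;> linarith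

theorem op_integrable_norm : Integrable (fun x : E => ‖x‖) (stdGaussian E) :=
  (IsGaussian.integrable_id (μ := stdGaussian E)).norm

theorem op_integrable_mx (w : Fin k → E) : Integrable (op_mx w) (stdGaussian E) := by
  refine (op_integrable_norm.const_mul ‖w‖).mono' (op_mx_continuous w).aestronglyMeasurable ?_
  exact Eventually.of_forall fun x => op_abs_mx_le w x

/-- `Φ(w) = ∫ max_i ⟪w_i, x⟫` -/
noncomputable def op_Phi (w : Fin k → E) : ℝ := ∫ x, op_mx w x ∂(stdGaussian E)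

theorem op_Phi_lip (w w' : Fin k → E) :
    op_Phi w ≤ op_Phi w' + ‖w - w'‖ * ∫ x, ‖x‖ ∂(stdGaussian E) := by
  unfold op_Phi
  rw [← integral_const_mul, ← integral_add (op_integrable_mx w')
    (op_integrable_norm.const_mul _)]
  exact integral_mono (op_integrable_mx w)
    ((op_integrable_mx w').add (op_integrable_norm.const_mul _)) (fun x => op_mx_le_add w w' x)

theorem op_Phi_continuous : Continuous (op_Phi : (Fin k → E) → ℝ) := by
  set M : ℝ := ∫ x, ‖x‖ ∂(stdGaussian E) with hM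
  have hM0 : 0 ≤ M := integral_nonneg fun x => norm_nonneg _
  refine LipschitzWith.continuous (K := ⟨M, hM0⟩) (LipschitzWith.of_dist_le_mul fun w w' => ?_)
  rw [Real.dist_eq, dist_eq_norm]
  have h1 := op_Phi_lip w w'
  have h2 := op_Phi_lip w' w
  rw [norm_sub_rev] at h2
  rw [abs_le]
  show -(M * ‖w - w'‖) ≤ _ ∧ _ ≤ M * ‖w - w'‖
  constructor <;> nlinarith

theorem op_inner_mom (v : E) (A : Set E) :
    ⟪v, mom A⟫ = ∫ x in A, ⟪v, x⟫ ∂(stdGaussian E) := by
  have hint : Integrable (fun x : E => x) ((stdGaussian E).restrict A) :=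
    (IsGaussian.integrable_id (μ := stdGaussian E)).integrableOn
  exact (integral_inner (𝕜 := ℝ) hint v).symm

theorem op_integrable_inner (v : E) : Integrable (fun x : E => (⟪v, x⟫ : ℝ)) (stdGaussian E) :=
  (IsGaussian.integrable_id (μ := stdGaussian E)).const_inner v

theorem op_Phi_part (w : Fin k → E) {B : Fin k → Set E} (hB : IsPart B) :
    op_Phi w = ∑ i, ∫ x in B i, op_mx w x ∂(stdGaussian E) := by
  have h := integral_iUnion (μ := stdGaussian E) (f := op_mx w) hB.meas hB.disj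
    ((op_integrable_mx w).integrableOn)
  rw [hB.cover, setIntegral_univ, tsum_fintype] at h
  exact h

theorem op_le_Phi (w : Fin k → E) {B : Fin k → Set E} (hB : IsPart B) :
    ∑ i, (⟪w i, mom (B i)⟫ : ℝ) ≤ op_Phi w := by
  rw [op_Phi_part w hB]
  refine Finset.sum_le_sum fun i _ => ?_
  rw [op_inner_mom]
  refine setIntegral_mono (op_integrable_inner (w i)).integrableOn
    (op_integrable_mx w).integrableOn fun x => ?_
  exact Finset.le_sup' (fun i => (⟪w i, x⟫ : ℝ)) (Finset.mem_univ i)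

theorem op_eq_Phi (w : Fin k → E) :
    ∑ i, (⟪w i, mom (op_cell w i)⟫ : ℝ) = op_Phi w := by
  rw [op_Phi_part w (op_cell_part w)]
  refine Finset.sum_congr rfl fun i _ => ?_
  rw [op_inner_mom]
  refine setIntegral_congr_fun ((op_cell_part w).meas i) fun x hx => ?_
  apply le_antisymm
  · exact Finset.le_sup' (fun i => (⟪w i, x⟫ : ℝ)) (Finset.mem_univ i)
  · exact Finset.sup'_le _ _ fun j _ => hx.1 j

/-- the functional -/
noncomputable def op_G (w : Fin k → E) : ℝ := 2 * op_Phi w - ∑ i, ‖w i‖ ^ 2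

theorem op_exists_max : ∃ w : Fin k → E, ∀ w' : Fin k → E, op_G w' ≤ op_G w := by
  set M : ℝ := ∫ x, ‖x‖ ∂(stdGaussian E) with hM
  have hM0 : 0 ≤ M := integral_nonneg fun x => norm_nonneg _
  have hcont : Continuous (op_G : (Fin k → E) → ℝ) := by
    unfold op_G
    exact (continuous_const.mul op_Phi_continuous).sub (by fun_prop)
  have hcomp : IsCompact (Metric.closedBall (0 : Fin k → E) (2 * M)) := isCompact_closedBall _ _
  obtain ⟨w, -, hw⟩ := hcomp.exists_isMaxOn ⟨0, by simp [hM0]⟩ hcont.continuousOn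
  refine ⟨w, fun w' => ?_⟩
  have hG0 : op_G (0 : Fin k → E) = 0 := by
    unfold op_G op_Phi
    simp [op_mx_zero]
  by_cases h : w' ∈ Metric.closedBall (0 : Fin k → E) (2 * M)
  · exact hw h
  · have h0 : op_G (0 : Fin k → E) ≤ op_G w := hw (by simp [hM0])
    refine le_trans ?_ h0
    rw [hG0]
    rw [Metric.mem_closedBall, dist_zero_right, not_le] at h
    have h1 : op_Phi w' ≤ ‖w'‖ * M := by
      have := op_Phi_lip w' 0
      have e : op_Phi (0 : Fin k → E) = 0 := by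
        unfold op_Phi; simp [op_mx_zero]
      rw [e, sub_zero, zero_add] at this
      exact this
    have h2 : ‖w'‖ ^ 2 ≤ ∑ i, ‖w' i‖ ^ 2 := by
      obtain ⟨i, hi⟩ : ∃ i, ‖w'‖ = ‖w' i‖ := by
        obtain ⟨i, -, hi⟩ := Finset.exists_max_image (Finset.univ : Finset (Fin k))
          (fun i => ‖w' i‖) Finset.univ_nonempty
        refine ⟨i, le_antisymm ?_ (norm_le_pi_norm _ i)⟩
        exact (pi_norm_le_iff_of_nonneg (norm_nonneg _)).2 fun j => hi j (Finset.mem_univ j)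
      rw [hi]
      exact Finset.single_le_sum (f := fun i => ‖w' i‖ ^ 2) (fun i _ => sq_nonneg _)
        (Finset.mem_univ i)
    unfold op_G
    have h3 : 0 ≤ ‖w'‖ := norm_nonneg _
    nlinarith

end opt

theorem exists_opt (k : ℕ) (hk : 0 < k) :
    ∃ w : Fin k → E, ∃ A : Fin k → Set E, IsPart A ∧ (∀ i, mom (A i) = w i) ∧
      (∀ i, ∀ x ∈ A i, ∀ j, ⟪w j, x⟫ ≤ ⟪w i, x⟫) ∧
      ∀ B : Fin k → Set E, IsPart B → ∑ i, ‖mom (B i)‖ ^ 2 ≤ ∑ i, ‖w i‖ ^ 2 := by
  have : NeZero k := ⟨hk.ne'⟩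
  obtain ⟨w, hw⟩ := op_exists_max (E := E) (k := k)
  have hz : ∀ i, mom (op_cell w i) = w i := by
    set z : Fin k → E := fun i => mom (op_cell w i) with hzdef
    have h1 := hw z
    have h2 : ∑ i, (⟪z i, mom (op_cell w i)⟫ : ℝ) ≤ op_Phi z := op_le_Phi z (op_cell_part w)
    have h3 : ∑ i, (⟪w i, z i⟫ : ℝ) = op_Phi w := op_eq_Phi w
    have h4 : ∑ i, (⟪z i, mom (op_cell w i)⟫ : ℝ) = ∑ i, ‖z i‖ ^ 2 :=
      Finset.sum_congr rfl fun i _ => real_inner_self_eq_norm_sq (z i)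
    have h5 : ∑ i, ‖z i - w i‖ ^ 2 = ∑ i, ‖z i‖ ^ 2 - 2 * ∑ i, (⟪w i, z i⟫ : ℝ) +
        ∑ i, ‖w i‖ ^ 2 := by
      rw [Finset.mul_sum, ← Finset.sum_sub_distrib, ← Finset.sum_add_distrib]
      refine Finset.sum_congr rfl fun i _ => ?_
      rw [norm_sub_sq_real, real_inner_comm]
    have h6 : ∑ i, ‖z i - w i‖ ^ 2 ≤ 0 := by
      rw [h5, h3]
      unfold op_G at h1
      rw [h4] at h2
      linarith
    intro i
    have h7 : ‖z i - w i‖ ^ 2 ≤ 0 :=
      (Finset.single_le_sum (f := fun i => ‖z i - w i‖ ^ 2) (fun i _ => sq_nonneg _)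
        (Finset.mem_univ i)).trans h6
    have h8 : ‖z i - w i‖ = 0 := by
      have := sq_nonneg ‖z i - w i‖
      have h9 : ‖z i - w i‖ ^ 2 = 0 := le_antisymm h7 this
      exact pow_eq_zero_iff (two_ne_zero) |>.1 h9
    exact sub_eq_zero.1 (norm_eq_zero.1 h8)
  refine ⟨w, op_cell w, op_cell_part w, hz, fun i x hx j => hx.1 j, fun B hB => ?_⟩
  have h1 := hw (fun i => mom (B i))
  have h2 : ∑ i, (⟪mom (B i), mom (B i)⟫ : ℝ) ≤ op_Phi (fun i => mom (B i)) :=
    op_le_Phi (fun i => mom (B i)) hB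
  have h3 : ∑ i, (⟪mom (B i), mom (B i)⟫ : ℝ) = ∑ i, ‖mom (B i)‖ ^ 2 :=
    Finset.sum_congr rfl fun i _ => real_inner_self_eq_norm_sq _
  have h4 : op_G w = ∑ i, ‖w i‖ ^ 2 := by
    unfold op_G
    rw [← op_eq_Phi w]
    have : ∑ i, (⟪w i, mom (op_cell w i)⟫ : ℝ) = ∑ i, ‖w i‖ ^ 2 :=
      Finset.sum_congr rfl fun i _ => by rw [hz i, real_inner_self_eq_norm_sq]
    rw [this]; ring
  unfold op_G at h1
  rw [h3] at h2
  have h5 : 2 * op_Phi w - ∑ i, ‖w i‖ ^ 2 = ∑ i, ‖w i‖ ^ 2 := h4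
  linarith

end P226
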