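import Vale.Agent.P226_h5.Split

open MeasureTheory ProbabilityTheory Set Filter
open scoped RealInnerProductSpace Topology

namespace P226

theorem phi_pos (x : ℝ) : 0 < phi x := by
  unfold phi
  positivity

theorem phi_nonneg (x : ℝ) : 0 ≤ phi x := (phi_pos x).le

theorem continuous_phi : Continuous phi := by
  unfold phi
  fun_prop

theorem measurable_phi : Measurable phi := continuous_phi.measurable

theorem phi_neg (x : ℝ) : phi (-x) = phi x := by
  unfold phi
  simp

theorem phi_le_phi_zero (x : ℝ) : phi x ≤ phi 0 := by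
  unfold phi
  apply mul_le_mul_of_nonneg_left _ (by positivity)
  apply Real.exp_le_exp.2
  nlinarith [sq_nonneg x]

theorem phi_le_one (x : ℝ) : phi x ≤ 1 := by
  unfold phi
  have h1 : (1:ℝ) ≤ Real.sqrt (2 * Real.pi) := by
    rw [Real.one_le_sqrt]
    nlinarith [Real.pi_gt_three]
  have h2 : (Real.sqrt (2 * Real.pi))⁻¹ ≤ 1 := inv_le_one_of_one_le₀ h1
  have h3 : Real.exp (-x ^ 2 / 2) ≤ 1 := by
    rw [Real.exp_le_one_iff]
    nlinarith [sq_nonneg x]
  calc _ ≤ 1 * 1 := mul_le_mul h2 h3 (Real.exp_pos _).le (by norm_num)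
    _ = 1 := by norm_num

theorem integrable_phi : Integrable phi := by
  have := integrable_gaussianPDFReal 0 1
  exact this.congr (Filter.Eventually.of_forall fun x => (phi_eq_gaussianPDFReal x).symm)

theorem integral_phi : ∫ x, phi x = 1 := by
  have := integral_gaussianPDFReal_eq_one 0 (v := 1) one_ne_zero
  rw [← this]
  exact integral_congr_ae (Filter.Eventually.of_forall fun x => phi_eq_gaussianPDFReal x)

theorem hasDerivAt_phi (x : ℝ) : HasDerivAt phi (-x * phi x) x := by
  unfold phi
  have h1 : HasDerivAt (fun x : ℝ => -x ^ 2 / 2) (-x) x := by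
    have h0 : HasDerivAt (fun x : ℝ => -(x ^ 2) / 2) (-(2 * x) / 2) x := by
      have h := ((hasDerivAt_pow 2 x).fun_neg.div_const 2)
      refine h.congr_deriv ?_
      norm_num
    refine h0.congr_deriv ?_
    ring
  have h2 := (h1.exp).const_mul (Real.sqrt (2 * Real.pi))⁻¹
  refine h2.congr_deriv ?_
  ring

theorem integrable_mul_phi : Integrable (fun x : ℝ => x * phi x) := by
  have h := integrable_mul_exp_neg_mul_sq (b := 1 / 2) (by norm_num)
  have h2 := h.const_mul (Real.sqrt (2 * Real.pi))⁻¹
  refine h2.congr (Filter.Eventually.of_forall fun x => ?_)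
  simp only [phi]
  have : -(1 / 2 : ℝ) * x ^ 2 = -x ^ 2 / 2 := by ring
  rw [this]
  ring

theorem tendsto_phi_atTop : Tendsto phi atTop (𝓝 0) := by
  unfold phi
  rw [show (0:ℝ) = (Real.sqrt (2 * Real.pi))⁻¹ * 0 by simp]
  apply Tendsto.const_mul
  apply Real.tendsto_exp_atBot.comp
  have : Tendsto (fun x : ℝ => x ^ 2 / 2) atTop atTop := by
    apply Tendsto.atTop_div_const (by norm_num)
    exact tendsto_pow_atTop (by norm_num)
  have h2 := tendsto_neg_atTop_atBot.comp this
  refine h2.congr fun x => ?_
  simp only [Function.comp]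
  ring

theorem hasDerivAt_tail (x : ℝ) : HasDerivAt tail (-phi x) x := by
  have h1 : ∀ y, tail y = (∫ t in Ioi x, phi t) - ∫ t in x..y, phi t := by
    intro y
    unfold tail
    rw [eq_sub_iff_add_eq, add_comm]
    exact intervalIntegral.integral_interval_add_Ioi integrable_phi.integrableOn
      integrable_phi.integrableOn
  have h2 : HasDerivAt (fun y => (∫ t in Ioi x, phi t) - ∫ t in x..y, phi t) (-phi x) x := by
    have h3 := intervalIntegral.integral_hasDerivAt_right (a := x) (b := x)
      (f := phi) (by simp) (continuous_phi.stronglyMeasurableAtFilter _ _) continuous_phi.continuousAt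
    have := h3.const_sub (∫ t in Ioi x, phi t)
    simpa using this
  exact h2.congr_of_eventuallyEq (Filter.Eventually.of_forall h1)

theorem continuous_tail : Continuous tail :=
  continuous_iff_continuousAt.2 fun x => (hasDerivAt_tail x).continuousAt

theorem tail_nonneg (x : ℝ) : 0 ≤ tail x :=
  setIntegral_nonneg measurableSet_Ioi fun t _ => phi_nonneg t

theorem tail_pos (x : ℝ) : 0 < tail x := by
  unfold tail
  rw [setIntegral_pos_iff_support_of_nonneg_ae]
  · have : Function.support phi ∩ Ioi x = Ioi x := by
      ext t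
      simp [(phi_pos t).ne']
    rw [this]
    simp
  · exact Filter.Eventually.of_forall fun t => phi_nonneg t
  · exact integrable_phi.integrableOn

theorem tail_le_one (x : ℝ) : tail x ≤ 1 := by
  unfold tail
  rw [← integral_phi]
  exact setIntegral_le_integral integrable_phi (Filter.Eventually.of_forall fun t => phi_nonneg t)

theorem tail_antitone : Antitone tail := by
  intro a b hab
  unfold tail
  exact setIntegral_mono_set integrable_phi.integrableOn
    (Filter.Eventually.of_forall fun t => phi_nonneg t)
    (LE.le.eventuallyLE (Ioi_subset_Ioi hab))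

theorem integral_Ioi_mul_phi (x : ℝ) : ∫ t in Ioi x, t * phi t = phi x := by
  have h1 : ∀ t ∈ Ici x, HasDerivAt (fun t => -phi t) (t * phi t) t := by
    intro t _
    have := (hasDerivAt_phi t).neg
    refine this.congr_deriv ?_
    ring
  have h2 : Tendsto (fun t => -phi t) atTop (𝓝 (-0)) := tendsto_phi_atTop.neg
  have h3 := integral_Ioi_of_hasDerivAt_of_tendsto' h1 integrable_mul_phi.integrableOn h2
  rw [h3]
  simp

theorem integral_Ioi_sub_mul_phi (x : ℝ) : ∫ t in Ioi x, (t - x) * phi t = psi x := by
  have h1 : ∀ t, (t - x) * phi t = t * phi t - x * phi t := fun t => by ring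
  simp_rw [h1]
  rw [integral_sub integrable_mul_phi.integrableOn (integrable_phi.const_mul x).integrableOn,
    integral_Ioi_mul_phi, integral_const_mul]
  rfl

theorem psi_nonneg (x : ℝ) : 0 ≤ psi x := by
  rw [← integral_Ioi_sub_mul_phi]
  refine setIntegral_nonneg measurableSet_Ioi fun t ht => ?_
  have : x < t := ht
  have := phi_nonneg t
  nlinarith [mul_nonneg (sub_nonneg.2 (le_of_lt (show x < t from ht))) this]

theorem psi_le_phi (x : ℝ) (hx : 0 ≤ x) : psi x ≤ phi x := by
  unfold psi
  nlinarith [mul_nonneg hx (tail_nonneg x)]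

theorem hasDerivAt_psi (x : ℝ) : HasDerivAt psi (-tail x) x := by
  unfold psi
  have h1 := (hasDerivAt_phi x).sub ((hasDerivAt_id x).mul (hasDerivAt_tail x))
  refine h1.congr_deriv ?_
  simp only [id]
  ring

theorem continuous_psi : Continuous psi :=
  continuous_iff_continuousAt.2 fun x => (hasDerivAt_psi x).continuousAt

theorem tail_zero : tail 0 = 1 / 2 := by
  have h1 : (∫ t in Iic (0:ℝ), phi t) + ∫ t in Ioi (0:ℝ), phi t = 1 := by
    rw [← integral_phi]
    exact intervalIntegral.integral_Iic_add_Ioi integrable_phi.integrableOn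
      integrable_phi.integrableOn
  have h2 : ∫ t in Iic (0:ℝ), phi t = ∫ t in Ioi (0:ℝ), phi t := by
    have := integral_comp_neg_Iic (0:ℝ) phi
    simp only [neg_zero] at this
    rw [← this]
    refine integral_congr_ae (Filter.Eventually.of_forall fun t => ?_)
    simp only
    rw [phi_neg]
  unfold tail
  linarith

end P226
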