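import Vale.Agent.P226_h5.Defs
import Vale.Agent.P226_h5.Split
import Vale.Agent.P226_h5.OneD
import Vale.Agent.P226_h5.Alg

open MeasureTheory ProbabilityTheory Set
open scoped RealInnerProductSpace

namespace P226

set_option linter.unusedSectionVars false

variable {E : Type*} [NormedAddCommGroup E] [InnerProductSpace ℝ E] [FiniteDimensional ℝ E]
  [MeasurableSpace E] [BorelSpace E]

theorem th_integrable_inner (v : E) : Integrable (fun x : E => (⟪v, x⟫ : ℝ)) (stdGaussian E) :=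
  integrable_id_std.const_inner v

theorem th_integral_abs_phi : ∫ u : ℝ, |u| * phi u = 2 * phi 0 := by
  have h := integral_comp_abs (f := fun u : ℝ => u * phi u)
  have h1 : ∀ x : ℝ, phi |x| = phi x := by
    intro x
    rcases abs_choice x with h | h <;> rw [h]
    exact phi_neg x
  simp only [h1] at h
  rw [h, integral_Ioi_mul_phi]

theorem th_integral_abs_inner (v : E) :
    ∫ x, |⟪v, x⟫| ∂(stdGaussian E) = 2 * phi 0 * ‖v‖ := by
  by_cases hv0 : v = 0
  · subst hv0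
    simp
  have hn : ‖v‖ ≠ 0 := norm_ne_zero_iff.2 hv0
  obtain ⟨e, he⟩ : ∃ e : E, e = ‖v‖⁻¹ • v := ⟨_, rfl⟩
  have hee : ‖e‖ = 1 := by
    rw [he, norm_smul, norm_inv, norm_norm, inv_mul_cancel₀ hn]
  have hve : v = ‖v‖ • e := by
    rw [he, smul_smul, mul_inv_cancel₀ hn, one_smul]
  have h1 : ∀ x, |⟪v, x⟫| = ‖v‖ * |⟪e, x⟫| := by
    intro x
    conv_lhs => rw [hve, real_inner_smul_left, abs_mul, abs_norm]
  simp_rw [h1]
  rw [integral_const_mul, integral_split e hee ((th_integrable_inner e).abs)]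
  have h2 : ∀ y : E, ∀ u : ℝ, ⟪e, u • e + (y - ⟪e, y⟫ • e)⟫ = u := by
    intro y u
    simp only [inner_add_right, inner_sub_right, real_inner_smul_right,
      real_inner_self_eq_norm_sq, hee]
    ring
  simp_rw [h2]
  rw [th_integral_abs_phi, integral_const, probReal_univ]
  simp
  ring

theorem th_integral_neg (f : E → ℝ) :
    ∫ x, f (-x) ∂(stdGaussian E) = ∫ x, f x ∂(stdGaussian E) := by
  have h := stdGaussian_map (LinearIsometryEquiv.neg ℝ (E := E))
  have h2 : (stdGaussian E).map (fun x : E => -x) = stdGaussian E := by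
    have h4 : (⇑(LinearIsometryEquiv.neg ℝ) : E → E) = fun x : E => -x := by
      funext x; simp
    rw [h4] at h
    exact h
  have h3 : MeasurableEmbedding (fun x : E => -x) :=
    (MeasurableEquiv.neg E).measurableEmbedding
  conv_rhs => rw [← h2]
  rw [h3.integral_map]

theorem th_max_id (a b c : ℝ) :
    max (max a b) c + max (max (-a) (-b)) (-c) = (|a - b| + |b - c| + |c - a|) / 2 := by
  rcases le_total a b with h1 | h1 <;> rcases le_total b c with h2 | h2 <;>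
    rcases le_total a c with h3 | h3
  · rw [max_eq_right h1, max_eq_right h2, max_eq_left (neg_le_neg h1),
      max_eq_left (neg_le_neg h3), abs_of_nonpos (sub_nonpos.2 h1), abs_of_nonpos (sub_nonpos.2 h2),
      abs_of_nonneg (sub_nonneg.2 h3)]
    ring
  · have h4 : a = c := le_antisymm (h1.trans h2) h3
    have h5 : a = b := le_antisymm h1 (h2.trans h3)
    subst h4; subst h5; simp
  · rw [max_eq_right h1, max_eq_left h2, max_eq_left (neg_le_neg h1),
      max_eq_left (neg_le_neg h3), abs_of_nonpos (sub_nonpos.2 h1), abs_of_nonneg (sub_nonneg.2 h2),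
      abs_of_nonneg (sub_nonneg.2 h3)]
    ring
  · rw [max_eq_right h1, max_eq_left h2, max_eq_left (neg_le_neg h1),
      max_eq_right (neg_le_neg h3), abs_of_nonpos (sub_nonpos.2 h1), abs_of_nonneg (sub_nonneg.2 h2),
      abs_of_nonpos (sub_nonpos.2 h3)]
    ring
  · rw [max_eq_left h1, max_eq_right h3, max_eq_right (neg_le_neg h1),
      max_eq_left (neg_le_neg h2), abs_of_nonneg (sub_nonneg.2 h1), abs_of_nonpos (sub_nonpos.2 h2),
      abs_of_nonneg (sub_nonneg.2 h3)]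
    ring
  · rw [max_eq_left h1, max_eq_left h3, max_eq_right (neg_le_neg h1),
      max_eq_left (neg_le_neg h2), abs_of_nonneg (sub_nonneg.2 h1), abs_of_nonpos (sub_nonpos.2 h2),
      abs_of_nonpos (sub_nonpos.2 h3)]
    ring
  · have h4 : a = c := le_antisymm h3 (h2.trans h1)
    have h5 : a = b := le_antisymm (h3.trans h2) h1
    subst h4; subst h5; simp
  · rw [max_eq_left h1, max_eq_left h3, max_eq_right (neg_le_neg h1),
      max_eq_right (neg_le_neg h2), abs_of_nonneg (sub_nonneg.2 h1), abs_of_nonneg (sub_nonneg.2 h2),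
      abs_of_nonpos (sub_nonpos.2 h3)]
    ring

/-- Three cells: the propeller bound, for every measurable partition. -/
theorem three_cells (A : Fin 3 → Set E) (hA : IsPart A) :
    ∑ i, ‖mom (A i)‖ ^ 2 ≤ 9 / (8 * Real.pi) := by
  set w : Fin 3 → E := fun i => mom (A i) with hw
  have hsum : w 0 + w 1 + w 2 = 0 := by
    have := sum_w 2 w A hA (fun i => rfl)
    rwa [Fin.sum_univ_three] at this
  set M : E → ℝ := fun x => max (max ⟪w 0, x⟫ ⟪w 1, x⟫) ⟪w 2, x⟫ with hM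
  have hMi : Integrable M (stdGaussian E) :=
    ((th_integrable_inner (w 0)).sup (th_integrable_inner (w 1))).sup (th_integrable_inner (w 2))
  set P : ℝ := ‖w 0 - w 1‖ + ‖w 1 - w 2‖ + ‖w 2 - w 0‖ with hP
  set S : ℝ := ∑ i, ‖w i‖ ^ 2 with hS
  have hF : S ≤ ∫ x, M x ∂(stdGaussian E) := by
    have h1 : ∀ i, ‖w i‖ ^ 2 = ∫ x in A i, ⟪w i, x⟫ ∂(stdGaussian E) := by
      intro i
      rw [← inner_mom, real_inner_self_eq_norm_sq]
    have h2 : ∫ x, M x ∂(stdGaussian E) = ∑ i, ∫ x in A i, M x ∂(stdGaussian E) := by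
      rw [← setIntegral_univ, ← hA.cover,
        integral_iUnion_fintype hA.meas hA.disj (fun i => hMi.integrableOn)]
    rw [h2, hS]
    refine Finset.sum_le_sum fun i _ => ?_
    rw [h1 i]
    refine setIntegral_mono (th_integrable_inner (w i)).integrableOn hMi.integrableOn ?_
    intro x
    simp only [hM]
    fin_cases i
    · exact (le_max_left _ _).trans (le_max_left _ _)
    · exact (le_max_right _ _).trans (le_max_left _ _)
    · exact le_max_right _ _
  have hMv : ∫ x, M x ∂(stdGaussian E) = phi 0 * P / 2 := by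
    have h1 : ∫ x, (M x + M (-x)) ∂(stdGaussian E) = 2 * ∫ x, M x ∂(stdGaussian E) := by
      have hMn : Integrable (fun x => M (-x)) (stdGaussian E) := by
        have : (fun x => M (-x)) = fun x : E =>
            max (max ⟪-w 0, x⟫ ⟪-w 1, x⟫) ⟪-w 2, x⟫ := by
          funext x
          simp only [hM, inner_neg_right, inner_neg_left]
        rw [this]
        exact ((th_integrable_inner (-w 0)).sup (th_integrable_inner (-w 1))).sup
          (th_integrable_inner (-w 2))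
      rw [integral_add hMi hMn, th_integral_neg]
      ring
    have h2 : ∀ x, M x + M (-x) =
        (|⟪w 0 - w 1, x⟫| + |⟪w 1 - w 2, x⟫| + |⟪w 2 - w 0, x⟫|) / 2 := by
      intro x
      simp only [hM, inner_neg_right, inner_sub_left]
      exact th_max_id _ _ _
    have hi : ∀ v : E, Integrable (fun x => |⟪v, x⟫|) (stdGaussian E) :=
      fun v => (th_integrable_inner v).abs
    simp_rw [h2] at h1
    have ha : ∫ x, (|⟪w 0 - w 1, x⟫| + |⟪w 1 - w 2, x⟫| + |⟪w 2 - w 0, x⟫|) ∂(stdGaussian E) =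
        (∫ x, (|⟪w 0 - w 1, x⟫| + |⟪w 1 - w 2, x⟫|) ∂(stdGaussian E)) +
          ∫ x, |⟪w 2 - w 0, x⟫| ∂(stdGaussian E) :=
      integral_add ((hi _).add (hi _)) (hi _)
    have hb : ∫ x, (|⟪w 0 - w 1, x⟫| + |⟪w 1 - w 2, x⟫|) ∂(stdGaussian E) =
        (∫ x, |⟪w 0 - w 1, x⟫| ∂(stdGaussian E)) + ∫ x, |⟪w 1 - w 2, x⟫| ∂(stdGaussian E) :=
      integral_add (hi _) (hi _)
    rw [integral_div, ha, hb,
      th_integral_abs_inner, th_integral_abs_inner, th_integral_abs_inner] at h1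
    rw [hP]
    linarith
  have hP2 : P ^ 2 ≤ 9 * S := by
    have h0 : w 2 = -(w 0 + w 1) := by
      rw [eq_neg_iff_add_eq_zero, add_comm]; exact hsum
    have e1 : ‖w 0 - w 1‖ ^ 2 = ‖w 0‖ ^ 2 - 2 * ⟪w 0, w 1⟫ + ‖w 1‖ ^ 2 := norm_sub_sq_real _ _
    have e2 : ‖w 1 - w 2‖ ^ 2 = ‖w 1‖ ^ 2 - 2 * ⟪w 1, w 2⟫ + ‖w 2‖ ^ 2 := norm_sub_sq_real _ _
    have e3 : ‖w 2 - w 0‖ ^ 2 = ‖w 2‖ ^ 2 - 2 * ⟪w 2, w 0⟫ + ‖w 0‖ ^ 2 := norm_sub_sq_real _ _
    have e4 : ‖w 0 + w 1 + w 2‖ ^ 2 = 0 := by rw [hsum]; simp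
    have e5 : ‖w 0 + w 1 + w 2‖ ^ 2 = ‖w 0‖ ^ 2 + ‖w 1‖ ^ 2 + ‖w 2‖ ^ 2 +
        2 * ⟪w 0, w 1⟫ + 2 * ⟪w 1, w 2⟫ + 2 * ⟪w 2, w 0⟫ := by
      rw [norm_add_sq_real, norm_add_sq_real, inner_add_left, real_inner_comm (w 2) (w 0)]
      ring
    have hSe : S = ‖w 0‖ ^ 2 + ‖w 1‖ ^ 2 + ‖w 2‖ ^ 2 := by
      rw [hS, Fin.sum_univ_three]
    nlinarith [sq_nonneg (‖w 0 - w 1‖ - ‖w 1 - w 2‖), sq_nonneg (‖w 1 - w 2‖ - ‖w 2 - w 0‖),
      sq_nonneg (‖w 2 - w 0‖ - ‖w 0 - w 1‖)]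
  have hphi : phi 0 ^ 2 = 1 / (2 * Real.pi) := by
    unfold phi
    have hpi := Real.pi_pos
    simp only [ne_eq, OfNat.ofNat_ne_zero, not_false_eq_true, zero_pow, neg_zero, zero_div,
      Real.exp_zero, mul_one]
    rw [inv_pow, Real.sq_sqrt (by positivity)]
    ring
  have hS0 : 0 ≤ S := Finset.sum_nonneg fun i _ => sq_nonneg _
  have hP0 : 0 ≤ P := by positivity
  have hphi0 : 0 ≤ phi 0 := phi_nonneg 0
  rw [hMv] at hF
  -- S ≤ φ₀ P / 2 and P² ≤ 9 S give S ≤ 9 φ₀² / 4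
  have h1 : S ^ 2 ≤ (phi 0) ^ 2 * P ^ 2 / 4 := by
    have := pow_le_pow_left₀ hS0 hF 2
    calc S ^ 2 ≤ (phi 0 * P / 2) ^ 2 := this
      _ = (phi 0) ^ 2 * P ^ 2 / 4 := by ring
  have h2 : S ^ 2 ≤ (9 / 4 * (phi 0) ^ 2) * S := by
    have : (phi 0) ^ 2 * P ^ 2 ≤ (phi 0) ^ 2 * (9 * S) :=
      mul_le_mul_of_nonneg_left hP2 (sq_nonneg _)
    linarith
  have h3 : S ≤ 9 / 4 * (phi 0) ^ 2 := by
    rcases hS0.eq_or_lt with h | h
    · rw [← h]; positivity
    · have : S * S ≤ (9 / 4 * (phi 0) ^ 2) * S := by rw [← sq]; exact h2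
      exact le_of_mul_le_mul_right this h
  rw [hphi] at h3
  calc S ≤ 9 / 4 * (1 / (2 * Real.pi)) := h3
    _ = 9 / (8 * Real.pi) := by
      have := Real.pi_pos
      field_simp
      ring

end P226
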