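import Vale.Agent.P226_h5.K4Core
import Vale.Agent.P226_h5.Opt
import Vale.Agent.P226_h5.Three

open MeasureTheory ProbabilityTheory Set Filter
open scoped RealInnerProductSpace ENNReal Topology

namespace P226

set_option linter.unusedSectionVars false

variable {E : Type*} [NormedAddCommGroup E] [InnerProductSpace ℝ E] [FiniteDimensional ℝ E]
  [MeasurableSpace E] [BorelSpace E]

/-- the real data of a critical tetrahedron give a `K4Tet` -/
theorem k4_tet_of (P Q R x y z T t01 t02 t03 t12 t13 t23 : ℝ) (hT : 0 < T)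
    (m01 : t01 ∈ Ioo 0 Real.pi) (m02 : t02 ∈ Ioo 0 Real.pi) (m03 : t03 ∈ Ioo 0 Real.pi)
    (m12 : t12 ∈ Ioo 0 Real.pi) (m13 : t13 ∈ Ioo 0 Real.pi) (m23 : t23 ∈ Ioo 0 Real.pi)
    (H01 : k4H t01 = T * (P * x - z * y)) (H02 : k4H t02 = T * (Q * y - z * x))
    (H03 : k4H t03 = T * (R * z - y * x))
    (H12 : k4H t12 = T * ((P - 2 * z + Q) * (P - y) - (P - z) * (P - z - y + x)))
    (H13 : k4H t13 = T * ((P - 2 * y + R) * (P - z) - (P - y) * (P - z - y + x)))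
    (H23 : k4H t23 = T * ((Q - 2 * x + R) * (Q - z) - (Q - x) * (Q - z - x + y)))
    (S0 S1 S2 S3 : ℝ)
    (hS0 : S0 = (P - 2 * z + Q) * (P - 2 * y + R) - (P - z - y + x) ^ 2)
    (hS1 : S1 = Q * R - x ^ 2) (hS2 : S2 = P * R - y ^ 2) (hS3 : S3 = P * Q - z ^ 2)
    (n0 : 0 ≤ S0) (n1 : 0 ≤ S1) (n2 : 0 ≤ S2) (n3 : 0 ≤ S3)
    (G01 : k4G t01 ^ 2 = T ^ 2 * (S2 * S3)) (G02 : k4G t02 ^ 2 = T ^ 2 * (S1 * S3))
    (G03 : k4G t03 ^ 2 = T ^ 2 * (S1 * S2)) (G12 : k4G t12 ^ 2 = T ^ 2 * (S0 * S3))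
    (G13 : k4G t13 ^ 2 = T ^ 2 * (S0 * S2)) (G23 : k4G t23 ^ 2 = T ^ 2 * (S0 * S1)) :
    K4Tet (Real.sqrt (T * S0)) (Real.sqrt (T * S1)) (Real.sqrt (T * S2)) (Real.sqrt (T * S3))
      t23 t13 t12 t03 t02 t01 := by
  obtain ⟨p2, p3, g01⟩ := k4_face_root T S2 S3 t01 hT n2 n3 m01 G01
  obtain ⟨p0, p1, g23⟩ := k4_face_root T S0 S1 t23 hT n0 n1 m23 G23
  obtain ⟨-, -, g02⟩ := k4_face_root T S1 S3 t02 hT n1 n3 m02 G02
  obtain ⟨-, -, g03⟩ := k4_face_root T S1 S2 t03 hT n1 n2 m03 G03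
  obtain ⟨-, -, g12⟩ := k4_face_root T S0 S3 t12 hT n0 n3 m12 G12
  obtain ⟨-, -, g13⟩ := k4_face_root T S0 S2 t13 hT n0 n2 m13 G13
  refine ⟨Real.sqrt_pos.2 (mul_pos hT p0), Real.sqrt_pos.2 (mul_pos hT p1),
    Real.sqrt_pos.2 (mul_pos hT p2), Real.sqrt_pos.2 (mul_pos hT p3),
    m23, m13, m12, m03, m02, m01, g23, g13, g12, g03, g02, g01, ?_, ?_, ?_, ?_⟩
  · rw [Real.sq_sqrt (mul_pos hT p0).le, H23, H13, H12, hS0]; ring
  · rw [Real.sq_sqrt (mul_pos hT p1).le, H23, H03, H02, hS1]; ring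
  · rw [Real.sq_sqrt (mul_pos hT p2).le, H13, H03, H01, hS2]; ring
  · rw [Real.sq_sqrt (mul_pos hT p3).le, H12, H02, H01, hS3]; ring

/-- a critical configuration of four vectors has value at most `9/(8π)` -/
theorem k4_crit (w : Fin 4 → E) (A : Fin 4 → Set E) (hA : IsPart A)
    (hw : ∀ i, mom (A i) = w i)
    (hmax : ∀ i, ∀ x ∈ A i, ∀ j, ⟪w j, x⟫ ≤ ⟪w i, x⟫)
    (h0 : ∑ i, w i = 0) (hneg : ∀ i j, i ≠ j → ⟪w i, w j⟫ < (0:ℝ)) :
    ∑ i, ‖w i‖ ^ 2 ≤ 9 / (8 * Real.pi) := by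
  have hinj : ∀ i j, i ≠ j → w i ≠ w j := by
    intro i j hij h
    have h1 := hneg i j hij
    rw [h, real_inner_self_eq_norm_sq] at h1
    exact absurd h1 (not_lt.2 (sq_nonneg _))
  have hli : ∀ (i j k l : Fin 4), i ≠ j → i ≠ k → i ≠ l → j ≠ k → j ≠ l → k ≠ l →
      ∀ x y z : ℝ, x • (w i - w k) + y • (w i - w l) + z • (w i - w j) = 0 →
      x = 0 ∧ y = 0 ∧ z = 0 := by
    intro i j k l hij hik hil hjk hjl hkl x y z h
    have huniv : (Finset.univ : Finset (Fin 4)) = {i, j, k, l} := by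
      clear h
      revert i j k l
      decide
    obtain ⟨t, ht⟩ := k4_indep w h0 hneg
      (fun m => if m = i then x + y + z else if m = k then -x else if m = l then -y else -z) (by
        rw [huniv, Finset.sum_insert (by simp [hij, hik, hil]),
          Finset.sum_insert (by simp [hjk, hjl]), Finset.sum_insert (by simp [hkl]),
          Finset.sum_singleton]
        simp only [if_true, if_neg hij.symm, if_neg hik.symm, if_neg hil.symm, if_neg hjk,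
          if_neg hjl, if_neg hkl.symm]
        rw [← h]
        module)
    have t1 := ht i
    have t2 := ht j
    have t3 := ht k
    have t4 := ht l
    simp only [if_true, if_neg hij.symm, if_neg hik.symm, if_neg hil.symm, if_neg hjk,
          if_neg hjl, if_neg hkl.symm] at t1 t2 t3 t4
    refine ⟨?_, ?_, ?_⟩ <;> linarith
  have hcell := fun (i j k l : Fin 4) (hj : i ≠ j) (hk : i ≠ k) (hl : i ≠ l)
      (hall : ∀ m, m = i ∨ m = j ∨ m = k ∨ m = l) =>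
    k4_cell w A hA hw hmax i j k l (hinj i j hj) (hinj i k hk) (hinj i l hl) hall
  rw [Fin.sum_univ_four] at h0
  obtain ⟨p, hp⟩ : ∃ p : E, p = w 1 - w 0 := ⟨_, rfl⟩
  obtain ⟨q, hq⟩ : ∃ q : E, q = w 2 - w 0 := ⟨_, rfl⟩
  obtain ⟨r, hr⟩ : ∃ r : E, r = w 3 - w 0 := ⟨_, rfl⟩
  obtain ⟨P, hP⟩ : ∃ P : ℝ, P = ⟪p, p⟫ := ⟨_, rfl⟩
  obtain ⟨Q, hQ⟩ : ∃ P : ℝ, P = ⟪q, q⟫ := ⟨_, rfl⟩
  obtain ⟨R, hR⟩ : ∃ P : ℝ, P = ⟪r, r⟫ := ⟨_, rfl⟩
  obtain ⟨x, hx⟩ : ∃ P : ℝ, P = ⟪q, r⟫ := ⟨_, rfl⟩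
  obtain ⟨y, hy⟩ : ∃ P : ℝ, P = ⟪p, r⟫ := ⟨_, rfl⟩
  obtain ⟨z, hz⟩ : ∃ P : ℝ, P = ⟪p, q⟫ := ⟨_, rfl⟩
  have hx' : ⟪r, q⟫ = x := by rw [hx, real_inner_comm]
  have hy' : ⟪r, p⟫ = y := by rw [hy, real_inner_comm]
  have hz' : ⟪q, p⟫ = z := by rw [hz, real_inner_comm]
  have e01 : w 0 - w 1 = -p := by rw [hp]; abel
  have e02 : w 0 - w 2 = -q := by rw [hq]; abel
  have e03 : w 0 - w 3 = -r := by rw [hr]; abel
  have e12 : w 1 - w 2 = p - q := by rw [hp, hq]; abel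
  have e13 : w 1 - w 3 = p - r := by rw [hp, hr]; abel
  have e23 : w 2 - w 3 = q - r := by rw [hq, hr]; abel
  have e21 : w 2 - w 1 = q - p := by rw [hp, hq]; abel
  obtain ⟨D, hD⟩ : ∃ D : ℝ, D = P * Q * R + 2 * x * y * z - P * x ^ 2 - Q * y ^ 2 - R * z ^ 2 :=
    ⟨_, rfl⟩
  have h3 : w 3 = -(w 0 + w 1 + w 2) := eq_neg_of_add_eq_zero_right h0
  -- the six facets
  obtain ⟨D0, m01, H01, G01, a01, b01, l01⟩ :=
    k4_pair (w 0 - w 2) (w 0 - w 3) (w 0 - w 1) (w 0)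
    (hli 0 1 2 3 (by decide) (by decide) (by decide) (by decide) (by decide) (by decide))
    (hcell 0 1 2 3 (by decide) (by decide) (by decide) (by decide))
    (by rw [h3]; module) Q R P x z y D
    (by rw [e02, inner_neg_neg, hQ]) (by rw [e03, inner_neg_neg, hR])
    (by rw [e01, inner_neg_neg, hP]) (by rw [e02, e03, inner_neg_neg, hx])
    (by rw [e02, e01, inner_neg_neg, hz']) (by rw [e03, e01, inner_neg_neg, hy'])
    (by rw [hD]; ring)
  obtain ⟨-, m02, H02, G02, a02, b02, l02⟩ :=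
    k4_pair (w 0 - w 1) (w 0 - w 3) (w 0 - w 2) (w 0)
    (hli 0 2 1 3 (by decide) (by decide) (by decide) (by decide) (by decide) (by decide))
    (hcell 0 2 1 3 (by decide) (by decide) (by decide) (by decide))
    (by rw [h3]; module) P R Q y z x D
    (by rw [e01, inner_neg_neg, hP]) (by rw [e03, inner_neg_neg, hR])
    (by rw [e02, inner_neg_neg, hQ]) (by rw [e01, e03, inner_neg_neg, hy])
    (by rw [e01, e02, inner_neg_neg, hz]) (by rw [e03, e02, inner_neg_neg, hx'])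
    (by rw [hD]; ring)
  obtain ⟨-, m03, H03, G03, a03, b03, l03⟩ :=
    k4_pair (w 0 - w 1) (w 0 - w 2) (w 0 - w 3) (w 0)
    (hli 0 3 1 2 (by decide) (by decide) (by decide) (by decide) (by decide) (by decide))
    (hcell 0 3 1 2 (by decide) (by decide) (by decide) (by decide))
    (by rw [h3]; module) P Q R z y x D
    (by rw [e01, inner_neg_neg, hP]) (by rw [e02, inner_neg_neg, hQ])
    (by rw [e03, inner_neg_neg, hR]) (by rw [e01, e02, inner_neg_neg, hz])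
    (by rw [e01, e03, inner_neg_neg, hy]) (by rw [e02, e03, inner_neg_neg, hx])
    (by rw [hD])
  obtain ⟨-, m12, H12, G12, a12, b12, l12⟩ :=
    k4_pair (w 1 - w 0) (w 1 - w 3) (w 1 - w 2) (w 1)
    (hli 1 2 0 3 (by decide) (by decide) (by decide) (by decide) (by decide) (by decide))
    (hcell 1 2 0 3 (by decide) (by decide) (by decide) (by decide))
    (by rw [h3]; module) P (P - 2 * y + R) (P - 2 * z + Q) (P - y) (P - z) (P - z - y + x) D
    (by rw [← hp, hP])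
    (by rw [e13]; simp only [inner_sub_left, inner_sub_right]; rw [hy', ← hP, ← hR, ← hy]; ring)
    (by rw [e12]; simp only [inner_sub_left, inner_sub_right]; rw [hz', ← hP, ← hQ, ← hz]; ring)
    (by rw [← hp, e13]; simp only [inner_sub_right]; rw [← hP, ← hy])
    (by rw [← hp, e12]; simp only [inner_sub_right]; rw [← hP, ← hz])
    (by rw [e13, e12]; simp only [inner_sub_left, inner_sub_right]; rw [← hP, ← hz, hy', hx']; ring)
    (by rw [hD]; ring)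
  obtain ⟨-, m13, H13, G13, a13, b13, l13⟩ :=
    k4_pair (w 1 - w 0) (w 1 - w 2) (w 1 - w 3) (w 1)
    (hli 1 3 0 2 (by decide) (by decide) (by decide) (by decide) (by decide) (by decide))
    (hcell 1 3 0 2 (by decide) (by decide) (by decide) (by decide))
    (by rw [h3]; module) P (P - 2 * z + Q) (P - 2 * y + R) (P - z) (P - y) (P - z - y + x) D
    (by rw [← hp, hP])
    (by rw [e12]; simp only [inner_sub_left, inner_sub_right]; rw [hz', ← hP, ← hQ, ← hz]; ring)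
    (by rw [e13]; simp only [inner_sub_left, inner_sub_right]; rw [hy', ← hP, ← hR, ← hy]; ring)
    (by rw [← hp, e12]; simp only [inner_sub_right]; rw [← hP, ← hz])
    (by rw [← hp, e13]; simp only [inner_sub_right]; rw [← hP, ← hy])
    (by rw [e13, e12]; simp only [inner_sub_left, inner_sub_right]; rw [← hP, ← hy, hz', ← hx]; ring)
    (by rw [hD]; ring)
  obtain ⟨-, m23, H23, G23, a23, b23, l23⟩ :=
    k4_pair (w 2 - w 0) (w 2 - w 1) (w 2 - w 3) (w 2)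
    (hli 2 3 0 1 (by decide) (by decide) (by decide) (by decide) (by decide) (by decide))
    (hcell 2 3 0 1 (by decide) (by decide) (by decide) (by decide))
    (by rw [h3]; module) Q (P - 2 * z + Q) (Q - 2 * x + R) (Q - z) (Q - x) (Q - z - x + y) D
    (by rw [← hq, hQ])
    (by rw [e21]; simp only [inner_sub_left, inner_sub_right]; rw [hz', ← hP, ← hQ, ← hz]; ring)
    (by rw [e23]; simp only [inner_sub_left, inner_sub_right]; rw [hx', ← hQ, ← hR, ← hx]; ring)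
    (by rw [← hq, e21]; simp only [inner_sub_right]; rw [← hQ, hz'])
    (by rw [← hq, e23]; simp only [inner_sub_right]; rw [← hQ, ← hx])
    (by rw [e21, e23]; simp only [inner_sub_left, inner_sub_right]; rw [← hQ, ← hx, ← hz, ← hy]; ring)
    (by rw [hD]; ring)
  have hT : 0 < k4k / Real.sqrt D := div_pos k4k_pos (Real.sqrt_pos.2 D0)
  obtain ⟨T, hTd⟩ : ∃ T : ℝ, T = k4k / Real.sqrt D := ⟨_, rfl⟩
  rw [← hTd] at hT H01 H02 H03 H12 H13 H23 G01 G02 G03 G12 G13 G23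
  have main := (k4_tet_of P Q R x y z T _ _ _ _ _ _ hT m01 m02 m03 m12 m13 m23
    (by rw [H01]) (by rw [H02]) (by rw [H03]) (by rw [H12]) (by rw [H13]) (by rw [H23])
    ((P - 2 * z + Q) * (P - 2 * y + R) - (P - z - y + x) ^ 2) (Q * R - x ^ 2) (P * R - y ^ 2)
    (P * Q - z ^ 2) rfl rfl rfl rfl
    (by linarith [b12]) (by linarith [b02]) (by linarith [b01]) (by linarith [a02])
    (by rw [G01]; ring) (by rw [G02]; ring) (by rw [G03]; ring) (by rw [G12]; ring)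
    (by rw [G13]; ring) (by rw [G23]; ring)).main
  have hz0 : (⟪w 0 + w 1 + w 2 + w 3, w 0 + w 1 + w 2 + w 3⟫ : ℝ) = 0 := by
    rw [h0, inner_zero_right]
  simp only [inner_add_left, inner_add_right, real_inner_self_eq_norm_sq] at hz0
  rw [real_inner_comm (w 0) (w 1), real_inner_comm (w 0) (w 2), real_inner_comm (w 0) (w 3),
    real_inner_comm (w 1) (w 2), real_inner_comm (w 1) (w 3), real_inner_comm (w 2) (w 3)] at hz0
  have hsum : ‖w 0 - w 1‖ ^ 2 + ‖w 0 - w 2‖ ^ 2 + ‖w 0 - w 3‖ ^ 2 + ‖w 1 - w 2‖ ^ 2 +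
      ‖w 1 - w 3‖ ^ 2 + ‖w 2 - w 3‖ ^ 2 = 4 * (‖w 0‖ ^ 2 + ‖w 1‖ ^ 2 + ‖w 2‖ ^ 2 + ‖w 3‖ ^ 2) := by
    rw [norm_sub_sq_real, norm_sub_sq_real, norm_sub_sq_real, norm_sub_sq_real, norm_sub_sq_real,
      norm_sub_sq_real]
    linarith [hz0]
  rw [Fin.sum_univ_four]
  have hpi := Real.pi_pos
  have hk : k4k ^ 2 = Real.pi ^ 3 / 2 := by
    have hphi : phi 0 ^ 2 = 1 / (2 * Real.pi) := by
      unfold phi
      rw [mul_pow, inv_pow, Real.sq_sqrt (by positivity)]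
      norm_num
    unfold k4k
    rw [div_pow, mul_pow, hphi]
    field_simp
  have h5 : k4k ^ 2 * (4 * (‖w 0‖ ^ 2 + ‖w 1‖ ^ 2 + ‖w 2‖ ^ 2 + ‖w 3‖ ^ 2)) ≤
      9 / 4 * Real.pi ^ 2 := by
    rw [← hsum]
    linarith [main]
  rw [hk] at h5
  rw [le_div_iff₀ (by positivity)]
  have h6 : 0 < Real.pi ^ 2 := by positivity
  have h7 : Real.pi ^ 2 * ((‖w 0‖ ^ 2 + ‖w 1‖ ^ 2 + ‖w 2‖ ^ 2 + ‖w 3‖ ^ 2) * (8 * Real.pi)) ≤
      Real.pi ^ 2 * 9 := by linarith [h5]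
  exact le_of_mul_le_mul_left h7 h6

/-- **Four cells**: no measurable partition in four sets beats the propeller. -/
theorem four_cells (A : Fin 4 → Set E) (hA : IsPart A) :
    ∑ i, ‖mom (A i)‖ ^ 2 ≤ 9 / (8 * Real.pi) := by
  by_contra hcon
  rw [not_le] at hcon
  obtain ⟨w, B, hB, hw, hmax, hopt⟩ := exists_opt (E := E) 4 (by norm_num)
  have hV : 9 / (8 * Real.pi) < ∑ i, ‖w i‖ ^ 2 := hcon.trans_le (hopt A hA)
  have hstrict : ∀ C : Fin 3 → Set E, IsPart C → ∑ i, ‖mom (C i)‖ ^ 2 < ∑ i, ‖w i‖ ^ 2 :=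
    fun C hC => (three_cells C hC).trans_lt hV
  have hneg := merge_neg 3 (by norm_num) w B hB hw hstrict
  exact absurd (k4_crit w B hB hw hmax (sum_w 3 w B hB hw) hneg) (not_le.2 hV)

end P226
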