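import Vale.Agent.P226_h5.Split

open MeasureTheory ProbabilityTheory Set
open scoped RealInnerProductSpace

namespace P226

set_option linter.unusedSectionVars false

variable {E : Type*} [NormedAddCommGroup E] [InnerProductSpace ℝ E] [FiniteDimensional ℝ E]
  [MeasurableSpace E] [BorelSpace E] {κ : Type*} [Fintype κ] [Nonempty κ]

theorem sum_o (F : Frame κ E) : ∑ l, F.o l = (Fintype.card κ : ℝ) + 1 := by
  unfold Frame.o
  rw [Finset.sum_add_distrib, F.sum_eps]
  simp

theorem one_le_o (F : Frame κ E) (l : κ) : 1 ≤ F.o l := by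
  unfold Frame.o
  linarith [F.eps_nonneg l]

theorem o_pos (F : Frame κ E) (l : κ) : 0 < F.o l := by linarith [one_le_o F l]

theorem eps_le_one (F : Frame κ E) (l : κ) : F.ε l ≤ 1 := by
  rw [← F.sum_eps]
  exact Finset.single_le_sum (fun i _ => F.eps_nonneg i) (Finset.mem_univ l)

theorem o_le_two (F : Frame κ E) (l : κ) : F.o l ≤ 2 := by
  unfold Frame.o
  linarith [eps_le_one F l]

theorem sum_Z (F : Frame κ E) (y : E) : ∑ l, F.Z l y = 0 := by
  unfold Frame.Z
  rw [← sum_inner, F.sum_V, inner_zero_left]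

theorem Z_div_le_tau (F : Frame κ E) (l : κ) (y : E) : F.Z l y / F.o l ≤ F.tau y :=
  Finset.le_sup' (fun l => F.Z l y / F.o l) (Finset.mem_univ l)

theorem Z_le (F : Frame κ E) (l : κ) (y : E) : F.Z l y ≤ F.o l * F.tau y := by
  have := Z_div_le_tau F l y
  rw [div_le_iff₀ (o_pos F l)] at this
  linarith

theorem tau_nonneg (F : Frame κ E) (y : E) : 0 ≤ F.tau y := by
  have h1 : ∑ l, F.Z l y ≤ ∑ l, F.o l * F.tau y :=
    Finset.sum_le_sum fun l _ => Z_le F l y
  rw [sum_Z, ← Finset.sum_mul, sum_o] at h1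
  by_contra h
  push_neg at h
  have : (0:ℝ) < (Fintype.card κ : ℝ) + 1 := by positivity
  nlinarith

theorem continuous_Z (F : Frame κ E) (l : κ) : Continuous (F.Z l) := by
  unfold Frame.Z
  fun_prop

theorem continuous_tau (F : Frame κ E) : Continuous F.tau := by
  have h : F.tau = Finset.univ.sup' Finset.univ_nonempty (fun l => fun y => F.Z l y / F.o l) := by
    ext y
    rw [Finset.sup'_apply]
    rfl
  rw [h]
  exact Continuous.finset_sup' _ fun l _ => (continuous_Z F l).div_const _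

theorem measurable_tau (F : Frame κ E) : Measurable F.tau := (continuous_tau F).measurable

theorem neg_le_Z (F : Frame κ E) (l : κ) (y : E) :
    -(((Fintype.card κ : ℝ) + 1) * F.tau y) ≤ F.Z l y := by
  classical
  have h0 := sum_Z F y
  rw [← Finset.add_sum_erase _ _ (Finset.mem_univ l)] at h0
  have h1 : ∑ j ∈ Finset.univ.erase l, F.Z j y ≤ ∑ j ∈ Finset.univ.erase l, F.o j * F.tau y :=
    Finset.sum_le_sum fun j _ => Z_le F j y
  have h2 : ∑ j ∈ Finset.univ.erase l, F.o j * F.tau y ≤ ∑ j, F.o j * F.tau y :=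
    Finset.sum_le_sum_of_subset_of_nonneg (Finset.erase_subset _ _)
      fun j _ _ => mul_nonneg (o_pos F j).le (tau_nonneg F y)
  rw [← Finset.sum_mul, ← Finset.sum_mul, sum_o] at h2
  rw [← Finset.sum_mul] at h1
  linarith

theorem tau_lt_iff (F : Frame κ E) (y : E) (t : ℝ) :
    F.tau y < t ↔ ∀ l, F.Z l y < F.o l * t := by
  unfold Frame.tau
  rw [Finset.sup'_lt_iff]
  constructor
  · intro h l
    have := h l (Finset.mem_univ l)
    rw [div_lt_iff₀ (o_pos F l)] at this
    linarith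
  · intro h l _
    rw [div_lt_iff₀ (o_pos F l)]
    linarith [h l]

theorem tau_le_iff (F : Frame κ E) (y : E) (t : ℝ) :
    F.tau y ≤ t ↔ ∀ l, F.Z l y ≤ F.o l * t := by
  unfold Frame.tau
  rw [Finset.sup'_le_iff]
  constructor
  · intro h l
    have := h l (Finset.mem_univ l)
    rw [div_le_iff₀ (o_pos F l)] at this
    linarith
  · intro h l _
    rw [div_le_iff₀ (o_pos F l)]
    linarith [h l]

theorem mem_B_iff (F : Frame κ E) (l : κ) (y : E) : y ∈ F.B l ↔ F.Z l y = F.o l * F.tau y := by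
  unfold Frame.B
  simp only [mem_setOf_eq]
  rw [eq_div_iff (o_pos F l).ne']
  constructor
  · intro h; linarith
  · intro h; linarith

theorem mem_B_iff' (F : Frame κ E) (l : κ) (y : E) :
    y ∈ F.B l ↔ ∀ j, F.Z j y / F.o j ≤ F.Z l y / F.o l := by
  constructor
  · intro h j
    have h' : F.tau y = F.Z l y / F.o l := h
    rw [← h']
    exact Z_div_le_tau F j y
  · intro h
    apply le_antisymm
    · exact Finset.sup'_le _ _ fun j _ => h j
    · exact Z_div_le_tau F l y

theorem V_ne_zero (F : Frame κ E) (h2 : 2 ≤ Fintype.card κ) (l : κ) : F.V l ≠ 0 := by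
  intro h
  haveI : Nontrivial κ := Fintype.one_lt_card_iff_nontrivial.1 (by omega)
  obtain ⟨j, hj⟩ := exists_ne l
  have := F.V_neg l j hj.symm
  rw [h, inner_zero_left] at this
  exact lt_irrefl _ this

/-- if `∑ c_l V_l = 0` then `c` is constant -/
theorem coeff_const (F : Frame κ E) {c : κ → ℝ} (hc : ∑ l, c l • F.V l = 0) (l j : κ) :
    c l = c j := by
  classical
  obtain ⟨l0, -, hl0⟩ := Finset.exists_min_image Finset.univ c Finset.univ_nonempty
  have h1 : ∑ l, (c l - c l0) • F.V l = 0 := by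
    simp_rw [sub_smul]
    rw [Finset.sum_sub_distrib, hc, ← Finset.smul_sum, F.sum_V]
    simp
  have h2 : ∑ l, (c l - c l0) * ⟪F.V l0, F.V l⟫ = 0 := by
    have := congrArg (fun z => ⟪F.V l0, z⟫) h1
    simp only [inner_sum, real_inner_smul_right, inner_zero_right] at this
    exact this
  have h3 : ∀ l ∈ Finset.univ, (c l - c l0) * ⟪F.V l0, F.V l⟫ ≤ 0 := by
    intro l _
    by_cases hl : l = l0
    · subst hl; simp
    · exact mul_nonpos_of_nonneg_of_nonpos (sub_nonneg.2 (hl0 l (Finset.mem_univ l)))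
        (F.V_neg l0 l (Ne.symm hl)).le
  have h4 := (Finset.sum_eq_zero_iff_of_nonpos h3).1 h2
  have h5 : ∀ l, c l = c l0 := by
    intro l
    by_cases hl : l = l0
    · rw [hl]
    · have := h4 l (Finset.mem_univ l)
      rcases mul_eq_zero.1 this with h | h
      · linarith
      · exact absurd h (F.V_neg l0 l (Ne.symm hl)).ne
  rw [h5 l, h5 j]

theorem iUnion_B (F : Frame κ E) : ⋃ l, F.B l = univ := by
  rw [eq_univ_iff_forall]
  intro y
  obtain ⟨l, -, hl⟩ := Finset.exists_mem_eq_sup' Finset.univ_nonempty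
    (fun l => F.Z l y / F.o l)
  rw [mem_iUnion]
  exact ⟨l, hl⟩

theorem measurableSet_B (F : Frame κ E) (l : κ) : MeasurableSet (F.B l) :=
  (isClosed_eq (continuous_tau F) ((continuous_Z F l).div_const _)).measurableSet

theorem null_inter_B (F : Frame κ E) {l j : κ} (hlj : l ≠ j) :
    stdGaussian E (F.B l ∩ F.B j) = 0 := by
  set v : E := (F.o l)⁻¹ • F.V l - (F.o j)⁻¹ • F.V j with hv
  have hsub : F.B l ∩ F.B j ⊆ {y | ⟪v, y⟫ = 0} := by
    rintro y ⟨h1, h2⟩
    have h1' : F.tau y = F.Z l y / F.o l := h1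
    have h2' : F.tau y = F.Z j y / F.o j := h2
    simp only [mem_setOf_eq, hv, inner_sub_left, real_inner_smul_left]
    unfold Frame.Z at h1' h2'
    rw [h1'] at h2'
    rw [inv_mul_eq_div, inv_mul_eq_div]
    linarith
  by_cases hv0 : v = 0
  · exfalso
    have h3 := F.V_neg l j hlj
    have h4 : F.V l = (F.o l * (F.o j)⁻¹) • F.V j := by
      have h5 : (F.o l)⁻¹ • F.V l = (F.o j)⁻¹ • F.V j := sub_eq_zero.1 hv0
      rw [mul_smul, ← h5, smul_smul, mul_inv_cancel₀ (o_pos F l).ne', one_smul]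
    rw [h4, real_inner_smul_left, real_inner_self_eq_norm_sq] at h3
    have h6 : 0 ≤ F.o l * (F.o j)⁻¹ := mul_nonneg (o_pos F l).le (inv_nonneg.2 (o_pos F j).le)
    nlinarith [mul_nonneg h6 (sq_nonneg ‖F.V j‖)]
  · exact measure_mono_null hsub (stdGaussian_hyperplane v hv0 0)

theorem sum_integral_B (F : Frame κ E) {h : E → ℝ} (hh : Integrable h (stdGaussian E)) :
    ∑ l, ∫ y in F.B l, h y ∂(stdGaussian E) = ∫ y, h y ∂(stdGaussian E) := by
  rw [← setIntegral_univ, ← iUnion_B F]
  rw [integral_iUnion_ae]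
  · rw [tsum_fintype]
  · exact fun l => (measurableSet_B F l).nullMeasurableSet
  · intro l j hlj
    exact null_inter_B F hlj
  · rw [iUnion_B F]
    exact hh.integrableOn

end P226
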