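import Vale.Agent.P226_h5.Split
import Vale.Agent.P226_h5.OneD
import Vale.Agent.P226_h5.Tau

/-! P226 module CELL: from moments over `K` to integrals over `y`. -/

open MeasureTheory ProbabilityTheory Set Filter Topology
open scoped RealInnerProductSpace

namespace P226

variable {E : Type*} [NormedAddCommGroup E] [InnerProductSpace ℝ E] [FiniteDimensional ℝ E]
  [MeasurableSpace E] [BorelSpace E]

variable {κ : Type*} [Fintype κ] [Nonempty κ]

theorem ce_integrable_inner (v : E) : Integrable (fun x : E => (⟪v, x⟫ : ℝ)) (stdGaussian E) :=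
  (IsGaussian.integrable_id (μ := stdGaussian E)).const_inner v

theorem ce_K_closed (F : Frame κ E) : IsClosed F.K := by
  have : F.K = ⋂ l, {x | F.Z l x ≤ F.o l * ⟪F.e, x⟫} := by
    ext x; simp [Frame.K]
  rw [this]
  refine isClosed_iInter fun l => ?_
  exact isClosed_le (by unfold Frame.Z; fun_prop) (by fun_prop)

theorem ce_K_meas (F : Frame κ E) : MeasurableSet F.K := (ce_K_closed F).measurableSet

theorem ce_inner_e (F : Frame κ E) (u : ℝ) (y : E) :
    ⟪F.e, u • F.e + (y - ⟪F.e, y⟫ • F.e)⟫ = u := by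
  have h : ⟪F.e, F.e⟫ = 1 := by rw [real_inner_self_eq_norm_sq, F.norm_e]; norm_num
  rw [inner_add_right, inner_sub_right, inner_smul_right, inner_smul_right, h]; ring

theorem ce_Z (F : Frame κ E) (l : κ) (u : ℝ) (y : E) :
    F.Z l (u • F.e + (y - ⟪F.e, y⟫ • F.e)) = F.Z l y := by
  unfold Frame.Z
  rw [inner_add_right, inner_sub_right, inner_smul_right, inner_smul_right, F.V_perp l]; ring

theorem ce_mem_K (F : Frame κ E) (u : ℝ) (y : E) :
    u • F.e + (y - ⟪F.e, y⟫ • F.e) ∈ F.K ↔ F.tau y ≤ u := by
  unfold Frame.K Frame.tau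
  rw [Finset.sup'_le_iff]
  simp only [mem_ofPred_eq, ce_Z, ce_inner_e, Finset.mem_univ, forall_const]
  refine forall_congr' fun l => ?_
  have ho : 0 < F.o l := by have := one_le_o F l; linarith
  rw [div_le_iff₀ ho, mul_comm]

/-- integration over `K` of a function -/
theorem ce_integral_K (F : Frame κ E) (h : E → ℝ) (hh : Integrable h (stdGaussian E)) :
    ∫ x in F.K, h x ∂(stdGaussian E) =
      ∫ y, (∫ u in Ioi (F.tau y), h (u • F.e + (y - ⟪F.e, y⟫ • F.e)) * phi u)
        ∂(stdGaussian E) := by
  rw [← integral_indicator (ce_K_meas F),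
    integral_split F.e F.norm_e (hh.indicator (ce_K_meas F))]
  refine integral_congr_ae (Eventually.of_forall fun y => ?_)
  simp only
  rw [← integral_Ici_eq_integral_Ioi, ← integral_indicator measurableSet_Ici]
  refine integral_congr_ae (Eventually.of_forall fun u => ?_)
  simp only
  by_cases hu : F.tau y ≤ u
  · rw [indicator_of_mem ((ce_mem_K F u y).2 hu), indicator_of_mem (by exact hu)]
  · rw [indicator_of_notMem (fun h' => hu ((ce_mem_K F u y).1 h')),
      indicator_of_notMem (by exact hu), zero_mul]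

theorem ce_inner_moment (C : Crit κ E) (v : E) :
    ∫ x in C.toFrame.K, ⟪v, x⟫ ∂(stdGaussian E) = C.m * ⟪v, C.e⟫ := by
  have hint : Integrable (fun x : E => x) ((stdGaussian E).restrict C.toFrame.K) :=
    (IsGaussian.integrable_id (μ := stdGaussian E)).integrableOn
  have h := integral_inner (𝕜 := ℝ) hint v
  rw [C.moment_K, inner_smul_right] at h
  exact h

theorem cell_m (C : Crit κ E) : C.m = ∫ y, phi (C.toFrame.tau y) ∂(stdGaussian E) := by
  have h1 := ce_inner_moment C C.e
  have h2 : ⟪C.e, C.e⟫ = 1 := by rw [real_inner_self_eq_norm_sq, C.norm_e]; norm_num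
  rw [h2, mul_one] at h1
  rw [← h1, ce_integral_K C.toFrame _ (ce_integrable_inner C.e)]
  refine integral_congr_ae (Eventually.of_forall fun y => ?_)
  simp only [ce_inner_e]
  exact integral_Ioi_mul_phi _

theorem cell_lat (C : Crit κ E) (l : κ) :
    ∫ y, C.toFrame.Z l y * tail (C.toFrame.tau y) ∂(stdGaussian E) = 0 := by
  have h1 := ce_inner_moment C (C.V l)
  rw [C.V_perp l, mul_zero] at h1
  rw [← h1, ce_integral_K C.toFrame _ (ce_integrable_inner (C.V l))]
  refine integral_congr_ae (Eventually.of_forall fun y => ?_)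
  simp only
  have e : ∀ u : ℝ, ⟪C.V l, u • C.e + (y - ⟪C.e, y⟫ • C.e)⟫ = C.toFrame.Z l y :=
    fun u => ce_Z C.toFrame l u y
  simp only [e]
  rw [integral_const_mul]
  rfl

theorem ce_integrable_minL (F : Frame κ E) : Integrable F.minL (stdGaussian E) := by
  have hc : Continuous F.minL := by
    unfold Frame.minL Frame.Z
    exact Continuous.finset_inf'_apply _ fun l _ => by fun_prop
  have hb : Integrable (fun x => ∑ l, |F.o l * ⟪F.e, x⟫ - F.Z l x|) (stdGaussian E) := by
    refine integrable_finsetSum _ fun l _ => ?_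
    exact (((ce_integrable_inner F.e).const_mul _).sub (ce_integrable_inner (F.V l))).abs
  refine hb.mono' hc.aestronglyMeasurable (Eventually.of_forall fun x => ?_)
  obtain ⟨l, -, hl⟩ := Finset.exists_mem_eq_inf' (H := Finset.univ_nonempty)
    (fun l => F.o l * ⟪F.e, x⟫ - F.Z l x)
  have : F.minL x = F.o l * ⟪F.e, x⟫ - F.Z l x := hl
  rw [this, Real.norm_eq_abs]
  exact Finset.single_le_sum (f := fun l => |F.o l * ⟪F.e, x⟫ - F.Z l x|)
    (fun i _ => abs_nonneg _) (Finset.mem_univ l)

theorem cell_removal (C : Crit κ E) :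
    ((Fintype.card κ : ℝ) + 1) / (2 * (Fintype.card κ : ℝ)) * C.m <
      ∫ y, (∫ t in Ioi (C.toFrame.tau y),
        (Finset.univ.inf' Finset.univ_nonempty (fun l => C.toFrame.o l * t - C.toFrame.Z l y)) *
          phi t) ∂(stdGaussian E) := by
  have h1 := C.removal
  rw [ce_integral_K C.toFrame _ (ce_integrable_minL C.toFrame)] at h1
  refine h1.trans_eq ?_
  refine integral_congr_ae (Eventually.of_forall fun y => ?_)
  simp only
  refine integral_congr_ae (Eventually.of_forall fun u => ?_)
  simp only [Frame.minL, ce_inner_e, ce_Z]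

end P226
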