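import Vale.Agent.P226_h5.OneD
import Vale.Agent.P226_h5.Tau

/-! P226 module COST. -/

open MeasureTheory ProbabilityTheory Set Filter Topology
open scoped RealInnerProductSpace

namespace P226

/-- shift of a half line -/
theorem co_shift (f : ℝ → ℝ) (x : ℝ) : ∫ s in Ioi (0:ℝ), f (x + s) = ∫ t in Ioi x, f t := by
  rw [← integral_indicator measurableSet_Ioi, ← integral_indicator measurableSet_Ioi,
    ← integral_add_left_eq_self ((Ioi x).indicator f) x]
  refine integral_congr_ae (Eventually.of_forall fun s => ?_)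
  simp only
  by_cases hs : 0 < s
  · rw [indicator_of_mem (by exact hs), indicator_of_mem (by show x < x + s; linarith)]
  · rw [indicator_of_notMem (by exact hs), indicator_of_notMem (by
      intro h; exact hs (by have : x < x + s := h; linarith))]

/-- the integrand of the cost, in the variable `t = x + s` -/
noncomputable def co_f (n : ℕ) (ε x t : ℝ) : ℝ :=
  min ((1 + ε) * (t - x)) ((((n:ℝ) + 1) * t - (1 + ε) * (t - x)) / ((n:ℝ) - 1)) * phi t

theorem co_cost_eq (n : ℕ) (ε x : ℝ) : cost n ε x = ∫ t in Ioi x, co_f n ε x t := by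
  rw [← co_shift]
  unfold cost co_f
  refine setIntegral_congr_fun measurableSet_Ioi fun s _ => ?_
  rw [add_sub_cancel_left]

theorem co_lin_int (a b : ℝ) : Integrable (fun t : ℝ => (a * t + b) * phi t) := by
  have h := (integrable_mul_phi.const_mul a).add (integrable_phi.const_mul b)
  refine h.congr (Eventually.of_forall fun t => ?_)
  simp only [Pi.add_apply]
  ring

theorem co_f_int (n : ℕ) (ε x : ℝ) : Integrable (co_f n ε x) := by
  have h1 := co_lin_int (1 + ε) (-(1 + ε) * x)
  have h2 := co_lin_int ((((n:ℝ) + 1) - (1 + ε)) / ((n:ℝ) - 1)) ((1 + ε) * x / ((n:ℝ) - 1))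
  refine (h1.inf h2).congr (Eventually.of_forall fun t => ?_)
  simp only [Pi.inf_apply]
  unfold co_f
  rw [min_mul_of_nonneg _ _ (phi_nonneg t)]
  congr 1
  · ring
  · ring

theorem cost_nonneg (n : ℕ) (hn : 2 ≤ n) (ε x : ℝ) (h0 : 0 ≤ ε) (h1 : ε ≤ 1) (hx : 0 ≤ x) :
    0 ≤ cost n ε x := by
  unfold cost
  refine setIntegral_nonneg measurableSet_Ioi fun s hs => ?_
  have hs' : 0 < s := hs
  have hn' : (2:ℝ) ≤ n := by exact_mod_cast hn
  refine mul_nonneg (le_min (by positivity) ?_) (phi_nonneg _)
  apply div_nonneg _ (by linarith)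
  nlinarith [mul_nonneg h0 hs'.le, mul_le_mul_of_nonneg_right h1 hs'.le,
    mul_le_mul_of_nonneg_right hn' hs'.le, mul_nonneg (by linarith : (0:ℝ) ≤ (n:ℝ) + 1) hx]

theorem cost_le (n : ℕ) (ε x : ℝ) (_h0 : 0 ≤ ε) : cost n ε x ≤ (1 + ε) * psi x := by
  rw [co_cost_eq, ← integral_Ioi_sub_mul_phi, ← integral_const_mul]
  refine setIntegral_mono_on (co_f_int n ε x).integrableOn ?_ measurableSet_Ioi fun t ht => ?_
  · have h := (co_lin_int (1 + ε) (-(1 + ε) * x)).integrableOn (s := Ioi x)
    refine h.congr_fun (fun t _ => ?_) measurableSet_Ioi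
    simp only; ring
  · unfold co_f
    rw [← mul_assoc]
    exact mul_le_mul_of_nonneg_right (min_le_left _ _) (phi_nonneg t)

theorem cost_anti (n : ℕ) (hn : 2 ≤ n) (ε x : ℝ) (_h0 : 0 ≤ ε) (h1 : ε ≤ 1) (hx : 0 ≤ x) :
    cost (n + 1) ε x ≤ cost n ε x := by
  rw [co_cost_eq, co_cost_eq]
  refine setIntegral_mono_on (co_f_int _ ε x).integrableOn (co_f_int _ ε x).integrableOn
    measurableSet_Ioi fun t ht => ?_
  have ht' : x < t := ht
  have hn' : (2:ℝ) ≤ n := by exact_mod_cast hn
  unfold co_f
  refine mul_le_mul_of_nonneg_right (min_le_min le_rfl ?_) (phi_nonneg t)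
  push_cast
  have e1 : ((n:ℝ) + 1 - 1) = n := by ring
  rw [e1, div_le_div_iff₀ (by linarith) (by linarith)]
  have h3 : (1 + ε) * (t - x) ≤ 2 * t := by nlinarith
  nlinarith

theorem continuous_cost (n : ℕ) (_hn : 2 ≤ n) (ε : ℝ) : Continuous (fun x => cost n ε x) := by
  have e : (fun x => cost n ε x) = fun x => ∫ t, (Ioi x).indicator (co_f n ε x) t := by
    ext x
    rw [integral_indicator measurableSet_Ioi, co_cost_eq]
  rw [e, continuous_iff_continuousAt]
  intro x0
  set c : ℝ := |1 + ε| with hc
  set d : ℝ := |((n:ℝ) - 1)⁻¹| with hd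
  set R : ℝ := |x0| + 1 with hR
  refine continuousAt_of_dominated
    (bound := fun t => (c * (|t| + R) + (|(n:ℝ) + 1| * |t| + c * (|t| + R)) * d) * phi t) ?_ ?_ ?_ ?_
  · exact Eventually.of_forall fun x =>
      ((co_f_int n ε x).aestronglyMeasurable).indicator measurableSet_Ioi
  · have hmem : Metric.ball x0 1 ∈ 𝓝 x0 := Metric.ball_mem_nhds _ one_pos
    filter_upwards [hmem] with x hx
    refine Eventually.of_forall fun t => ?_
    rw [Metric.mem_ball, Real.dist_eq] at hx
    have hxR : |x| ≤ R := by
      have := abs_sub_abs_le_abs_sub x x0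
      rw [hR]; linarith
    have hb0 : 0 ≤ (c * (|t| + R) + (|(n:ℝ) + 1| * |t| + c * (|t| + R)) * d) * phi t := by
      have := phi_nonneg t
      positivity
    have hbase : ‖co_f n ε x t‖ ≤
        (c * (|t| + R) + (|(n:ℝ) + 1| * |t| + c * (|t| + R)) * d) * phi t := by
      unfold co_f
      rw [Real.norm_eq_abs, abs_mul, abs_of_nonneg (phi_nonneg t)]
      refine mul_le_mul_of_nonneg_right ?_ (phi_nonneg t)
      have htx : |t - x| ≤ |t| + R := (abs_sub _ _).trans (by linarith)
      have ha : |(1 + ε) * (t - x)| ≤ c * (|t| + R) := by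
        rw [abs_mul]; gcongr
      have hb : |(((n:ℝ) + 1) * t - (1 + ε) * (t - x)) / ((n:ℝ) - 1)| ≤
          (|(n:ℝ) + 1| * |t| + c * (|t| + R)) * d := by
        rw [div_eq_mul_inv, abs_mul]
        refine mul_le_mul_of_nonneg_right ?_ (abs_nonneg _)
        refine (abs_sub _ _).trans ?_
        rw [abs_mul]
        linarith
      have hmin : ∀ a b : ℝ, |min a b| ≤ |a| + |b| := by
        intro a b
        rcases min_choice a b with h | h <;> rw [h]
        · linarith [abs_nonneg b]
        · linarith [abs_nonneg a]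
      refine (hmin _ _).trans (add_le_add ha hb)
    by_cases ht : t ∈ Ioi x
    · rw [indicator_of_mem ht]; exact hbase
    · rw [indicator_of_notMem ht, norm_zero]; exact hb0
  · have h := ((integrable_mul_phi.abs).const_mul (c + (|(n:ℝ) + 1| + c) * d)).add
      (integrable_phi.const_mul (c * R + c * R * d))
    refine h.congr (Eventually.of_forall fun t => ?_)
    simp only [Pi.add_apply]
    rw [abs_mul, abs_of_nonneg (phi_nonneg t)]
    ring
  · have hne : ∀ᵐ t : ℝ, t ≠ x0 := by
      have : (volume : Measure ℝ) {x0} = 0 := measure_singleton x0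
      exact measure_eq_zero_iff_ae_notMem.1 this
    filter_upwards [hne] with t ht
    have hcont : Continuous fun x => co_f n ε x t := by
      unfold co_f; fun_prop
    rcases lt_or_gt_of_ne ht with h | h
    · -- t < x0 : the indicator vanishes near x0
      have : (fun x => (Ioi x).indicator (co_f n ε x) t) =ᶠ[𝓝 x0] fun _ => 0 := by
        filter_upwards [lt_mem_nhds h] with x hx
        rw [indicator_of_notMem]
        intro h'
        have : x < t := h'
        linarith
      exact continuousAt_const.congr this.symm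
    · have : (fun x => (Ioi x).indicator (co_f n ε x) t) =ᶠ[𝓝 x0] fun x => co_f n ε x t := by
        filter_upwards [gt_mem_nhds h] with x hx
        rw [indicator_of_mem]
        exact hx
      exact hcont.continuousAt.congr this.symm

variable {E : Type*} [NormedAddCommGroup E] [InnerProductSpace ℝ E] [FiniteDimensional ℝ E]
  [MeasurableSpace E] [BorelSpace E]

variable {κ : Type*} [Fintype κ] [Nonempty κ]

theorem cost_facet (F : Frame κ E) (h2 : 2 ≤ Fintype.card κ) (l : κ) (y : E) (hy : y ∈ F.B l) :
    ∫ t in Ioi (F.tau y),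
        (Finset.univ.inf' Finset.univ_nonempty (fun j => F.o j * t - F.Z j y)) * phi t ≤
      cost (Fintype.card κ) (F.ε l) (F.tau y) := by
  rw [co_cost_eq]
  have hn' : (2:ℝ) ≤ (Fintype.card κ : ℝ) := by exact_mod_cast h2
  have hol : 0 < F.o l := by have := one_le_o F l; linarith
  have hZl : F.Z l y = F.o l * F.tau y := by
    have h : F.tau y = F.Z l y / F.o l := hy
    rw [h]; field_simp
  refine integral_mono_of_nonneg ?_ (co_f_int _ _ _).integrableOn ?_
  · refine (ae_restrict_iff' measurableSet_Ioi).2 (Eventually.of_forall fun t ht => ?_)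
    have ht' : F.tau y < t := ht
    show (0:ℝ) ≤ _ * _
    refine mul_nonneg ?_ (phi_nonneg t)
    refine Finset.le_inf' _ _ fun j _ => ?_
    have h1 := Z_le F j y
    have h3 := one_le_o F j
    nlinarith
  · refine (ae_restrict_iff' measurableSet_Ioi).2 (Eventually.of_forall fun t ht => ?_)
    have ht' : F.tau y < t := ht
    show _ * _ ≤ co_f _ _ _ _
    unfold co_f
    refine mul_le_mul_of_nonneg_right (le_min ?_ ?_) (phi_nonneg t)
    · refine (Finset.inf'_le _ (Finset.mem_univ l)).trans (le_of_eq ?_)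
      rw [hZl]
      show F.o l * t - F.o l * F.tau y = F.o l * (t - F.tau y)
      ring
    · -- average over `j ≠ l`
      classical
      set m : ℝ := Finset.univ.inf' Finset.univ_nonempty (fun j => F.o j * t - F.Z j y) with hm
      have hsum : ((Fintype.card κ : ℝ) - 1) * m ≤
          ∑ j ∈ Finset.univ.erase l, (F.o j * t - F.Z j y) := by
        have h3 : ∑ j ∈ (Finset.univ.erase l : Finset κ), m ≤
            ∑ j ∈ Finset.univ.erase l, (F.o j * t - F.Z j y) :=
          Finset.sum_le_sum fun j _ => Finset.inf'_le _ (Finset.mem_univ j)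
        rw [Finset.sum_const, Finset.card_erase_of_mem (Finset.mem_univ l), Finset.card_univ,
          nsmul_eq_mul, Nat.cast_sub (by omega), Nat.cast_one] at h3
        exact h3
      have htot : ∑ j ∈ Finset.univ.erase l, (F.o j * t - F.Z j y) =
          ((Fintype.card κ : ℝ) + 1) * t - (1 + F.ε l) * (t - F.tau y) := by
        have h4 := Finset.add_sum_erase Finset.univ (fun j => F.o j * t - F.Z j y)
          (Finset.mem_univ l)
        have h5 : ∑ j, (F.o j * t - F.Z j y) = ((Fintype.card κ : ℝ) + 1) * t := by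
          rw [Finset.sum_sub_distrib, ← Finset.sum_mul, sum_o, sum_Z, sub_zero]
        rw [h5, hZl] at h4
        have h6 : F.o l = 1 + F.ε l := rfl
        rw [h6] at h4
        linarith
      rw [htot] at hsum
      rw [le_div_iff₀ (by linarith)]
      linarith

end P226
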