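import Vale.Agent.P226_h5.Split
import Vale.Agent.P226_h5.OneD
import Vale.Agent.P226_h5.Tau
import Vale.Agent.P226_h5.Cell

/-! P226 module FLUX. -/

open MeasureTheory ProbabilityTheory Set Filter Topology
open scoped RealInnerProductSpace NNReal

namespace P226

variable {E : Type*} [NormedAddCommGroup E] [InnerProductSpace ℝ E] [FiniteDimensional ℝ E]
  [MeasurableSpace E] [BorelSpace E]

/-- exponentials of linear forms are integrable -/
theorem fx_integrable_exp_inner (v : E) (t : ℝ) :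
    Integrable (fun y : E => Real.exp (t * ⟪v, y⟫)) (stdGaussian E) := by
  have h := integrable_exp_mul_gaussianReal (μ := (stdGaussian E)[innerSL ℝ v])
    (v := (Var[innerSL ℝ v; stdGaussian E]).toNNReal) t
  rw [← IsGaussian.map_eq_gaussianReal (innerSL ℝ v)] at h
  have h2 := (integrable_map_measure (by fun_prop) (by fun_prop)).1 h
  simpa [Function.comp_def] using h2

theorem fx_integrable_exp_abs_inner (v : E) (c : ℝ) :
    Integrable (fun y : E => Real.exp (c * |⟪v, y⟫|)) (stdGaussian E) := by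
  refine ((fx_integrable_exp_inner v c).add (fx_integrable_exp_inner v (-c))).mono' (by fun_prop) ?_
  filter_upwards with y
  rw [Real.norm_eq_abs, abs_of_pos (Real.exp_pos _)]
  simp only [Pi.add_apply]
  rcases abs_cases (⟪v, y⟫ : ℝ) with ⟨h, -⟩ | ⟨h, -⟩
  · rw [h]; have := Real.exp_pos (-c * ⟪v, y⟫); linarith
  · rw [h]
    have := Real.exp_pos (c * ⟪v, y⟫)
    have e : c * -⟪v, y⟫ = -c * ⟪v, y⟫ := by ring
    rw [e]; linarith

/-- Cameron-Martin along a unit vector for continuous bounded functions -/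
theorem fx_shift (v : E) (hv : ‖v‖ = 1) (t : ℝ) (g : E → ℝ) (hg : Continuous g)
    (hb : ∀ y, |g y| ≤ 1) :
    ∫ y, g (y + t • v) ∂(stdGaussian E) =
      ∫ y, g y * Real.exp (t * ⟪v, y⟫ - t ^ 2 / 2) ∂(stdGaussian E) := by
  have hvv : ⟪v, v⟫ = 1 := by rw [real_inner_self_eq_norm_sq, hv]; norm_num
  have h1 : Integrable (fun y => g (y + t • v)) (stdGaussian E) := by
    refine Integrable.of_bound (C := 1) ?_ ?_
    · exact (hg.comp (by fun_prop)).aestronglyMeasurable
    · exact Eventually.of_forall fun y => by simpa using hb _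
  have h2 : Integrable (fun y => g y * Real.exp (t * ⟪v, y⟫ - t ^ 2 / 2)) (stdGaussian E) := by
    have h3 := (fx_integrable_exp_inner v t).mul_const (Real.exp (-(t ^ 2 / 2)))
    refine h3.mono' ?_ ?_
    · exact (hg.mul (by fun_prop)).aestronglyMeasurable
    · refine Eventually.of_forall fun y => ?_
      rw [← Real.exp_add, norm_mul, Real.norm_eq_abs, Real.norm_eq_abs, abs_of_pos (Real.exp_pos _)]
      calc |g y| * Real.exp (t * ⟪v, y⟫ - t ^ 2 / 2) ≤ 1 * Real.exp (t * ⟪v, y⟫ - t ^ 2 / 2) := by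
            gcongr; exact hb y
        _ = _ := by rw [one_mul]; congr 1
  rw [integral_split v hv h1, integral_split v hv h2]
  refine integral_congr_ae (Eventually.of_forall fun y => ?_)
  simp only
  have e1 : ∀ u : ℝ, g (u • v + (y - ⟪v, y⟫ • v)) *
      Real.exp (t * ⟪v, u • v + (y - ⟪v, y⟫ • v)⟫ - t ^ 2 / 2) * phi u =
      g (u • v + (y - ⟪v, y⟫ • v)) * phi (u - t) := by
    intro u
    have e2 : ⟪v, u • v + (y - ⟪v, y⟫ • v)⟫ = u := by
      rw [inner_add_right, inner_sub_right, inner_smul_right, inner_smul_right, hvv]; ring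
    rw [e2, mul_assoc]
    congr 1
    unfold phi
    have e3 : -(u - t) ^ 2 / 2 = (t * u - t ^ 2 / 2) + (-u ^ 2 / 2) := by ring
    rw [e3, Real.exp_add]; ring
  rw [integral_congr_ae (Eventually.of_forall e1)]
  rw [← integral_add_right_eq_self (fun u => g (u • v + (y - ⟪v, y⟫ • v)) * phi (u - t)) t]
  refine integral_congr_ae (Eventually.of_forall fun u => ?_)
  simp only
  congr 2
  · rw [add_smul]; abel
  · ring

/-- derivative of the density side -/
theorem fx_deriv_right (v : E) (g : E → ℝ) (hg : Continuous g) (hb : ∀ y, |g y| ≤ 1) :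
    HasDerivAt (fun t : ℝ => ∫ y, g y * Real.exp (t * ⟪v, y⟫ - t ^ 2 / 2) ∂(stdGaussian E))
      (∫ y, g y * ⟪v, y⟫ ∂(stdGaussian E)) 0 := by
  have key := hasDerivAt_integral_of_dominated_loc_of_deriv_le (μ := stdGaussian E)
    (F := fun (t : ℝ) (y : E) => g y * Real.exp (t * ⟪v, y⟫ - t ^ 2 / 2))
    (F' := fun (t : ℝ) (y : E) => g y * (Real.exp (t * ⟪v, y⟫ - t ^ 2 / 2) * (⟪v, y⟫ - t)))
    (x₀ := (0:ℝ)) (s := Metric.ball 0 1) (bound := fun y => Real.exp (2 * |⟪v, y⟫|) * 3)
    (Metric.ball_mem_nhds _ one_pos) ?_ ?_ ?_ ?_ ?_ ?_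
  · have h := key.2
    simpa using h
  · exact Eventually.of_forall fun t => (hg.mul (by fun_prop)).aestronglyMeasurable
  · have : (fun y => g y * Real.exp ((0:ℝ) * ⟪v, y⟫ - (0:ℝ) ^ 2 / 2)) = g := by
      ext y; simp
    rw [this]
    refine Integrable.of_bound (C := 1) hg.aestronglyMeasurable ?_
    exact Eventually.of_forall fun y => by simpa using hb _
  · exact (hg.mul (by fun_prop)).aestronglyMeasurable
  · refine Eventually.of_forall fun y t ht => ?_
    rw [Metric.mem_ball, dist_zero_right, Real.norm_eq_abs] at ht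
    rw [norm_mul, norm_mul, Real.norm_eq_abs, Real.norm_eq_abs, Real.norm_eq_abs,
      abs_of_pos (Real.exp_pos _)]
    have a1 : Real.exp (t * ⟪v, y⟫ - t ^ 2 / 2) ≤ Real.exp |⟪v, y⟫| := by
      apply Real.exp_le_exp.2
      have : t * ⟪v, y⟫ ≤ |⟪v, y⟫| := by
        calc t * ⟪v, y⟫ ≤ |t * ⟪v, y⟫| := le_abs_self _
          _ = |t| * |⟪v, y⟫| := abs_mul _ _
          _ ≤ 1 * |⟪v, y⟫| := by gcongr
          _ = _ := one_mul _
      nlinarith [sq_nonneg t]
    have a2 : |⟪v, y⟫ - t| ≤ |⟪v, y⟫| + 1 := by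
      calc |⟪v, y⟫ - t| ≤ |⟪v, y⟫| + |t| := abs_sub _ _
        _ ≤ _ := by linarith
    have a3 : |⟪v, y⟫| + 1 ≤ Real.exp |⟪v, y⟫| := Real.add_one_le_exp _
    calc |g y| * (Real.exp (t * ⟪v, y⟫ - t ^ 2 / 2) * |⟪v, y⟫ - t|)
        ≤ 1 * (Real.exp |⟪v, y⟫| * Real.exp |⟪v, y⟫|) := by
          gcongr
          · exact hb y
          · exact a2.trans a3
      _ = Real.exp (2 * |⟪v, y⟫|) := by rw [one_mul, ← Real.exp_add]; congr 1; ring
      _ ≤ _ := by nlinarith [Real.exp_pos (2 * |⟪v, y⟫|)]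
  · exact (fx_integrable_exp_abs_inner v 2).mul_const 3
  · refine Eventually.of_forall fun y t _ => ?_
    have h1 : HasDerivAt (fun t : ℝ => t * ⟪v, y⟫ - t ^ 2 / 2) (⟪v, y⟫ - t) t := by
      have e1 : HasDerivAt (fun t : ℝ => t * ⟪v, y⟫) (1 * ⟪v, y⟫) t :=
        (hasDerivAt_id' t).mul_const _
      have e2 : HasDerivAt (fun t : ℝ => t ^ 2 / 2) (((2:ℕ) * t ^ (2 - 1)) / 2) t :=
        (hasDerivAt_pow 2 t).div_const 2
      have e3 := e1.sub e2
      have e4 : (1 * ⟪v, y⟫ - ((2:ℕ) * t ^ (2 - 1)) / 2 : ℝ) = ⟪v, y⟫ - t := by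
        norm_num
      rw [e4] at e3
      exact e3
    exact h1.exp.const_mul (g y)


/-! ### the tail side -/

variable {κ : Type*} [Fintype κ] [Nonempty κ]

theorem fx_abs_tail_sub_le (a b : ℝ) : |tail a - tail b| ≤ |a - b| := by
  have h := Convex.norm_image_sub_le_of_norm_hasDerivWithin_le (f := tail)
    (f' := fun x => -phi x) (s := univ) (C := 1) (x := b) (y := a)
    (fun x _ => (hasDerivAt_tail x).hasDerivWithinAt) ?_ convex_univ (mem_univ _) (mem_univ _)
  · simpa using h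
  · intro x _
    rw [norm_neg, Real.norm_eq_abs, abs_of_pos (phi_pos x)]
    unfold phi
    have h1 : (Real.sqrt (2 * Real.pi))⁻¹ ≤ 1 := by
      apply inv_le_one_of_one_le₀
      rw [Real.one_le_sqrt]
      nlinarith [Real.pi_gt_three]
    have h2 : Real.exp (-x ^ 2 / 2) ≤ 1 := by
      apply Real.exp_le_one_iff.2
      nlinarith [sq_nonneg x]
    have h3 : 0 ≤ (Real.sqrt (2 * Real.pi))⁻¹ := by positivity
    nlinarith [Real.exp_pos (-x ^ 2 / 2)]

theorem fx_tau_le_add (F : Frame κ E) (x y : E) :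
    F.tau x ≤ F.tau y + (∑ l, ‖F.V l‖) * ‖x - y‖ := by
  unfold Frame.tau
  apply Finset.sup'_le
  intro l _
  have ho := one_le_o F l
  have h1 : F.Z l x / F.o l = F.Z l y / F.o l + ⟪F.V l, x - y⟫ / F.o l := by
    unfold Frame.Z; rw [inner_sub_right]; ring
  rw [h1]
  apply add_le_add
  · exact Finset.le_sup' (fun l => F.Z l y / F.o l) (Finset.mem_univ l)
  · have h2 : ⟪F.V l, x - y⟫ ≤ ‖F.V l‖ * ‖x - y‖ := real_inner_le_norm _ _
    have h3 : ‖F.V l‖ ≤ ∑ l, ‖F.V l‖ :=
      Finset.single_le_sum (f := fun l => ‖F.V l‖) (fun i _ => norm_nonneg _) (Finset.mem_univ l)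
    rw [div_le_iff₀ (by linarith)]
    have h4 : 0 ≤ (∑ l, ‖F.V l‖) * ‖x - y‖ := by positivity
    calc ⟪F.V l, x - y⟫ ≤ ‖F.V l‖ * ‖x - y‖ := h2
      _ ≤ (∑ l, ‖F.V l‖) * ‖x - y‖ := by gcongr
      _ = ((∑ l, ‖F.V l‖) * ‖x - y‖) * 1 := (mul_one _).symm
      _ ≤ ((∑ l, ‖F.V l‖) * ‖x - y‖) * F.o l := by gcongr

theorem fx_abs_tau_sub_le (F : Frame κ E) (x y : E) :
    |F.tau x - F.tau y| ≤ (∑ l, ‖F.V l‖) * ‖x - y‖ := by
  rw [abs_le]
  have h1 := fx_tau_le_add F x y
  have h2 := fx_tau_le_add F y x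
  rw [norm_sub_rev] at h2
  constructor <;> linarith

/-- the derivative of `t ↦ tail (tau (y + t v))` at `0`, for generic `y` -/
theorem fx_hasDerivAt_generic (F : Frame κ E) (v y : E)
    (hy : ∀ l j, l ≠ j → y ∉ F.B l ∩ F.B j) :
    HasDerivAt (fun t : ℝ => tail (F.tau (y + t • v)))
      (- ∑ l, (F.B l).indicator (fun y => (⟪F.V l, v⟫ / F.o l) * phi (F.tau y)) y) 0 := by
  obtain ⟨l, hl⟩ : ∃ l, y ∈ F.B l := by
    have := iUnion_B F
    have h2 : y ∈ ⋃ l, F.B l := by rw [this]; trivial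
    simpa using h2
  have hj : ∀ j, j ≠ l → F.Z j y / F.o j < F.Z l y / F.o l := by
    intro j hjl
    have h1 : F.Z j y / F.o j ≤ F.tau y :=
      Finset.le_sup' (fun l => F.Z l y / F.o l) (Finset.mem_univ j)
    have h2 : F.tau y = F.Z l y / F.o l := hl
    refine lt_of_le_of_ne (h2 ▸ h1) ?_
    intro he
    exact hy l j hjl.symm ⟨hl, by show F.tau y = _; rw [h2, he]⟩
  have hsum : ∑ j, (F.B j).indicator (fun y => (⟪F.V j, v⟫ / F.o j) * phi (F.tau y)) y =
      (⟪F.V l, v⟫ / F.o l) * phi (F.tau y) := by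
    rw [Finset.sum_eq_single l]
    · rw [indicator_of_mem hl]
    · intro j _ hjl
      rw [indicator_of_notMem]
      intro hjm
      exact hy l j hjl.symm ⟨hl, hjm⟩
    · intro h; exact absurd (Finset.mem_univ l) h
  rw [hsum]
  have hev : ∀ᶠ t : ℝ in 𝓝 0, F.tau (y + t • v) = F.Z l (y + t • v) / F.o l := by
    have h1 : ∀ j, j ≠ l → ∀ᶠ t : ℝ in 𝓝 0,
        F.Z j (y + t • v) / F.o j < F.Z l (y + t • v) / F.o l := by
      intro j hjl
      have c1 : Continuous fun t : ℝ => F.Z j (y + t • v) / F.o j := by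
        unfold Frame.Z; fun_prop
      have c2 : Continuous fun t : ℝ => F.Z l (y + t • v) / F.o l := by
        unfold Frame.Z; fun_prop
      refine (c1.tendsto 0).eventually_lt (c2.tendsto 0) ?_
      simpa using hj j hjl
    have h2 : ∀ᶠ t : ℝ in 𝓝 0, ∀ j, j ≠ l →
        F.Z j (y + t • v) / F.o j < F.Z l (y + t • v) / F.o l := by
      rw [eventually_all]
      intro j
      by_cases hjl : j = l
      · exact Eventually.of_forall fun t h => absurd hjl h
      · filter_upwards [h1 j hjl] with t ht _ using ht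
    filter_upwards [h2] with t ht
    apply le_antisymm
    · unfold Frame.tau
      apply Finset.sup'_le
      intro j _
      by_cases hjl : j = l
      · rw [hjl]
      · exact (ht j hjl).le
    · exact Finset.le_sup' (fun l => F.Z l (y + t • v) / F.o l) (Finset.mem_univ l)
  have hτ : HasDerivAt (fun t : ℝ => F.Z l (y + t • v) / F.o l) (⟪F.V l, v⟫ / F.o l) 0 := by
    have e : (fun t : ℝ => F.Z l (y + t • v) / F.o l) =
        fun t : ℝ => (⟪F.V l, y⟫ + t * ⟪F.V l, v⟫) / F.o l := by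
      ext t; unfold Frame.Z; rw [inner_add_right, inner_smul_right]
    rw [e]
    have := (((hasDerivAt_id' (0:ℝ)).mul_const ⟪F.V l, v⟫).const_add ⟪F.V l, y⟫).div_const (F.o l)
    simpa using this
  have htau0 : F.Z l (y + (0:ℝ) • v) / F.o l = F.tau y := by
    have h2 : F.tau y = F.Z l y / F.o l := hl
    rw [zero_smul, add_zero, h2]
  have h3 : HasDerivAt (fun t : ℝ => tail (F.Z l (y + t • v) / F.o l))
      (-phi (F.tau y) * (⟪F.V l, v⟫ / F.o l)) 0 := by
    have h4 := (hasDerivAt_tail (F.Z l (y + (0:ℝ) • v) / F.o l)).comp (0:ℝ) hτ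
    rw [htau0] at h4
    exact h4
  have h5 : HasDerivAt (fun t : ℝ => tail (F.tau (y + t • v)))
      (-phi (F.tau y) * (⟪F.V l, v⟫ / F.o l)) 0 := by
    refine h3.congr_of_eventuallyEq (hev.mono fun t ht => ?_)
    show tail _ = tail _
    rw [ht]
  have h6 : -(⟪F.V l, v⟫ / F.o l * phi (F.tau y)) = -phi (F.tau y) * (⟪F.V l, v⟫ / F.o l) := by
    ring
  rw [h6]
  exact h5

theorem fx_measurable_phi : Measurable phi := by unfold phi; fun_prop

theorem fx_phi_le_one (x : ℝ) : phi x ≤ 1 := by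
  unfold phi
  have h1 : (Real.sqrt (2 * Real.pi))⁻¹ ≤ 1 := by
    apply inv_le_one_of_one_le₀
    rw [Real.one_le_sqrt]
    nlinarith [Real.pi_gt_three]
  have h2 : Real.exp (-x ^ 2 / 2) ≤ 1 := by
    apply Real.exp_le_one_iff.2
    nlinarith [sq_nonneg x]
  have h3 : 0 ≤ (Real.sqrt (2 * Real.pi))⁻¹ := by positivity
  nlinarith [Real.exp_pos (-x ^ 2 / 2)]

theorem fx_continuous_tail : Continuous tail :=
  continuous_iff_continuousAt.2 fun x => (hasDerivAt_tail x).continuousAt

theorem fx_abs_tail_le (x : ℝ) : |tail x| ≤ 1 := by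
  rw [abs_of_nonneg (tail_nonneg x)]; exact tail_le_one x

theorem fx_integrable_phi_tau (F : Frame κ E) :
    Integrable (fun y => phi (F.tau y)) (stdGaussian E) := by
  refine Integrable.of_bound (C := 1) ?_ ?_
  · exact (fx_measurable_phi.comp (continuous_tau F).measurable).aestronglyMeasurable
  · refine Eventually.of_forall fun y => ?_
    rw [Real.norm_eq_abs, abs_of_pos (phi_pos _)]
    exact fx_phi_le_one _

theorem fx_generic (F : Frame κ E) :
    ∀ᵐ y ∂(stdGaussian E), ∀ l j, l ≠ j → y ∉ F.B l ∩ F.B j := by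
  rw [ae_all_iff]; intro l
  rw [ae_all_iff]; intro j
  by_cases h : l = j
  · exact Eventually.of_forall fun y h' => absurd h h'
  · have h1 := null_inter_B F h
    have h2 := measure_eq_zero_iff_ae_notMem.1 h1
    filter_upwards [h2] with y hy _ using hy

/-- derivative of the shifted side -/
theorem fx_deriv_left (F : Frame κ E) (v : E) :
    HasDerivAt (fun t : ℝ => ∫ y, tail (F.tau (y + t • v)) ∂(stdGaussian E))
      (∫ y, (- ∑ l, (F.B l).indicator
        (fun y => (⟪F.V l, v⟫ / F.o l) * phi (F.tau y)) y) ∂(stdGaussian E)) 0 := by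
  set M : ℝ := (∑ l, ‖F.V l‖) * ‖v‖ with hM
  have hM0 : 0 ≤ M := by positivity
  refine (hasDerivAt_integral_of_dominated_loc_of_lip (μ := stdGaussian E)
    (F := fun (t : ℝ) (y : E) => tail (F.tau (y + t • v))) (x₀ := (0:ℝ))
    (s := univ) (bound := fun _ => M) univ_mem ?_ ?_ ?_ ?_ ?_ ?_).2
  · refine Eventually.of_forall fun t => ?_
    exact (fx_continuous_tail.comp ((continuous_tau F).comp (by fun_prop))).aestronglyMeasurable
  · refine Integrable.of_bound (C := 1) ?_ ?_
    · exact (fx_continuous_tail.comp ((continuous_tau F).comp (by fun_prop))).aestronglyMeasurable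
    · exact Eventually.of_forall fun y => by simpa using fx_abs_tail_le _
  · refine AEStronglyMeasurable.neg ?_
    refine (Finset.measurable_sum _ fun l _ => ?_).aestronglyMeasurable
    exact ((fx_measurable_phi.comp (continuous_tau F).measurable).const_mul _).indicator
      (measurableSet_B F l)
  · refine Eventually.of_forall fun y => ?_
    rw [lipschitzOnWith_univ]
    refine LipschitzWith.of_dist_le_mul fun s t => ?_
    rw [Real.dist_eq, Real.dist_eq]
    have e1 : ((Real.nnabs M : ℝ≥0) : ℝ) = M := by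
      rw [Real.coe_nnabs, abs_of_nonneg hM0]
    rw [e1]
    refine (fx_abs_tail_sub_le _ _).trans ((fx_abs_tau_sub_le F _ _).trans ?_)
    have e2 : (y + s • v) - (y + t • v) = (s - t) • v := by rw [sub_smul]; abel
    rw [e2, norm_smul, Real.norm_eq_abs, hM]
    apply le_of_eq; ring
  · exact integrable_const _
  · filter_upwards [fx_generic F] with y hy
    exact fx_hasDerivAt_generic F v y hy

theorem fx_ibp_unit (F : Frame κ E) (v : E) (hv : ‖v‖ = 1) :
    ∫ y, ⟪v, y⟫ * tail (F.tau y) ∂(stdGaussian E) =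
      - ∑ l, (⟪F.V l, v⟫ / F.o l) * ∫ y in F.B l, phi (F.tau y) ∂(stdGaussian E) := by
  have hc : Continuous fun y : E => tail (F.tau y) := fx_continuous_tail.comp (continuous_tau F)
  have h1 := fx_deriv_left F v
  have h2 := fx_deriv_right v (fun y => tail (F.tau y)) hc (fun y => fx_abs_tail_le _)
  have h3 : (fun t : ℝ => ∫ y, tail (F.tau (y + t • v)) ∂(stdGaussian E)) =
      fun t : ℝ => ∫ y, tail (F.tau y) * Real.exp (t * ⟪v, y⟫ - t ^ 2 / 2) ∂(stdGaussian E) := by
    ext t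
    exact fx_shift v hv t (fun y => tail (F.tau y)) hc (fun y => fx_abs_tail_le _)
  rw [h3] at h1
  have h4 := h2.unique h1
  have h5 : ∫ y, ⟪v, y⟫ * tail (F.tau y) ∂(stdGaussian E) =
      ∫ y, tail (F.tau y) * ⟪v, y⟫ ∂(stdGaussian E) := by
    refine integral_congr_ae (Eventually.of_forall fun y => ?_)
    simp only; ring
  rw [h5, h4, integral_neg, integral_finsetSum]
  · congr 1
    refine Finset.sum_congr rfl fun l _ => ?_
    rw [integral_indicator (measurableSet_B F l), integral_const_mul]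
  · intro l _
    exact ((fx_integrable_phi_tau F).const_mul _).indicator (measurableSet_B F l)

theorem gaussian_ibp (F : Frame κ E) (v : E) :
    ∫ y, ⟪v, y⟫ * tail (F.tau y) ∂(stdGaussian E) =
      - ∑ l, (⟪F.V l, v⟫ / F.o l) * ∫ y in F.B l, phi (F.tau y) ∂(stdGaussian E) := by
  by_cases hv : v = 0
  · subst hv; simp
  · have hn : ‖v‖ ≠ 0 := norm_ne_zero_iff.2 hv
    set u : E := (‖v‖)⁻¹ • v with hu
    have hu1 : ‖u‖ = 1 := by
      rw [hu, norm_smul, norm_inv, norm_norm, inv_mul_cancel₀ hn]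
    have hvu : v = ‖v‖ • u := by rw [hu, smul_smul, mul_inv_cancel₀ hn, one_smul]
    have h := fx_ibp_unit F u hu1
    have h1 : ∫ y, ⟪v, y⟫ * tail (F.tau y) ∂(stdGaussian E) =
        ‖v‖ * ∫ y, ⟪u, y⟫ * tail (F.tau y) ∂(stdGaussian E) := by
      rw [← integral_const_mul]
      refine integral_congr_ae (Eventually.of_forall fun y => ?_)
      simp only
      conv_lhs => rw [hvu, real_inner_smul_left]
      ring
    rw [h1, h, mul_neg, Finset.mul_sum]
    congr 1
    refine Finset.sum_congr rfl fun l _ => ?_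
    have h2 : ⟪F.V l, v⟫ = ‖v‖ * ⟪F.V l, u⟫ := by
      conv_lhs => rw [hvu, real_inner_smul_right]
    rw [h2]; ring

theorem flux (C : Crit κ E) (_h2 : 2 ≤ Fintype.card κ) (l : κ) :
    ∫ y in C.toFrame.B l, phi (C.toFrame.tau y) ∂(stdGaussian E) =
      C.m * C.toFrame.o l / ((Fintype.card κ : ℝ) + 1) := by
  set F := C.toFrame with hF
  set Φ : κ → ℝ := fun l => ∫ y in F.B l, phi (F.tau y) ∂(stdGaussian E) with hΦ
  have ho : ∀ l, 0 < F.o l := fun l => by have := one_le_o F l; linarith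
  -- the vector `∑ Φ_l / o_l V_l` is orthogonal to every `V_j`
  set w : E := ∑ l, (Φ l / F.o l) • F.V l with hw
  have h1 : ∀ j, ⟪w, F.V j⟫ = 0 := by
    intro j
    have e1 := gaussian_ibp F (F.V j)
    have e2 := cell_lat C j
    have e3 : ∫ y, ⟪F.V j, y⟫ * tail (F.tau y) ∂(stdGaussian E) = 0 := e2
    rw [e3] at e1
    rw [hw, sum_inner]
    have e4 : ∑ l, (⟪F.V l, F.V j⟫ / F.o l) * Φ l = 0 := by linarith
    rw [← e4]
    refine Finset.sum_congr rfl fun l _ => ?_
    rw [real_inner_smul_left]; ring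
  have h3 : w = 0 := by
    rw [← inner_self_eq_zero (𝕜 := ℝ)]
    conv_lhs => rw [hw, inner_sum]
    refine Finset.sum_eq_zero fun l _ => ?_
    rw [real_inner_smul_right, ← hw, h1 l, mul_zero]
  have h4 : ∀ j, Φ j / F.o j = Φ l / F.o l := fun j =>
    coeff_const F (c := fun l => Φ l / F.o l) h3 j l
  have h5 : ∀ j, Φ j = (Φ l / F.o l) * F.o j := fun j => by
    rw [← h4 j, div_mul_cancel₀ _ (ho j).ne']
  have h6 : ∑ j, Φ j = C.m := by
    rw [cell_m C]
    exact sum_integral_B F (fx_integrable_phi_tau F)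
  have h7 : (Φ l / F.o l) * ((Fintype.card κ : ℝ) + 1) = C.m := by
    rw [← sum_o F, ← h6, Finset.mul_sum]
    exact Finset.sum_congr rfl fun j _ => (h5 j).symm
  have hn : (Fintype.card κ : ℝ) + 1 ≠ 0 := by positivity
  show Φ l = _
  rw [← h7]
  field_simp [(ho l).ne']

end P226
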