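import Vale.Agent.P226_h5.Grow

/-! P226: monotonicity and scaling of `fr`. -/

open MeasureTheory ProbabilityTheory Set
open scoped RealInnerProductSpace

namespace P226

set_option linter.unusedSectionVars false

theorem continuous_fr_integrand (x T r2 : ℝ) :
    Continuous (fun s : ℝ => (T - s) * Real.exp (x ^ 2 * (s - r2 * s ^ 2 / 2))) := by
  fun_prop

theorem exp_diff_ge (a b u : ℝ) (ha : 0 ≤ a) (hab : a ≤ b) :
    (b - a) * u ≤ Real.exp (b * u) - Real.exp (a * u) := by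
  have h1 : Real.exp (b * u) - Real.exp (a * u) =
      Real.exp (a * u) * (Real.exp ((b - a) * u) - 1) := by
    rw [mul_sub, ← Real.exp_add, mul_one]
    congr 2
    ring
  rw [h1]
  have h2 : (b - a) * u ≤ Real.exp ((b - a) * u) - 1 := by
    linarith [Real.add_one_le_exp ((b - a) * u)]
  have h3 := mul_le_mul_of_nonneg_left h2 (Real.exp_pos (a * u)).le
  refine le_trans ?_ h3
  have hba : 0 ≤ b - a := sub_nonneg.2 hab
  rcases le_total 0 u with hu | hu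
  · have h4 : 1 ≤ Real.exp (a * u) := Real.one_le_exp (mul_nonneg ha hu)
    have h5 : 0 ≤ (b - a) * u := mul_nonneg hba hu
    nlinarith
  · have h4 : Real.exp (a * u) ≤ 1 := Real.exp_le_one_iff.2 (mul_nonpos_of_nonneg_of_nonpos ha hu)
    have h5 : (b - a) * u ≤ 0 := mul_nonpos_of_nonneg_of_nonpos hba hu
    nlinarith

theorem fr_mono (T : ℝ) (hT0 : 0 ≤ T) (hT4 : T ≤ 4) {d D : ℝ} (hd : 0 ≤ d) (hdD : d ≤ D) :
    fr d T 1 ≤ fr D T 1 := by
  have hsq : d ^ 2 ≤ D ^ 2 := pow_le_pow_left₀ hd hdD 2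
  have hi1 := (continuous_fr_integrand d T 1).intervalIntegrable (μ := volume) 0 T
  have hi2 := (continuous_fr_integrand D T 1).intervalIntegrable (μ := volume) 0 T
  have hi3 : IntervalIntegrable (fun s : ℝ => (T - s) * ((D ^ 2 - d ^ 2) * (s - 1 * s ^ 2 / 2)))
      volume 0 T := by
    apply Continuous.intervalIntegrable
    fun_prop
  have h1 : ∫ s in (0:ℝ)..T, (T - s) * ((D ^ 2 - d ^ 2) * (s - 1 * s ^ 2 / 2)) ≤
      fr D T 1 - fr d T 1 := by
    unfold fr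
    rw [← intervalIntegral.integral_sub hi2 hi1]
    apply intervalIntegral.integral_mono_on hT0 hi3 (hi2.sub hi1)
    intro s hs
    rw [← mul_sub]
    exact mul_le_mul_of_nonneg_left (exp_diff_ge (d ^ 2) (D ^ 2) _ (sq_nonneg d) hsq)
      (sub_nonneg.2 hs.2)
  have h2 : ∫ s in (0:ℝ)..T, (T - s) * ((D ^ 2 - d ^ 2) * (s - 1 * s ^ 2 / 2)) =
      (D ^ 2 - d ^ 2) * (T ^ 3 * (4 - T) / 24) := by
    have hder : ∀ s ∈ uIcc (0:ℝ) T, HasDerivAt (fun s : ℝ => (D ^ 2 - d ^ 2) *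
        (T * s ^ 2 / 2 - (T / 2 + 1) * s ^ 3 / 3 + s ^ 4 / 8))
        ((T - s) * ((D ^ 2 - d ^ 2) * (s - 1 * s ^ 2 / 2))) s := by
      intro s _
      have e1 : HasDerivAt (fun s : ℝ => T * s ^ 2 / 2 - (T / 2 + 1) * s ^ 3 / 3 + s ^ 4 / 8)
          (T * (2 * s) / 2 - (T / 2 + 1) * (3 * s ^ 2) / 3 + 4 * s ^ 3 / 8) s := by
        have h2 := (hasDerivAt_pow 2 s).const_mul T |>.div_const 2
        have h3 := (hasDerivAt_pow 3 s).const_mul (T / 2 + 1) |>.div_const 3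
        have h4 := (hasDerivAt_pow 4 s).div_const 8
        refine ((h2.sub h3).add h4).congr_deriv ?_
        push_cast
        ring
      refine (e1.const_mul (D ^ 2 - d ^ 2)).congr_deriv ?_
      ring
    rw [intervalIntegral.integral_eq_sub_of_hasDerivAt hder hi3]
    ring
  rw [h2] at h1
  have h3 : 0 ≤ (D ^ 2 - d ^ 2) * (T ^ 3 * (4 - T) / 24) := by
    apply mul_nonneg (sub_nonneg.2 hsq)
    have := pow_nonneg hT0 3
    have : 0 ≤ 4 - T := by linarith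
    positivity
  linarith

/-- scaling identity -/
theorem fr_scale (x T ε : ℝ) (h0 : 0 ≤ ε) (h1 : ε < 1) :
    (1 + ε) * fr (Real.sqrt ((1 + ε) / (1 - ε)) * x) ((1 - ε) / (1 + ε) * T) 1 =
      (1 - ε) ^ 2 / (1 + ε) * fr x T ((1 - ε) / (1 + ε)) := by
  have hp : 0 < 1 + ε := by linarith
  have hm : 0 < 1 - ε := by linarith
  obtain ⟨r, hr⟩ : ∃ r : ℝ, r = (1 - ε) / (1 + ε) := ⟨_, rfl⟩
  have hr0 : 0 < r := by rw [hr]; positivity
  have hsq : Real.sqrt ((1 + ε) / (1 - ε)) ^ 2 = r⁻¹ := by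
    rw [Real.sq_sqrt (by positivity), hr, inv_div]
  rw [← hr]
  unfold fr
  have e := intervalIntegral.integral_comp_mul_left (a := 0) (b := T) (fun t : ℝ => (r * T - t) *
    Real.exp ((Real.sqrt ((1 + ε) / (1 - ε)) * x) ^ 2 * (t - 1 * t ^ 2 / 2))) hr0.ne'
  rw [mul_zero, smul_eq_mul] at e
  have e2 : ∫ t in (0:ℝ)..(r * T), (r * T - t) *
      Real.exp ((Real.sqrt ((1 + ε) / (1 - ε)) * x) ^ 2 * (t - 1 * t ^ 2 / 2)) =
      r * ∫ s in (0:ℝ)..T, (r * T - r * s) *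
      Real.exp ((Real.sqrt ((1 + ε) / (1 - ε)) * x) ^ 2 * (r * s - 1 * (r * s) ^ 2 / 2)) := by
    rw [e, ← mul_assoc, mul_inv_cancel₀ hr0.ne', one_mul]
  rw [e2]
  have e3 : ∀ s : ℝ, (r * T - r * s) *
      Real.exp ((Real.sqrt ((1 + ε) / (1 - ε)) * x) ^ 2 * (r * s - 1 * (r * s) ^ 2 / 2)) =
      r * ((T - s) * Real.exp (x ^ 2 * (s - r * s ^ 2 / 2))) := by
    intro s
    rw [mul_pow, hsq]
    have : r⁻¹ * x ^ 2 * (r * s - 1 * (r * s) ^ 2 / 2) = x ^ 2 * (s - r * s ^ 2 / 2) := by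
      field_simp
    rw [this]
    ring
  simp_rw [e3]
  rw [intervalIntegral.integral_const_mul]
  have e4 : (1 + ε) * (r * (r * ∫ s in (0:ℝ)..T, (T - s) *
      Real.exp (x ^ 2 * (s - r * s ^ 2 / 2)))) =
      ((1 + ε) * r * r) * ∫ s in (0:ℝ)..T, (T - s) * Real.exp (x ^ 2 * (s - r * s ^ 2 / 2)) := by
    ring
  rw [e4]
  congr 1
  rw [hr]
  field_simp

variable {E : Type*} [NormedAddCommGroup E] [InnerProductSpace ℝ E] [FiniteDimensional ℝ E]
  [MeasurableSpace E] [BorelSpace E] {κ : Type*} [Fintype κ] [Nonempty κ]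

theorem fr_facet (F : Frame κ E) (h2 : 2 ≤ Fintype.card κ) (l : κ) (x T : ℝ) (hx : 0 ≤ x)
    (hT0 : 0 ≤ T) (hT4 : T ≤ 4) :
    F.o l * fr (F.o l / ‖F.V l‖ * x) ((1 - F.ε l) / (1 + F.ε l) * T) 1 ≤
      (1 - F.ε l) ^ 2 / (1 + F.ε l) * fr x T ((1 - F.ε l) / (1 + F.ε l)) := by
  have h0 := F.eps_nonneg l
  have h1 := eps_le_one F l
  rcases eq_or_lt_of_le h1 with h1 | h1
  · have e1 : (1 - F.ε l) / (1 + F.ε l) * T = 0 := by rw [h1]; simp
    have e2 : (1 - F.ε l) ^ 2 / (1 + F.ε l) = 0 := by rw [h1]; simp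
    rw [e1, e2, zero_mul]
    unfold fr
    simp
  · have hp : 0 < 1 + F.ε l := by linarith
    have hm : 0 < 1 - F.ε l := by linarith
    rw [← fr_scale x T (F.ε l) h0 h1]
    change (1 + F.ε l) * _ ≤ _
    apply mul_le_mul_of_nonneg_left _ hp.le
    have hr0 : 0 ≤ (1 - F.ε l) / (1 + F.ε l) := by positivity
    have hr1 : (1 - F.ε l) / (1 + F.ε l) ≤ 1 := by
      rw [div_le_one hp]
      linarith
    apply fr_mono
    · exact mul_nonneg hr0 hT0
    · nlinarith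
    · exact mul_nonneg (div_nonneg (o_pos F l).le (norm_nonneg _)) hx
    · apply mul_le_mul_of_nonneg_right _ hx
      have hV := norm_V_pos F h2 l
      rw [div_le_iff₀ hV]
      apply le_of_sq_le_sq _ (mul_nonneg (Real.sqrt_nonneg _) hV.le)
      rw [mul_pow, Real.sq_sqrt (by positivity)]
      have hn := F.V_norm l
      have : (1 + F.ε l) / (1 - F.ε l) * (1 - F.ε l ^ 2) ≤
          (1 + F.ε l) / (1 - F.ε l) * ‖F.V l‖ ^ 2 :=
        mul_le_mul_of_nonneg_left hn (by positivity)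
      refine le_trans (le_of_eq ?_) this
      unfold Frame.o
      field_simp
      ring

end P226
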