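import Vale.Agent.P226_h5.Grow
import Vale.Agent.P226_h5.Fr
import Vale.Agent.P226_h5.Cell
import Vale.Agent.P226_h5.Flux
import Vale.Agent.P226_h5.Cost

/-! P226: summed growth lemma and assembly of the certificate argument. -/

open MeasureTheory ProbabilityTheory Set
open scoped RealInnerProductSpace

namespace P226

set_option linter.unusedSectionVars false
set_option linter.style.haveILetI false

variable {E : Type*} [NormedAddCommGroup E] [InnerProductSpace ℝ E] [FiniteDimensional ℝ E]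
  [MeasurableSpace E] [BorelSpace E] {κ : Type*} [Fintype κ] [Nonempty κ]

theorem fr_bound' (X Tm r2 : ℝ) : ∃ Cb, 0 ≤ Cb ∧ ∀ x ∈ Icc (0:ℝ) X, ∀ T ∈ Icc (0:ℝ) Tm,
    |fr x T r2| ≤ Cb := by
  have hc : IsCompact (Icc (0:ℝ) X ×ˢ Icc (0:ℝ) Tm) := isCompact_Icc.prod isCompact_Icc
  obtain ⟨Cb, hCb⟩ := hc.exists_bound_of_continuousOn (f := fun p : ℝ × ℝ => fr p.1 p.2 r2)
    (continuous_fr_comp r2).continuousOn
  refine ⟨|Cb|, abs_nonneg _, fun x hx T hT => ?_⟩
  have := hCb (x, T) ⟨hx, hT⟩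
  rw [Real.norm_eq_abs] at this
  exact this.trans (le_abs_self _)

theorem integrable_facet (F : Frame κ E) (g S : ℝ → ℝ) (hg : Measurable g) (hS : Measurable S)
    {x1 G Sm : ℝ} (hg0 : ∀ t, 0 ≤ g t) (hgb : ∀ t, g t ≤ G) (hgs : ∀ t, t ∉ Ioc 0 x1 → g t = 0)
    (hS0 : ∀ t, 0 ≤ S t) (hSm : ∀ t, S t ≤ Sm) (ρ r2 : ℝ) (hρ : 0 ≤ ρ) :
    Integrable (fun y => F.tau y * g (F.tau y) * fr (ρ * F.tau y) (S (F.tau y)) r2)
      (stdGaussian E) := by
  obtain ⟨C1, hC10, hC1⟩ := fr_bound' (ρ * |x1|) Sm r2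
  have hG : 0 ≤ G := (hg0 0).trans (hgb 0)
  have h1 : Measurable (fun t : ℝ => t * g t * fr (ρ * t) (S t) r2) :=
    (measurable_id.mul hg).mul (measurable_fr_comp (measurable_const_mul ρ) hS r2)
  have hm : Measurable (fun y => F.tau y * g (F.tau y) * fr (ρ * F.tau y) (S (F.tau y)) r2) :=
    h1.comp (measurable_tau F)
  refine (integrable_const (|x1| * G * C1)).mono' hm.aestronglyMeasurable
    (Filter.Eventually.of_forall fun y => ?_)
  rw [Real.norm_eq_abs]
  by_cases ht : F.tau y ∈ Ioc 0 x1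
  · have ht0 : 0 < F.tau y := ht.1
    have htx : F.tau y ≤ |x1| := ht.2.trans (le_abs_self _)
    rw [abs_mul, abs_of_nonneg (mul_nonneg ht0.le (hg0 _))]
    apply mul_le_mul _ _ (abs_nonneg _) (by positivity)
    · exact mul_le_mul htx (hgb _) (hg0 _) (abs_nonneg _)
    · exact hC1 _ ⟨by positivity, mul_le_mul_of_nonneg_left htx hρ⟩ _ ⟨hS0 _, hSm _⟩
  · rw [hgs _ ht]
    simp only [mul_zero, zero_mul, abs_zero]
    positivity

theorem integrable_gPhi (F : Frame κ E) (l : κ) (g A : ℝ → ℝ) (hg : Measurable g)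
    (hA : Measurable A) {x1 G Ab : ℝ} (hg0 : ∀ t, 0 ≤ g t) (hgb : ∀ t, g t ≤ G)
    (hgs : ∀ t, t ∉ Ioc 0 x1 → g t = 0) (hA1 : ∀ t, -1 ≤ A t) (hAb : ∀ t, A t ≤ Ab) (y : E) :
    Integrable (fun t => gPhi F l g A y t) := by
  have h0 := (measurable_gPhi F l g A hg hA).comp (measurable_prodMk_left (x := y))
  have hm : Measurable (fun t => gPhi F l g A y t) := h0
  have h2 : IntegrableOn (fun _ : ℝ => G * ((1 + |Ab|) * 2 + ((Fintype.card κ : ℝ) + 2)))
      (Ioc 0 x1) := integrableOn_const measure_Ioc_lt_top.ne enorm_ne_top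
  have h3 := (integrable_indicator_iff measurableSet_Ioc).2 h2
  refine h3.mono' hm.aestronglyMeasurable (Filter.Eventually.of_forall fun t => ?_)
  by_cases ht : t ∈ Ioc 0 x1
  · rw [indicator_of_mem ht, Real.norm_eq_abs]
    exact gPhi_bound F l g A hg0 hgb hA1 hAb y t
  · rw [indicator_of_notMem ht]
    unfold gPhi
    by_cases h : t ∈ Ioi (F.tau y)
    · rw [indicator_of_mem h, hgs t ht, zero_mul, norm_zero]
    · rw [indicator_of_notMem h, norm_zero]

theorem integrable_int_gPhi (F : Frame κ E) (l : κ) (g A : ℝ → ℝ) (hg : Measurable g)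
    (hA : Measurable A) {x1 G Ab : ℝ} (hg0 : ∀ t, 0 ≤ g t) (hgb : ∀ t, g t ≤ G)
    (hgs : ∀ t, t ∉ Ioc 0 x1 → g t = 0) (hA1 : ∀ t, -1 ≤ A t) (hAb : ∀ t, A t ≤ Ab) :
    Integrable (fun y => ∫ t in Ioi (F.tau y), g t * (A t * F.o l + F.Z l y / t))
      (stdGaussian E) := by
  set μt : Measure ℝ := volume.restrict (Ioc 0 x1) with hμt
  haveI : IsFiniteMeasure μt := ⟨by rw [hμt, Measure.restrict_apply_univ]; exact measure_Ioc_lt_top⟩
  have hL1 : ∀ y, ∫ t in Ioi (F.tau y), g t * (A t * F.o l + F.Z l y / t) =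
      ∫ t, gPhi F l g A y t ∂μt := by
    intro y
    rw [← integral_indicator measurableSet_Ioi]
    change ∫ t, gPhi F l g A y t = _
    rw [hμt, setIntegral_eq_integral_of_forall_compl_eq_zero]
    intro t ht
    unfold gPhi
    by_cases h : t ∈ Ioi (F.tau y)
    · rw [indicator_of_mem h, hgs t ht, zero_mul]
    · rw [indicator_of_notMem h]
  have hbd := gPhi_bound F l g A hg0 hgb hA1 hAb
  have hmeas := measurable_gPhi F l g A hg hA
  have hint : Integrable (fun p : E × ℝ => gPhi F l g A p.1 p.2) ((stdGaussian E).prod μt) :=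
    (integrable_const (G * ((1 + |Ab|) * 2 + ((Fintype.card κ : ℝ) + 2)))).mono'
      hmeas.aestronglyMeasurable
      (Filter.Eventually.of_forall fun p => by rw [Real.norm_eq_abs]; exact hbd p.1 p.2)
  simp_rw [hL1]
  exact hint.integral_prod_left

/-- the coefficient function of the facet `l` -/
noncomputable def gA (F : Frame κ E) (T : ℝ → ℝ) (l : κ) (t : ℝ) : ℝ :=
  (1 - F.ε l) / (1 + F.ε l) * T t - 1

theorem gA_ratio_nonneg (F : Frame κ E) (l : κ) : 0 ≤ (1 - F.ε l) / (1 + F.ε l) :=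
  div_nonneg (by linarith [eps_le_one F l]) (by linarith [F.eps_nonneg l])

theorem gA_ratio_le (F : Frame κ E) (l : κ) : (1 - F.ε l) / (1 + F.ε l) ≤ 1 := by
  have := F.eps_nonneg l
  rw [div_le_one (by linarith)]
  linarith

theorem sum_gA (F : Frame κ E) (T : ℝ → ℝ) (y : E) (t : ℝ) :
    ∑ l, (gA F T l t * F.o l + F.Z l y / t) =
      ((Fintype.card κ : ℝ) - 1) * T t - ((Fintype.card κ : ℝ) + 1) := by
  rw [Finset.sum_add_distrib, ← Finset.sum_div, sum_Z, zero_div, add_zero]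
  have h : ∀ l, gA F T l t * F.o l = T t - F.ε l * T t - (1 + F.ε l) := by
    intro l
    have : (1 + F.ε l) ≠ 0 := by linarith [F.eps_nonneg l]
    unfold gA Frame.o
    field_simp
  simp_rw [h]
  rw [Finset.sum_sub_distrib, Finset.sum_sub_distrib, ← Finset.sum_mul, Finset.sum_add_distrib,
    F.sum_eps]
  simp only [Finset.sum_const, Finset.card_univ, nsmul_eq_mul]
  ring

theorem growsum_aux (F : Frame κ E) (h2 : 2 ≤ Fintype.card κ) (g T : ℝ → ℝ)
    (hg : Measurable g) (hT : Measurable T) (x1 G : ℝ) (hg0 : ∀ t, 0 ≤ g t) (hgb : ∀ t, g t ≤ G)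
    (hgs : ∀ t, t ∉ Ioc 0 x1 → g t = 0) (hT0 : ∀ t, 0 ≤ T t) (hT4 : ∀ t, T t ≤ 4) :
    Integrable (fun y => ∫ t in Ioi (F.tau y),
        g t * (((Fintype.card κ : ℝ) - 1) * T t - ((Fintype.card κ : ℝ) + 1))) (stdGaussian E) ∧
    ∫ y, (∫ t in Ioi (F.tau y),
        g t * (((Fintype.card κ : ℝ) - 1) * T t - ((Fintype.card κ : ℝ) + 1))) ∂(stdGaussian E) ≤
      ∑ l, ∫ y in F.B l, F.tau y * g (F.tau y) * ((1 - F.ε l) ^ 2 / (1 + F.ε l) *
        fr (F.tau y) (T (F.tau y)) ((1 - F.ε l) / (1 + F.ε l))) ∂(stdGaussian E) := by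
  have hAm : ∀ l, Measurable (gA F T l) := fun l => (hT.const_mul _).sub_const 1
  have hA1 : ∀ l t, -1 ≤ gA F T l t := by
    intro l t
    have := mul_nonneg (gA_ratio_nonneg F l) (hT0 t)
    unfold gA
    linarith
  have hAb : ∀ l t, gA F T l t ≤ 3 := by
    intro l t
    have := mul_le_mul (gA_ratio_le F l) (hT4 t) (hT0 t) zero_le_one
    unfold gA
    linarith
  have hsum : ∀ y, ∫ t in Ioi (F.tau y),
      g t * (((Fintype.card κ : ℝ) - 1) * T t - ((Fintype.card κ : ℝ) + 1)) =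
      ∑ l, ∫ t in Ioi (F.tau y), g t * (gA F T l t * F.o l + F.Z l y / t) := by
    intro y
    rw [← integral_finsetSum]
    · refine integral_congr_ae (Filter.Eventually.of_forall fun t => ?_)
      simp only
      rw [← Finset.mul_sum, sum_gA]
    · intro l _
      have h := integrable_gPhi F l g (gA F T l) hg (hAm l) hg0 hgb hgs (hA1 l) (hAb l) y
      exact (integrable_indicator_iff measurableSet_Ioi).1 h
  have hint := fun l => integrable_int_gPhi F l g (gA F T l) hg (hAm l) hg0 hgb hgs (hA1 l) (hAb l)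
  simp_rw [hsum]
  refine ⟨integrable_finsetSum _ fun l _ => hint l, ?_⟩
  rw [integral_finsetSum _ fun l _ => hint l]
  refine Finset.sum_le_sum fun l _ => ?_
  refine (grow F h2 l g (gA F T l) hg (hAm l) x1 G 3 hg0 hgb hgs (hA1 l) (hAb l)).trans ?_
  rw [← integral_const_mul]
  have h1A : ∀ t, 1 + gA F T l t = (1 - F.ε l) / (1 + F.ε l) * T t := by
    intro t
    unfold gA
    ring
  simp_rw [h1A]
  have hS : Measurable (fun t => (1 - F.ε l) / (1 + F.ε l) * T t) := hT.const_mul _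
  have hi1 := integrable_facet F g _ hg hS hg0 hgb hgs
    (fun t => mul_nonneg (gA_ratio_nonneg F l) (hT0 t))
    (fun t => (mul_le_mul (gA_ratio_le F l) (hT4 t) (hT0 t) zero_le_one).trans
      (le_of_eq (one_mul 4))) (F.o l / ‖F.V l‖) 1 (rho_pos F h2 l).le
  have hi2 := integrable_facet F g T hg hT hg0 hgb hgs hT0 hT4 1
    ((1 - F.ε l) / (1 + F.ε l)) zero_le_one
  simp_rw [one_mul] at hi2
  apply setIntegral_mono (hi1.integrableOn.const_mul _)
  · refine ((hi2.const_mul ((1 - F.ε l) ^ 2 / (1 + F.ε l))).congr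
      (Filter.Eventually.of_forall fun y => ?_)).integrableOn
    simp only
    ring
  · intro y
    simp only
    have h := fr_facet F h2 l (F.tau y) (T (F.tau y)) (tau_nonneg F y) (hT0 _) (hT4 _)
    have h3 := mul_le_mul_of_nonneg_left h (mul_nonneg (tau_nonneg F y) (hg0 (F.tau y)))
    linarith

theorem growsum (F : Frame κ E) (h2 : 2 ≤ Fintype.card κ) (g T : ℝ → ℝ)
    (hg : Measurable g) (hT : Measurable T) (x1 G : ℝ) (hg0 : ∀ t, 0 ≤ g t) (hgb : ∀ t, g t ≤ G)
    (hgs : ∀ t, t ∉ Ioc 0 x1 → g t = 0) (hT0 : ∀ t, 0 ≤ T t) (hT4 : ∀ t, T t ≤ 4) :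
    ∫ y, (∫ t in Ioi (F.tau y),
        g t * (((Fintype.card κ : ℝ) - 1) * T t - ((Fintype.card κ : ℝ) + 1))) ∂(stdGaussian E) ≤
      ∑ l, ∫ y in F.B l, F.tau y * g (F.tau y) * ((1 - F.ε l) ^ 2 / (1 + F.ε l) *
        fr (F.tau y) (T (F.tau y)) ((1 - F.ε l) / (1 + F.ε l))) ∂(stdGaussian E) :=
  (growsum_aux F h2 g T hg hT x1 G hg0 hgb hgs hT0 hT4).2

/-- integrability of the inner integral of (REM) -/
theorem integrable_inner_min (F : Frame κ E) :
    Integrable (fun y => ∫ t in Ioi (F.tau y),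
      (Finset.univ.inf' Finset.univ_nonempty (fun l => F.o l * t - F.Z l y)) * phi t)
      (stdGaussian E) := by
  have h := (integrable_split F.e F.norm_e
    ((ce_integrable_minL F).indicator (ce_K_meas F))).integral_prod_left
  refine h.congr (Filter.Eventually.of_forall fun y => ?_)
  simp only
  rw [← integral_Ici_eq_integral_Ioi, ← integral_indicator measurableSet_Ici]
  refine integral_congr_ae (Filter.Eventually.of_forall fun u => ?_)
  simp only
  by_cases hu : F.tau y ≤ u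
  · rw [indicator_of_mem ((ce_mem_K F u y).2 hu), indicator_of_mem (by exact hu)]
    simp only [Frame.minL, ce_inner_e, ce_Z]
  · rw [indicator_of_notMem (fun h' => hu ((ce_mem_K F u y).1 h')),
      indicator_of_notMem (by exact hu), zero_mul]

/-- A numerical certificate excludes critical frames. -/
theorem no_crit_of_cert (C : Crit κ E) (n : ℕ) (hn : Fintype.card κ = n) (h2 : 2 ≤ n)
    (D q x1 G : ℝ) (g T : ℝ → ℝ) (hg : Measurable g) (hT : Measurable T)
    (_hq : 0 ≤ q) (hg0 : ∀ t, 0 ≤ g t) (hgb : ∀ t, g t ≤ G) (hgs : ∀ t, t ∉ Ioc 0 x1 → g t = 0)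
    (hT0 : ∀ t, 0 ≤ T t) (hT4 : ∀ t, T t ≤ 4)
    (hD : D + q / ((n:ℝ) + 1) ≤ ((n:ℝ) + 1) / (2 * n))
    (hcert : ∀ x ≥ 0, ∀ ε, 0 ≤ ε → ε ≤ 1 →
      (1 + ε) * cost n ε x + x * g x * ((1 - ε) ^ 2 * fr x (T x) ((1 - ε) / (1 + ε))) ≤
        (1 + ε) * (D * phi x + ∫ t in Ioi x, g t * (((n:ℝ) - 1) * T t - ((n:ℝ) + 1))) +
          q * ε * phi x) : False := by
  subst hn
  set F := C.toFrame with hF
  have hrem := cell_removal C
  rw [← hF] at hrem
  set c : E → ℝ := fun y => ∫ t in Ioi (F.tau y),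
      (Finset.univ.inf' Finset.univ_nonempty (fun l => F.o l * t - F.Z l y)) * phi t with hc
  have hci : Integrable c (stdGaussian E) := integrable_inner_min F
  have hphi : Integrable (fun y => phi (F.tau y)) (stdGaussian E) := fx_integrable_phi_tau F
  obtain ⟨hHi, hgrow⟩ := growsum_aux F h2 g T hg hT x1 G hg0 hgb hgs hT0 hT4
  set H : E → ℝ := fun y => ∫ t in Ioi (F.tau y),
        g t * (((Fintype.card κ : ℝ) - 1) * T t - ((Fintype.card κ : ℝ) + 1)) with hH
  set W : κ → E → ℝ := fun l y => F.tau y * g (F.tau y) * ((1 - F.ε l) ^ 2 / (1 + F.ε l) *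
        fr (F.tau y) (T (F.tau y)) ((1 - F.ε l) / (1 + F.ε l))) with hW
  have hWi : ∀ l, Integrable (W l) (stdGaussian E) := by
    intro l
    have hi2 := integrable_facet F g T hg hT hg0 hgb hgs hT0 hT4 1
      ((1 - F.ε l) / (1 + F.ε l)) zero_le_one
    simp_rw [one_mul] at hi2
    refine (hi2.const_mul ((1 - F.ε l) ^ 2 / (1 + F.ε l))).congr
      (Filter.Eventually.of_forall fun y => ?_)
    simp only [hW]
    ring
  have hpt : ∀ l, ∀ y ∈ F.B l, c y ≤
      D * phi (F.tau y) + H y + q * F.ε l / (1 + F.ε l) * phi (F.tau y) - W l y := by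
    intro l y hy
    have h1 := cost_facet F h2 l y hy
    have h3 := hcert (F.tau y) (tau_nonneg F y) (F.ε l) (F.eps_nonneg l) (eps_le_one F l)
    have hpos : 0 < 1 + F.ε l := by linarith [F.eps_nonneg l]
    have h4 : cost (Fintype.card κ) (F.ε l) (F.tau y) ≤
        D * phi (F.tau y) + H y + q * F.ε l / (1 + F.ε l) * phi (F.tau y) - W l y := by
      rw [← mul_le_mul_iff_right₀ hpos]
      have e1 : (1 + F.ε l) * (D * phi (F.tau y) + H y +
          q * F.ε l / (1 + F.ε l) * phi (F.tau y) - W l y) =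
          (1 + F.ε l) * (D * phi (F.tau y) + H y) + q * F.ε l * phi (F.tau y) -
          F.tau y * g (F.tau y) * ((1 - F.ε l) ^ 2 *
            fr (F.tau y) (T (F.tau y)) ((1 - F.ε l) / (1 + F.ε l))) := by
        simp only [hW]
        field_simp
      rw [e1]
      simp only [hH]
      linarith
    exact h1.trans h4
  have hB : ∀ l, ∫ y in F.B l, c y ∂(stdGaussian E) ≤
      D * ∫ y in F.B l, phi (F.tau y) ∂(stdGaussian E) + ∫ y in F.B l, H y ∂(stdGaussian E) +
      q * F.ε l / (1 + F.ε l) * ∫ y in F.B l, phi (F.tau y) ∂(stdGaussian E) -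
      ∫ y in F.B l, W l y ∂(stdGaussian E) := by
    intro l
    have hi1 := (hphi.const_mul D).integrableOn (s := F.B l)
    have hi2 := hHi.integrableOn (s := F.B l)
    have hi3 := (hphi.const_mul (q * F.ε l / (1 + F.ε l))).integrableOn (s := F.B l)
    have hi4 := (hWi l).integrableOn (s := F.B l)
    refine (setIntegral_mono_on hci.integrableOn
      (((hi1.add hi2).add hi3).sub hi4) (measurableSet_B F l) (hpt l)).trans (le_of_eq ?_)
    rw [← integral_const_mul, ← integral_const_mul]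
    have e1 : ∫ y in F.B l, (((fun y => D * phi (F.tau y)) + H) +
        (fun y => q * F.ε l / (1 + F.ε l) * phi (F.tau y)) - W l) y ∂(stdGaussian E) =
        ∫ y in F.B l, D * phi (F.tau y) ∂(stdGaussian E) + ∫ y in F.B l, H y ∂(stdGaussian E) +
        ∫ y in F.B l, q * F.ε l / (1 + F.ε l) * phi (F.tau y) ∂(stdGaussian E) -
        ∫ y in F.B l, W l y ∂(stdGaussian E) := by
      rw [integral_sub' ((hi1.add hi2).add hi3) hi4, integral_add' (hi1.add hi2) hi3,
        integral_add' hi1 hi2]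
    exact e1
  have hsum := Finset.sum_le_sum (fun l (_ : l ∈ Finset.univ) => hB l)
  rw [sum_integral_B F hci] at hsum
  have hflux : ∀ l, ∫ y in F.B l, phi (F.tau y) ∂(stdGaussian E) =
      C.m * F.o l / ((Fintype.card κ : ℝ) + 1) := fun l => flux C h2 l
  have hn1 : (0:ℝ) < (Fintype.card κ : ℝ) + 1 := by positivity
  have e2 : ∑ l, (D * ∫ y in F.B l, phi (F.tau y) ∂(stdGaussian E) +
      ∫ y in F.B l, H y ∂(stdGaussian E) +
      q * F.ε l / (1 + F.ε l) * ∫ y in F.B l, phi (F.tau y) ∂(stdGaussian E) -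
      ∫ y in F.B l, W l y ∂(stdGaussian E)) =
      D * C.m + ∫ y, H y ∂(stdGaussian E) + q * C.m / ((Fintype.card κ : ℝ) + 1) -
      ∑ l, ∫ y in F.B l, W l y ∂(stdGaussian E) := by
    rw [Finset.sum_sub_distrib, Finset.sum_add_distrib, Finset.sum_add_distrib, ← Finset.mul_sum,
      sum_integral_B F hphi, sum_integral_B F hHi, ← cell_m C]
    congr 2
    have : ∀ l, q * F.ε l / (1 + F.ε l) * ∫ y in F.B l, phi (F.tau y) ∂(stdGaussian E) =
        (q * C.m / ((Fintype.card κ : ℝ) + 1)) * F.ε l := by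
      intro l
      have hpos : (1 + F.ε l) ≠ 0 := by linarith [F.eps_nonneg l]
      rw [hflux l]
      unfold Frame.o
      field_simp
    simp_rw [this]
    rw [← Finset.mul_sum, F.sum_eps, mul_one]
  rw [e2] at hsum
  have hm : 0 < C.m := C.m_pos
  have h5 : (D + q / ((Fintype.card κ : ℝ) + 1)) * C.m ≤
      ((Fintype.card κ : ℝ) + 1) / (2 * (Fintype.card κ : ℝ)) * C.m :=
    mul_le_mul_of_nonneg_right hD hm.le
  have h6 : (D + q / ((Fintype.card κ : ℝ) + 1)) * C.m =
      D * C.m + q * C.m / ((Fintype.card κ : ℝ) + 1) := by ring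
  linarith

end P226
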