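import Mathlib

/-! P226: the definitions used by the statements of the hand-ins. -/

open MeasureTheory Set

namespace P226

/-- The standard Gaussian measure `γ_d` on `ℝ^d`, with density `(2π)^(-d/2) exp(-|x|²/2)`. -/
noncomputable def gaussMeas (d : ℕ) : Measure (EuclideanSpace ℝ (Fin d)) :=
  (volume : Measure (EuclideanSpace ℝ (Fin d))).withDensity
    (fun x => ENNReal.ofReal ((2 * Real.pi) ^ (-(d:ℝ) / 2) * Real.exp (-‖x‖ ^ 2 / 2)))

/-- A measurable partition of `ℝ^d` into `k` cells, up to `γ_d`-null sets (cells may be empty). -/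
def IsPartition {d k : ℕ} (A : Fin k → Set (EuclideanSpace ℝ (Fin d))) : Prop :=
  (∀ i, MeasurableSet (A i)) ∧ (∀ i j, i ≠ j → gaussMeas d (A i ∩ A j) = 0) ∧
    gaussMeas d (⋃ i, A i)ᶜ = 0

/-- The (unnormalised) Gaussian first moment `z(A) = ∫_A x dγ_d(x)`. -/
noncomputable def zvec {d : ℕ} (A : Set (EuclideanSpace ℝ (Fin d))) : EuclideanSpace ℝ (Fin d) :=
  ∫ x in A, x ∂(gaussMeas d)

/-- `F(A) = ∑ |z(A_i)|²`. -/
noncomputable def propF {d k : ℕ} (A : Fin k → Set (EuclideanSpace ℝ (Fin d))) : ℝ :=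
  ∑ i, ‖zvec (A i)‖ ^ 2

/-- `M(d,k)`: the supremum of `F` over all measurable partitions of `ℝ^d` into `k` cells. -/
noncomputable def M (d k : ℕ) : ℝ :=
  sSup {r : ℝ | ∃ A : Fin k → Set (EuclideanSpace ℝ (Fin d)), IsPartition A ∧ r = propF A}

end P226
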