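import Vale.Agent.P226_h5.Defs
import Vale.Agent.P226_h5.Stmt

/-! P226 module BRIDGE. -/

open MeasureTheory ProbabilityTheory Set Filter Topology
open scoped RealInnerProductSpace

namespace P226

theorem br_integrable (d : ℕ) :
    Integrable (fun x : EuclideanSpace ℝ (Fin d) =>
      (2 * Real.pi) ^ (-(d:ℝ) / 2) * Real.exp (-‖x‖ ^ 2 / 2)) := by
  refine Integrable.const_mul ?_ _
  have h := GaussianFourier.integrable_cexp_neg_mul_sq_norm_add (b := (1 / 2 : ℂ))
    (by norm_num) 0 (0 : EuclideanSpace ℝ (Fin d))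
  refine h.norm.congr (Eventually.of_forall fun x => ?_)
  simp only
  rw [Complex.norm_exp]
  congr 1
  simp [← Complex.ofReal_pow]
  ring

theorem gaussMeas_eq (d : ℕ) : gaussMeas d = stdGaussian (EuclideanSpace ℝ (Fin d)) := by
  have hfin : IsFiniteMeasure (gaussMeas d) :=
    isFiniteMeasure_withDensity_ofReal (br_integrable d).2
  apply Measure.ext_of_charFun
  ext t
  rw [charFun_stdGaussian, charFun_apply]
  unfold gaussMeas
  rw [integral_withDensity_eq_integral_toReal_smul (by fun_prop)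
    (Eventually.of_forall fun x => ENNReal.ofReal_lt_top)]
  have hpos : (0:ℝ) < (2 * Real.pi) ^ (-(d:ℝ) / 2) := Real.rpow_pos_of_pos (by positivity) _
  have h1 : ∀ x : EuclideanSpace ℝ (Fin d),
      (ENNReal.ofReal ((2 * Real.pi) ^ (-(d:ℝ) / 2) * Real.exp (-‖x‖ ^ 2 / 2))).toReal •
        Complex.exp (⟪x, t⟫ * Complex.I) =
      (((2 * Real.pi) ^ (-(d:ℝ) / 2) : ℝ) : ℂ) *
        Complex.exp (-(1 / 2 : ℂ) * ‖x‖ ^ 2 + Complex.I * ⟪t, x⟫) := by
    intro x
    rw [ENNReal.toReal_ofReal (by positivity), Complex.real_smul, Complex.ofReal_mul,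
      Complex.ofReal_exp, mul_assoc, ← Complex.exp_add, real_inner_comm]
    congr 2
    push_cast
    ring
  rw [integral_congr_ae (Eventually.of_forall h1), integral_const_mul,
    GaussianFourier.integral_cexp_neg_mul_sq_norm_add (by norm_num)]
  rw [finrank_euclideanSpace_fin]
  have h2 : ((Real.pi : ℂ) / (1 / 2)) = ((2 * Real.pi : ℝ) : ℂ) := by
    push_cast; ring
  have h3 : ((d : ℂ) / 2) = (((d : ℝ) / 2 : ℝ) : ℂ) := by push_cast; ring
  rw [h2, h3, ← Complex.ofReal_cpow (by positivity), ← mul_assoc, ← Complex.ofReal_mul,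
    ← Real.rpow_add (by positivity)]
  have h4 : (-(d:ℝ) / 2 + (d:ℝ) / 2) = 0 := by ring
  rw [h4, Real.rpow_zero, Complex.ofReal_one, one_mul]
  congr 1
  rw [Complex.I_sq]
  ring

end P226
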