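import Vale.Agent.P226_h5.CertFr

/-! P226 CERT6: the polynomial inequalities of the certificate. -/

open MeasureTheory Set

namespace P226
open LP

/-- `h(x)`: `∫_x^∞ 8 g = h(x) φ(x)` on `[0, 9/5]` -/
def hL : List ℚ := [33993/50000, -60699/50000, 5041/5000, -11321/25000, 419/5000]

/-- `g = φ · gL` on `(0, 9/5]` -/
def gL : List ℚ := [60699/400000, -66827/400000, 7227/400000, 673/8000, -11321/200000, 419/40000]

/-- lower bounds of the Mills ratio on the cells -/
def rhL : ℕ → List ℚ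
  | 0 => [19574957/15625000, -6244951/6250000, 777307/1250000, -79289/250000, 12341/100000, -541/20000]
  | 1 => [6260619149/5000000000, -4966537/5000000, 751651/1250000, -140229/500000, 8983/100000, -361/25000]
  | 2 => [124929/100000, -19539/20000, 56327/100000, -23571/100000, 3163/50000, -403/50000]
  | 3 => [3107225381/2500000000, -18983207/20000000, 1287581/2500000, -96773/500000, 2237/50000, -239/50000]
  | 4 => [9636083/7812500, -5726863/6250000, 586739/1250000, -80839/500000, 3357/100000, -2/625]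
  | _ => [96040631/78125000, -11299383/12500000, 227233/500000, -76309/500000, 3081/100000, -143/50000]

/-- nodes in `t`, corresponding to `nodeR` -/
def nodeT : ℕ → ℚ
  | 0 => 0 | 1 => 1/3 | 2 => 3/5 | _ => 1

/-- `1 + t` -/
def oL : List (List ℚ) := [[1], [1]]
/-- `1 - t` -/
def mL : List (List ℚ) := [[1], [-1]]

/-- cost bound A -/
def cA (rh : List ℚ) : List (List ℚ) := mul2 oL [add [1] (mul [0, -1] rh)]
/-- cost bound B -/
def cB : List (List ℚ) := mul2 [[1/5]] (add2 [[7]] (mul2 [[-1]] (mul2 oL [[1, -12534/10000]])))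
/-- cost bound C -/
def cC (rh : List ℚ) : List (List ℚ) :=
  add2 (cA rh) (mul2 [[-1/5, 0, -1/10]] (add2 (mul2 [[4867/10000]] (add2 (mul2 [[6]] oL) [[-7]]))
    (mul2 [[0, -6 * 2918/10000]] oL)))

/-- the polynomial to be shown nonnegative -/
def GG (c N : List (List ℚ)) : List (List ℚ) :=
  add2 (mul2 oL (add2 (add2 (mul2 oL [add [1/2] hL]) [[], [1/2]]) (mul2 [[-1]] (mul2 oL c))))
    (mul2 [mul [0, -1] gL] (mul2 (mul2 mL mL) N))

theorem ev_GG (c N : List (List ℚ)) (x t : ℝ) : ev2 (GG c N) x t =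
    (1 + t) * ((1 + t) * (1 / 2 + ev hL x) + t / 2 - (1 + t) * ev2 c x t) -
      x * ev gL x * ((1 - t) ^ 2 * ev2 N x t) := by
  simp only [GG, ev2_add, ev2_mul, ev2_cons, ev2_nil, ev_add, ev_mul, ev_cons, ev_nil, oL, mL]
  push_cast
  ring

theorem ev_cA (rh : List ℚ) (x t : ℝ) : ev2 (cA rh) x t = (1 + t) * (1 - x * ev rh x) := by
  simp only [cA, ev2_mul, ev2_cons, ev2_nil, ev_add, ev_mul, ev_cons, ev_nil, oL]
  push_cast
  ring

theorem ev_cB (x t : ℝ) : ev2 cB x t = (7 - (1 + t) * (1 - 12534/10000 * x)) / 5 := by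
  simp only [cB, ev2_add, ev2_mul, ev2_cons, ev2_nil, ev_cons, ev_nil, oL]
  push_cast
  ring

theorem ev_cC (rh : List ℚ) (x t : ℝ) : ev2 (cC rh) x t = (1 + t) * (1 - x * ev rh x) -
    ((6 * (1 + t) - 7) * (4867/10000) - 6 * (1 + t) * x * (2918/10000)) * (1 + x ^ 2 / 2) / 5 := by
  simp only [cC, ev2_add, ev2_mul, ev_cA, ev2_cons, ev2_nil, ev_cons, ev_nil, oL]
  push_cast
  ring

/-- recursive box checker -/
def run (PA PB PC : List (List ℚ)) : ℕ → Bool → ℚ → ℚ → ℚ → ℚ → Bool
  | 0, _, _, _, _, _ => false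
  | n + 1, d, u, w, p, z =>
    chk2 PA u w p z || (decide (u + w ≤ 6/5) && chk2 PC u w p z) ||
      (decide (u + w ≤ 7/10) && chk2 PB u w p z) ||
      (bif d then run PA PB PC n false u (w / 2) p z && run PA PB PC n false (u + w / 2) (w / 2) p z
        else run PA PB PC n true u w p (z / 2) && run PA PB PC n true u w (p + z / 2) (z / 2))

theorem run_sound (PA PB PC : List (List ℚ)) (n : ℕ) (d : Bool) (u w p z : ℚ)
    (hw : 0 < w) (hz : 0 < z) (h : run PA PB PC n d u w p z = true) {x t : ℝ} (h1 : (u:ℝ) ≤ x)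
    (h2 : x ≤ (u:ℝ) + w) (h3 : (p:ℝ) ≤ t) (h4 : t ≤ (p:ℝ) + z) :
    0 ≤ ev2 PA x t ∨ (x ≤ 6/5 ∧ 0 ≤ ev2 PC x t) ∨ (x ≤ 7/10 ∧ 0 ≤ ev2 PB x t) := by
  induction n generalizing d u w p z with
  | zero => simp [run] at h
  | succ n ih =>
    simp only [run, Bool.or_eq_true, Bool.and_eq_true, decide_eq_true_eq] at h
    rcases h with ((h | ⟨ha, h⟩) | ⟨ha, h⟩) | h
    · exact Or.inl (chk2_sound _ u w p z hw hz h h1 h2 h3 h4)
    · refine Or.inr (Or.inl ⟨?_, chk2_sound _ u w p z hw hz h h1 h2 h3 h4⟩)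
      have : ((u + w : ℚ) : ℝ) ≤ ((6/5 : ℚ) : ℝ) := by exact_mod_cast ha
      push_cast at this
      linarith
    · refine Or.inr (Or.inr ⟨?_, chk2_sound _ u w p z hw hz h h1 h2 h3 h4⟩)
      have : ((u + w : ℚ) : ℝ) ≤ ((7/10 : ℚ) : ℝ) := by exact_mod_cast ha
      push_cast at this
      linarith
    · cases d with
      | true =>
        simp only [cond_true, Bool.and_eq_true] at h
        rcases le_total x ((u:ℝ) + w / 2) with hx | hx
        · exact ih false u (w / 2) p z (by linarith) hz h.1 h1 (by push_cast; exact hx) h3 h4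
        · exact ih false (u + w / 2) (w / 2) p z (by linarith) hz h.2 (by push_cast; exact hx)
            (by push_cast; linarith) h3 h4
      | false =>
        simp only [cond_false, Bool.and_eq_true] at h
        rcases le_total t ((p:ℝ) + z / 2) with hx | hx
        · exact ih true u w p (z / 2) hw (by linarith) h.1 h1 h2 h3 (by push_cast; exact hx)
        · exact ih true u w (p + z / 2) (z / 2) hw (by linarith) h.2 h1 h2 (by push_cast; exact hx)
            (by push_cast; linarith)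

/-- the `N` list of cell `(i,j)` -/
def NN (i j : ℕ) : List (List ℚ) :=
  NL (nodeX i ^ 2) (nodeX (i + 1) ^ 2) (nodeR (j + 1)) (nodeR j) (Btab i (j + 1))
    (Btab (i + 1) (j + 1)) (Btab i j) (Btab (i + 1) j)

/-- check of cell `(i,j)` -/
def cell (i j : ℕ) : Bool :=
  run (GG (cA (rhL i)) (NN i j)) (GG cB (NN i j)) (GG (cC (rhL i)) (NN i j)) 10 true
    (nodeX i) (nodeX (i + 1) - nodeX i) (nodeT j) (nodeT (j + 1) - nodeT j)

theorem cell_ok (i j : ℕ) (hi : i < 6) (hj : j < 3) : cell i j = true := by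
  have h : ∀ i : Fin 6, ∀ j : Fin 3, cell i j = true := by decide +kernel
  exact h ⟨i, hi⟩ ⟨j, hj⟩

end P226
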