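import Vale.Agent.P226_h5.CertA
import Vale.Agent.P226_h5.CertBox

/-! P226 CERT6: the certificate for `n ≥ 6`. -/

open MeasureTheory Set

namespace P226
open LP

/-! ### Mills ratio on the cells -/

theorem c6_nodeX_lt (i : ℕ) (hi : i < 6) : nodeX i < nodeX (i + 1) := by
  have h : ∀ i : Fin 6, nodeX i < nodeX (i + 1) := by decide +kernel
  exact h ⟨i, hi⟩

theorem c6_piece (i : ℕ) (hi : i < 6) :
    chk1 (add (der (rhL i)) (add (mul [0, -1] (rhL i)) [1])) (nodeX i)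
      (nodeX (i + 1) - nodeX i) = true := by
  have h : ∀ i : Fin 6, chk1 (add (der (rhL i)) (add (mul [0, -1] (rhL i)) [1])) (nodeX i)
      (nodeX (i + 1) - nodeX i) = true := by decide +kernel
  exact h ⟨i, hi⟩

theorem c6_link (i : ℕ) (hi : i < 5) :
    evQ (rhL i) (nodeX (i + 1)) ≤ evQ (rhL (i + 1)) (nodeX (i + 1)) := by
  have h : ∀ i : Fin 5, evQ (rhL i) (nodeX (i + 1)) ≤ evQ (rhL (i + 1)) (nodeX (i + 1)) := by
    decide +kernel
  exact h ⟨i, hi⟩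

theorem c6_mills_of_end (i : ℕ) (hi : i < 6)
    (hb : ev (rhL i) ((nodeX (i + 1) : ℚ) : ℝ) * phi ((nodeX (i + 1) : ℚ) : ℝ) ≤
      tail ((nodeX (i + 1) : ℚ) : ℝ)) :
    ∀ x ∈ Icc ((nodeX i : ℚ) : ℝ) ((nodeX (i + 1) : ℚ) : ℝ), ev (rhL i) x * phi x ≤ tail x := by
  have hlt := c6_nodeX_lt i hi
  have hlt' : ((nodeX i : ℚ) : ℝ) < ((nodeX (i + 1) : ℚ) : ℝ) := by exact_mod_cast hlt
  refine ode_piece hlt'.le (ev (rhL i)) (ev (der (rhL i))) (fun x _ => hasDerivAt_ev _ x) ?_ hb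
  intro x hx
  have h := chk1_sound _ _ _ (sub_pos.2 hlt) (c6_piece i hi) (x := x) hx.1
    (by push_cast; linarith [hx.2])
  rw [ev_add, ev_add, ev_mul] at h
  simp only [ev_cons, ev_nil] at h
  push_cast at h
  linarith

theorem c6_mills (i : ℕ) (hi : i < 6) :
    ∀ x ∈ Icc ((nodeX i : ℚ) : ℝ) ((nodeX (i + 1) : ℚ) : ℝ), ev (rhL i) x * phi x ≤ tail x := by
  have key : ∀ k, k ≤ 5 → ∀ x ∈ Icc ((nodeX (5 - k) : ℚ) : ℝ) ((nodeX (5 - k + 1) : ℚ) : ℝ),
      ev (rhL (5 - k)) x * phi x ≤ tail x := by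
    intro k
    induction k with
    | zero =>
      intro _
      apply c6_mills_of_end 5 (by norm_num)
      have h := mills_lower (x := ((nodeX (5 + 1) : ℚ) : ℝ)) (by simp only [nodeX]; norm_num)
      refine le_trans (mul_le_mul_of_nonneg_right ?_ (phi_nonneg _)) h
      rw [ev_cast]
      have e : evQ (rhL 5) (nodeX (5 + 1)) = 227 / 500 := by decide +kernel
      rw [e]
      simp only [nodeX]
      norm_num
    | succ k ih =>
      intro hk
      have ih' := ih (by omega)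
      have e : 5 - k = 5 - (k + 1) + 1 := by omega
      rw [e] at ih'
      have hn : 5 - (k + 1) + 1 < 6 := by omega
      apply c6_mills_of_end (5 - (k + 1)) (by omega)
      have h1 := ih' ((nodeX (5 - (k + 1) + 1) : ℚ) : ℝ) ⟨le_rfl, by
        exact_mod_cast (c6_nodeX_lt _ hn).le⟩
      refine le_trans (mul_le_mul_of_nonneg_right ?_ (phi_nonneg _)) h1
      rw [ev_cast, ev_cast]
      exact_mod_cast c6_link _ (by omega)
  have := key (5 - i) (by omega)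
  have e : 5 - (5 - i) = i := by omega
  rwa [e] at this

/-! ### the function `g` -/

/-- `g = φ gL` on `(0, 9/5]`, zero elsewhere -/
noncomputable def gF (t : ℝ) : ℝ := (Ioc (0:ℝ) (9/5)).indicator (fun t => ev gL t * phi t) t

theorem gL_nonneg {x : ℝ} (h0 : 0 ≤ x) (h1 : x ≤ 9/5) : 0 ≤ ev gL x := by
  have h : chk1 gL 0 (9/5) = true := by decide +kernel
  exact chk1_sound _ _ _ (by norm_num) h (by simpa using h0) (by push_cast; linarith)

theorem gL_le_one {x : ℝ} (h0 : 0 ≤ x) (h1 : x ≤ 9/5) : ev gL x ≤ 1 := by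
  have h : chk1 (add [1] (mul [-1] gL)) 0 (9/5) = true := by decide +kernel
  have := chk1_sound _ _ _ (by norm_num) h (x := x) (by simpa using h0) (by push_cast; linarith)
  rw [ev_add, ev_mul] at this
  simp only [ev_cons, ev_nil] at this
  push_cast at this
  linarith

theorem gF_nonneg (t : ℝ) : 0 ≤ gF t :=
  indicator_nonneg (fun t ht => mul_nonneg (gL_nonneg ht.1.le ht.2) (phi_nonneg t)) t

theorem gF_le_one (t : ℝ) : gF t ≤ 1 := by
  unfold gF
  by_cases ht : t ∈ Ioc (0:ℝ) (9/5)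
  · rw [indicator_of_mem ht]
    have h1 := gL_le_one ht.1.le ht.2
    have h2 := gL_nonneg ht.1.le ht.2
    have h3 := phi_le_one t
    have h4 := phi_nonneg t
    nlinarith
  · rw [indicator_of_notMem ht]; norm_num

theorem measurable_gF : Measurable gF := by
  unfold gF
  exact ((continuous_ev gL).mul continuous_phi).measurable.indicator measurableSet_Ioc

theorem x_mul_gF {x : ℝ} (h0 : 0 ≤ x) (h1 : x ≤ 9/5) : x * gF x = x * (ev gL x * phi x) := by
  rcases h0.eq_or_lt with h | h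
  · rw [← h]; simp
  · unfold gF; rw [indicator_of_mem (show x ∈ Ioc (0:ℝ) (9/5) from ⟨h, h1⟩)]

theorem gh_rel (x : ℝ) : ev (der hL) x = x * ev hL x - 8 * ev gL x := by
  simp only [hL, gL, der, add, ev_cons, ev_nil]
  push_cast
  ring

theorem hL_end : ev hL (9/5) = 0 := by
  simp only [hL, ev_cons, ev_nil]
  push_cast
  norm_num

theorem hasDerivAt_hphi (x : ℝ) :
    HasDerivAt (fun x => -(ev hL x * phi x)) (8 * (ev gL x * phi x)) x := by
  have h := ((hasDerivAt_ev hL x).mul (hasDerivAt_phi x)).neg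
  refine h.congr_deriv ?_
  rw [gh_rel]; ring

theorem integral_gF {x : ℝ} (h0 : 0 ≤ x) (h1 : x ≤ 9/5) :
    ∫ t in Ioi x, gF t * (5 * 3 - 7) = ev hL x * phi x := by
  have e1 : ∀ t : ℝ, gF t * (5 * 3 - 7) =
      (Ioc (0:ℝ) (9/5)).indicator (fun t => 8 * (ev gL t * phi t)) t := by
    intro t
    unfold gF
    by_cases ht : t ∈ Ioc (0:ℝ) (9/5)
    · rw [indicator_of_mem ht, indicator_of_mem ht]; ring
    · rw [indicator_of_notMem ht, indicator_of_notMem ht]; ring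
  simp only [e1]
  rw [setIntegral_indicator measurableSet_Ioc]
  have e2 : Ioi x ∩ Ioc (0:ℝ) (9/5) = Ioc x (9/5) := by
    ext t
    simp only [mem_inter_iff, mem_Ioi, mem_Ioc]
    constructor
    · rintro ⟨a, b, c⟩; exact ⟨a, c⟩
    · rintro ⟨a, b⟩; exact ⟨a, lt_of_le_of_lt h0 a, b⟩
  rw [e2, ← intervalIntegral.integral_of_le h1,
    intervalIntegral.integral_eq_sub_of_hasDerivAt (fun t _ => hasDerivAt_hphi t)]
  · rw [hL_end]; ring
  · apply Continuous.intervalIntegrable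
    exact continuous_const.mul ((continuous_ev gL).mul continuous_phi)

theorem integral_gF_far {x : ℝ} (h1 : 9/5 < x) :
    ∫ t in Ioi x, gF t * (5 * 3 - 7) = 0 := by
  rw [setIntegral_congr_fun (g := fun _ => (0:ℝ)) measurableSet_Ioi]
  · simp
  · intro t ht
    have ht' : x < t := ht
    have : t ∉ Ioc (0:ℝ) (9/5) := fun h => by linarith [h.2]
    simp only [gF, indicator_of_notMem this, zero_mul]

/-! ### the cost bounds -/

theorem phi_zero_ge (x : ℝ) : (1 + x ^ 2 / 2) * phi x ≤ phi 0 := by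
  unfold phi
  have h1 : (1 + x ^ 2 / 2) ≤ Real.exp (x ^ 2 / 2) := by linarith [Real.add_one_le_exp (x ^ 2 / 2)]
  have h2 : Real.exp (x ^ 2 / 2) * Real.exp (-x ^ 2 / 2) = 1 := by
    rw [← Real.exp_add]
    have : x ^ 2 / 2 + -x ^ 2 / 2 = 0 := by ring
    rw [this, Real.exp_zero]
  have h3 : 0 < (Real.sqrt (2 * Real.pi))⁻¹ := by positivity
  have h4 : -(0:ℝ) ^ 2 / 2 = 0 := by norm_num
  rw [h4, Real.exp_zero]
  have h5 : (1 + x ^ 2 / 2) * Real.exp (-x ^ 2 / 2) ≤ 1 := by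
    have := mul_le_mul_of_nonneg_right h1 (Real.exp_pos (-x ^ 2 / 2)).le
    linarith
  nlinarith

theorem cost_le_cA {i : ℕ} (hi : i < 6) {x t : ℝ} (hx0 : 0 ≤ x) (ht0 : 0 ≤ t)
    (hx : x ∈ Icc ((nodeX i : ℚ) : ℝ) ((nodeX (i + 1) : ℚ) : ℝ)) :
    cost 6 t x ≤ ev2 (cA (rhL i)) x t * phi x := by
  rw [ev_cA]
  have h1 := cost_A t x ht0 hx0
  have h2 := c6_mills i hi x hx
  unfold psi at h1
  have h3 := mul_le_mul_of_nonneg_left h2 (mul_nonneg (by linarith : 0 ≤ 1 + t) hx0)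
  nlinarith

theorem cost_le_cC {i : ℕ} (hi : i < 6) {x t : ℝ} (hx0 : 0 ≤ x) (ht0 : 0 ≤ t) (ht1 : t ≤ 1)
    (hx : x ∈ Icc ((nodeX i : ℚ) : ℝ) ((nodeX (i + 1) : ℚ) : ℝ)) (hx6 : x ≤ 6/5) :
    cost 6 t x ≤ ev2 (cC (rhL i)) x t * phi x := by
  rw [ev_cC]
  have hA := cost_le_cA hi hx0 ht0 hx
  rw [ev_cA] at hA
  set V : ℝ := (6 * (1 + t) - 7) * (4867/10000) - 6 * (1 + t) * x * (2918/10000) with hV
  have hphi := phi_nonneg x
  rcases le_total V 0 with hV0 | hV0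
  · have h1 : 0 ≤ 1 + x ^ 2 / 2 := by positivity
    have h2 : V * (1 + x ^ 2 / 2) / 5 ≤ 0 := by
      have := mul_nonneg (neg_nonneg.2 hV0) h1
      linarith
    have h3 := mul_le_mul_of_nonneg_right h2 hphi
    linarith
  · have hC := cost_C t x (6/5) ht0 ht1 hx0 hx6
    have h2 := c6_mills i hi x hx
    have hz := phi_zero_ge x
    have hpr := phi_ratio
    have htr := tail_ratio
    -- bracket lower bound
    have hVx : V ≤ (6 * (1 + t) - 7) * (4867/10000) := by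
      have : 0 ≤ 6 * (1 + t) * x * (2918/10000) := by positivity
      linarith
    have ho7 : 0 ≤ 6 * (1 + t) - 7 := by linarith
    have h3 : (6 * (1 + t) - 7) * ((4867/10000) * phi 0) ≤ (6 * (1 + t) - 7) * phi (6/5) :=
      mul_le_mul_of_nonneg_left hpr ho7
    have h4 : 6 * (1 + t) * x * tail (6/5) ≤ 6 * (1 + t) * x * ((2918/10000) * phi 0) :=
      mul_le_mul_of_nonneg_left htr (by positivity)
    have h5 : V * ((1 + x ^ 2 / 2) * phi x) ≤ V * phi 0 := mul_le_mul_of_nonneg_left hz hV0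
    have h6 : V * phi 0 ≤ (6 * (1 + t) - 7) * phi (6/5) - 6 * (1 + t) * x * tail (6/5) := by
      rw [hV]; linarith
    have h7 := mul_le_mul_of_nonneg_left h2 (mul_nonneg (by linarith : 0 ≤ 1 + t) hx0)
    unfold psi at hC
    linarith

theorem cost_le_cB {x t : ℝ} (hx0 : 0 ≤ x) (ht0 : 0 ≤ t) (ht1 : t ≤ 1) (hx7 : x ≤ 7/10) :
    cost 6 t x ≤ ev2 cB x t * phi x := by
  rw [ev_cB]
  have hB := cost_B t x ht0 ht1 hx0
  have h2 := tail_le_init hx0 hx7
  have h3 := mul_le_mul_of_nonneg_left h2 (mul_nonneg (by linarith : 0 ≤ 1 + t) hx0)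
  unfold psi at hB
  linarith

/-! ### the pointwise inequality -/

theorem c6_fr (i j : ℕ) (hi : i < 6) (hj : j < 3) {x t : ℝ}
    (hx : x ∈ Icc ((nodeX i : ℚ) : ℝ) ((nodeX (i + 1) : ℚ) : ℝ))
    (ht : t ∈ Icc ((nodeT j : ℚ) : ℝ) ((nodeT (j + 1) : ℚ) : ℝ)) :
    (1 + t) * fr x 3 ((1 - t) / (1 + t)) ≤ ev2 (NN i j) x t := by
  have hX0 : (0:ℚ) ≤ nodeX i := by
    have h : ∀ i : Fin 6, (0:ℚ) ≤ nodeX i := by decide +kernel
    exact h ⟨i, hi⟩
  have hX0' : (0:ℝ) ≤ ((nodeX i : ℚ) : ℝ) := by exact_mod_cast hX0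
  have hXX : nodeX i ^ 2 < nodeX (i + 1) ^ 2 := by
    have h : ∀ i : Fin 6, nodeX i ^ 2 < nodeX (i + 1) ^ 2 := by decide +kernel
    exact h ⟨i, hi⟩
  have hRR : nodeR (j + 1) < nodeR j := by
    have h : ∀ j : Fin 3, nodeR (j + 1) < nodeR j := by decide +kernel
    exact h ⟨j, hj⟩
  have hT0 : (0:ℚ) ≤ nodeT j := by
    have h : ∀ j : Fin 3, (0:ℚ) ≤ nodeT j := by decide +kernel
    exact h ⟨j, hj⟩
  have hT0' : (0:ℝ) ≤ ((nodeT j : ℚ) : ℝ) := by exact_mod_cast hT0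
  have hrel : ∀ k : ℕ, k < 4 → nodeR k * (1 + nodeT k) = 1 - nodeT k := by
    intro k hk
    have h : ∀ k : Fin 4, nodeR k * (1 + nodeT k) = 1 - nodeT k := by decide +kernel
    exact h ⟨k, hk⟩
  have hRnn : ∀ k : ℕ, k < 4 → (0:ℚ) ≤ nodeR k := by
    intro k hk
    have h : ∀ k : Fin 4, (0:ℚ) ≤ nodeR k := by decide +kernel
    exact h ⟨k, hk⟩
  have hr0 : ((nodeR j : ℚ) : ℝ) * (1 + ((nodeT j : ℚ) : ℝ)) = 1 - ((nodeT j : ℚ) : ℝ) := by
    exact_mod_cast hrel j (by omega)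
  have hr1 : ((nodeR (j+1) : ℚ) : ℝ) * (1 + ((nodeT (j+1) : ℚ) : ℝ)) =
      1 - ((nodeT (j+1) : ℚ) : ℝ) := by
    exact_mod_cast hrel (j+1) (by omega)
  have hn0 : (0:ℝ) ≤ ((nodeR j : ℚ) : ℝ) := by exact_mod_cast hRnn j (by omega)
  have hn1 : (0:ℝ) ≤ ((nodeR (j+1) : ℚ) : ℝ) := by exact_mod_cast hRnn (j+1) (by omega)
  have ht0 : 0 ≤ t := hT0'.trans ht.1
  apply fr_le_NL _ _ _ _ _ _ _ _ hXX hRR (corner i (j+1) (by omega) (by omega))
    (corner (i+1) (j+1) (by omega) (by omega)) (corner i j (by omega) (by omega))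
    (corner (i+1) j (by omega) (by omega)) _ _ ht0
  · nlinarith [ht.2, mul_le_mul_of_nonneg_left ht.2 hn1]
  · nlinarith [ht.1, mul_le_mul_of_nonneg_left ht.1 hn0]
  · push_cast; exact pow_le_pow_left₀ hX0' hx.1 2
  · push_cast; exact pow_le_pow_left₀ (hX0'.trans hx.1) hx.2 2

theorem c6_cell (i j : ℕ) (hi : i < 6) (hj : j < 3) {x t : ℝ} (hx0 : 0 ≤ x) (hx9 : x ≤ 9/5)
    (ht0 : 0 ≤ t) (ht1 : t ≤ 1)
    (hx : x ∈ Icc ((nodeX i : ℚ) : ℝ) ((nodeX (i + 1) : ℚ) : ℝ))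
    (ht : t ∈ Icc ((nodeT j : ℚ) : ℝ) ((nodeT (j + 1) : ℚ) : ℝ)) :
    (1 + t) * cost 6 t x + x * (ev gL x * phi x) * ((1 - t) ^ 2 * fr x 3 ((1 - t) / (1 + t))) ≤
      (1 + t) * (1 / 2 * phi x + ev hL x * phi x) + 1 / 2 * t * phi x := by
  have hfr := c6_fr i j hi hj hx ht
  have hg := gL_nonneg hx0 hx9
  have hphi := phi_nonneg x
  have hTT : nodeT j < nodeT (j + 1) := by
    have h : ∀ j : Fin 3, nodeT j < nodeT (j + 1) := by decide +kernel
    exact h ⟨j, hj⟩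
  -- core
  have core : ∀ c : List (List ℚ), cost 6 t x ≤ ev2 c x t * phi x →
      0 ≤ ev2 (GG c (NN i j)) x t →
      (1 + t) * cost 6 t x + x * (ev gL x * phi x) * ((1 - t) ^ 2 * fr x 3 ((1 - t) / (1 + t))) ≤
      (1 + t) * (1 / 2 * phi x + ev hL x * phi x) + 1 / 2 * t * phi x := by
    intro c hc hG
    rw [ev_GG] at hG
    have h1 : x * ev gL x * ((1 - t) ^ 2 * ((1 + t) * fr x 3 ((1 - t) / (1 + t)))) ≤
        x * ev gL x * ((1 - t) ^ 2 * ev2 (NN i j) x t) :=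
      mul_le_mul_of_nonneg_left (mul_le_mul_of_nonneg_left hfr (sq_nonneg _))
        (mul_nonneg hx0 hg)
    have h2 : (1 + t) * (x * ev gL x * ((1 - t) ^ 2 * fr x 3 ((1 - t) / (1 + t)))) ≤
        (1 + t) * ((1 + t) * (1 / 2 + ev hL x) + t / 2 - (1 + t) * ev2 c x t) := by
      nlinarith
    have h3 := le_of_mul_le_mul_left h2 (by linarith : 0 < 1 + t)
    have h4 := mul_le_mul_of_nonneg_right h3 hphi
    have h5 := mul_le_mul_of_nonneg_left hc (by linarith : 0 ≤ 1 + t)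
    nlinarith
  have hrun := cell_ok i j hi hj
  unfold cell at hrun
  have hs := run_sound _ _ _ _ _ _ _ _ _ (sub_pos.2 (c6_nodeX_lt i hi)) (sub_pos.2 hTT) hrun
    (x := x) (t := t) hx.1 (by push_cast; linarith [hx.2]) ht.1 (by push_cast; linarith [ht.2])
  rcases hs with h | ⟨hx6, h⟩ | ⟨hx7, h⟩
  · exact core _ (cost_le_cA hi hx0 ht0 hx) h
  · exact core _ (cost_le_cC hi hx0 ht0 ht1 hx hx6) h
  · exact core _ (cost_le_cB hx0 ht0 ht1 hx7) h

theorem c6_cover_x {x : ℝ} (hx0 : 0 ≤ x) (hx9 : x ≤ 9/5) :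
    ∃ i < 6, x ∈ Icc ((nodeX i : ℚ) : ℝ) ((nodeX (i + 1) : ℚ) : ℝ) := by
  rcases le_total x (2/5) with h | h1
  · exact ⟨0, by norm_num, by simp only [nodeX, mem_Icc]; push_cast; constructor <;> linarith⟩
  rcases le_total x (7/10) with h | h2
  · exact ⟨1, by norm_num, by simp only [nodeX, mem_Icc]; push_cast; constructor <;> linarith⟩
  rcases le_total x 1 with h | h3
  · exact ⟨2, by norm_num, by simp only [nodeX, mem_Icc]; push_cast; constructor <;> linarith⟩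
  rcases le_total x (13/10) with h | h4
  · exact ⟨3, by norm_num, by simp only [nodeX, mem_Icc]; push_cast; constructor <;> linarith⟩
  rcases le_total x (8/5) with h | h5
  · exact ⟨4, by norm_num, by simp only [nodeX, mem_Icc]; push_cast; constructor <;> linarith⟩
  · exact ⟨5, by norm_num, by simp only [nodeX, mem_Icc]; push_cast; constructor <;> linarith⟩

theorem c6_cover_t {t : ℝ} (ht0 : 0 ≤ t) (ht1 : t ≤ 1) :
    ∃ j < 3, t ∈ Icc ((nodeT j : ℚ) : ℝ) ((nodeT (j + 1) : ℚ) : ℝ) := by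
  rcases le_total t (1/3) with h | h1
  · exact ⟨0, by norm_num, by simp only [nodeT, mem_Icc]; push_cast; constructor <;> linarith⟩
  rcases le_total t (3/5) with h | h2
  · exact ⟨1, by norm_num, by simp only [nodeT, mem_Icc]; push_cast; constructor <;> linarith⟩
  · exact ⟨2, by norm_num, by simp only [nodeT, mem_Icc]; push_cast; constructor <;> linarith⟩

theorem c6_far {x t : ℝ} (hx : 9/5 < x) (ht0 : 0 ≤ t) (ht1 : t ≤ 1) :
    (1 + t) * cost 6 t x ≤ (1 + t) * (1 / 2 * phi x) + 1 / 2 * t * phi x := by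
  have hx0 : 0 ≤ x := by linarith
  have h1 := cost_A t x ht0 hx0
  have h2 := mills_lower hx0
  have hphi := phi_pos x
  have h3 : psi x ≤ 3/8 * phi x := by
    unfold psi
    have hQ : 0 < x ^ 6 + 15 * x ^ 4 + 45 * x ^ 2 + 15 := by positivity
    have h4 : 5/8 ≤ x * (x * (x ^ 4 + 14 * x ^ 2 + 33) / (x ^ 6 + 15 * x ^ 4 + 45 * x ^ 2 + 15)) := by
      rw [← mul_div_assoc, le_div_iff₀ hQ]
      have hy : 81/25 ≤ x ^ 2 := by nlinarith
      have e : x * (x * (x ^ 4 + 14 * x ^ 2 + 33)) - 5/8 * (x ^ 6 + 15 * x ^ 4 + 45 * x ^ 2 + 15)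
          = (3 * (x ^ 2) ^ 3 + 37 * (x ^ 2) ^ 2 + 39 * x ^ 2 - 75) / 8 := by ring
      have h5 : 0 ≤ (3 * (x ^ 2) ^ 3 + 37 * (x ^ 2) ^ 2 + 39 * x ^ 2 - 75) / 8 := by
        have h6 : 0 ≤ (x ^ 2) ^ 3 := by positivity
        have h7 : 0 ≤ (x ^ 2) ^ 2 := by positivity
        linarith
      linarith
    have h5 := mul_le_mul_of_nonneg_right h4 hphi.le
    have h6 := mul_le_mul_of_nonneg_left h2 hx0
    linarith
  have h7 : cost 6 t x ≤ (1 + t) * (3/8 * phi x) :=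
    h1.trans (mul_le_mul_of_nonneg_left h3 (by linarith))
  have h8 := mul_le_mul_of_nonneg_left h7 (by linarith : 0 ≤ 1 + t)
  have h9 : (1 + t) * ((1 + t) * (3/8)) ≤ (1 + t) * (1/2) + 1/2 * t := by nlinarith
  have h10 := mul_le_mul_of_nonneg_right h9 hphi.le
  linarith

theorem cert6 : ∃ (D q x1 G : ℝ) (g T : ℝ → ℝ), Measurable g ∧ Measurable T ∧ 0 ≤ q ∧
    (∀ t, 0 ≤ g t) ∧ (∀ t, g t ≤ G) ∧ (∀ t, t ∉ Ioc 0 x1 → g t = 0) ∧
    (∀ t, 1 ≤ T t) ∧ (∀ t, T t ≤ 4) ∧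
    (∀ n : ℕ, 6 ≤ n → D + q / ((n:ℝ) + 1) ≤ ((n:ℝ) + 1) / (2 * n)) ∧
    (∀ x ≥ 0, ∀ ε, 0 ≤ ε → ε ≤ 1 →
      (1 + ε) * cost 6 ε x + x * g x * ((1 - ε) ^ 2 * fr x (T x) ((1 - ε) / (1 + ε))) ≤
        (1 + ε) * (D * phi x + ∫ t in Ioi x, g t * (5 * T t - 7)) + q * ε * phi x) := by
  refine ⟨1/2, 1/2, 9/5, 1, gF, fun _ => 3, measurable_gF, measurable_const, by norm_num,
    gF_nonneg, gF_le_one, ?_, fun _ => by norm_num, fun _ => by norm_num, ?_, ?_⟩
  · intro t ht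
    exact indicator_of_notMem ht _
  · intro n hn
    have hn' : (0:ℝ) < n := by
      have : 0 < n := by omega
      exact_mod_cast this
    rw [div_add_div _ _ (by norm_num) (by positivity), div_le_div_iff₀ (by positivity) (by positivity)]
    nlinarith
  · intro x hx ε h0 h1
    have hx' : 0 ≤ x := hx
    rcases le_or_gt x (9/5) with h9 | h9
    · obtain ⟨i, hi, hxi⟩ := c6_cover_x hx' h9
      obtain ⟨j, hj, htj⟩ := c6_cover_t h0 h1
      have h := c6_cell i j hi hj hx' h9 h0 h1 hxi htj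
      simp only []
      rw [integral_gF hx' h9, x_mul_gF hx' h9]
      exact h
    · have hz : gF x = 0 := by
        unfold gF
        exact indicator_of_notMem (fun h => by linarith [h.2]) _
      simp only []
      rw [integral_gF_far h9, hz]
      have h := c6_far h9 h0 h1
      simpa using h

end P226
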