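import Vale.Agent.P226_h5.Cost

/-! P226: Mills ratio bounds and cost bounds used by the certificate. -/

open MeasureTheory ProbabilityTheory Set Filter Topology

namespace P226

theorem ca_tendsto_neg_phi : Tendsto (fun y => -phi y) atTop (𝓝 0) := by
  simpa using tendsto_phi_atTop.neg

theorem ca_tail_le_phi {y : ℝ} (hy : 1 ≤ y) : tail y ≤ phi y := by
  have h := psi_nonneg y
  unfold psi at h
  have h2 := tail_nonneg y
  nlinarith

/-- derivative of `tail - r phi` -/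
theorem ca_hasDerivAt {r : ℝ → ℝ} {r' x : ℝ} (hr : HasDerivAt r r' x) :
    HasDerivAt (fun x => tail x - r x * phi x) (-(r' - x * r x + 1) * phi x) x := by
  have h := (hasDerivAt_tail x).sub (hr.mul (hasDerivAt_phi x))
  have e : -phi x - (r' * phi x + r x * (-x * phi x)) = -(r' - x * r x + 1) * phi x := by ring
  rw [e] at h
  exact h

theorem ode_piece {a b : ℝ} (_hab : a ≤ b) (r r' : ℝ → ℝ)
    (hr : ∀ x ∈ Icc a b, HasDerivAt r (r' x) x)
    (hres : ∀ x ∈ Icc a b, 0 ≤ r' x - x * r x + 1) (hb : r b * phi b ≤ tail b) :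
    ∀ x ∈ Icc a b, r x * phi x ≤ tail x := by
  intro x hx
  have hanti : AntitoneOn (fun x => tail x - r x * phi x) (Icc a b) := by
    refine antitoneOn_of_deriv_nonpos (convex_Icc a b) ?_ ?_ ?_
    · exact fun x hx => (ca_hasDerivAt (hr x hx)).continuousAt.continuousWithinAt
    · intro x hx
      rw [interior_Icc] at hx
      exact (ca_hasDerivAt (hr x (Ioo_subset_Icc_self hx))).differentiableAt.differentiableWithinAt
    · intro x hx
      rw [interior_Icc] at hx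
      have hx' := Ioo_subset_Icc_self hx
      rw [(ca_hasDerivAt (hr x hx')).deriv]
      have h1 := hres x hx'
      have h2 := phi_pos x
      nlinarith
  have hbm : b ∈ Icc a b := ⟨hx.1.trans hx.2, le_rfl⟩
  have h := hanti hx hbm hx.2
  simp only at h
  linarith

theorem mills_lower {x : ℝ} (hx : 0 ≤ x) :
    (x * (x ^ 4 + 14 * x ^ 2 + 33) / (x ^ 6 + 15 * x ^ 4 + 45 * x ^ 2 + 15)) * phi x ≤ tail x := by
  set r : ℝ → ℝ := fun x =>
    x * (x ^ 4 + 14 * x ^ 2 + 33) / (x ^ 6 + 15 * x ^ 4 + 45 * x ^ 2 + 15) with hrdef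
  have hQ : ∀ y : ℝ, 0 < y ^ 6 + 15 * y ^ 4 + 45 * y ^ 2 + 15 := fun y => by positivity
  have hder : ∀ y : ℝ, HasDerivAt r (((1 * (y ^ 4 + 14 * y ^ 2 + 33) + y * (4 * y ^ 3 + 28 * y)) *
      (y ^ 6 + 15 * y ^ 4 + 45 * y ^ 2 + 15) - (y * (y ^ 4 + 14 * y ^ 2 + 33)) *
      (6 * y ^ 5 + 60 * y ^ 3 + 90 * y)) / (y ^ 6 + 15 * y ^ 4 + 45 * y ^ 2 + 15) ^ 2) y := by
    intro y
    have h1 : HasDerivAt (fun y : ℝ => y ^ 4 + 14 * y ^ 2 + 33) (4 * y ^ 3 + 28 * y) y := by
      have := (((hasDerivAt_pow 4 y).add ((hasDerivAt_pow 2 y).const_mul 14)).add_const 33)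
      refine HasDerivAt.congr_deriv this ?_
      norm_num
      ring
    have h2 : HasDerivAt (fun y : ℝ => y ^ 6 + 15 * y ^ 4 + 45 * y ^ 2 + 15)
        (6 * y ^ 5 + 60 * y ^ 3 + 90 * y) y := by
      have := ((((hasDerivAt_pow 6 y).add ((hasDerivAt_pow 4 y).const_mul 15)).add
        ((hasDerivAt_pow 2 y).const_mul 45)).add_const 15)
      refine HasDerivAt.congr_deriv this ?_
      norm_num
      ring
    exact ((hasDerivAt_id' y).mul h1).div h2 (hQ y).ne'
  have hres : ∀ y : ℝ, 0 ≤ ((1 * (y ^ 4 + 14 * y ^ 2 + 33) + y * (4 * y ^ 3 + 28 * y)) *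
      (y ^ 6 + 15 * y ^ 4 + 45 * y ^ 2 + 15) - (y * (y ^ 4 + 14 * y ^ 2 + 33)) *
      (6 * y ^ 5 + 60 * y ^ 3 + 90 * y)) / (y ^ 6 + 15 * y ^ 4 + 45 * y ^ 2 + 15) ^ 2
      - y * r y + 1 := by
    intro y
    have hQy := hQ y
    have e : ((1 * (y ^ 4 + 14 * y ^ 2 + 33) + y * (4 * y ^ 3 + 28 * y)) *
      (y ^ 6 + 15 * y ^ 4 + 45 * y ^ 2 + 15) - (y * (y ^ 4 + 14 * y ^ 2 + 33)) *
      (6 * y ^ 5 + 60 * y ^ 3 + 90 * y)) / (y ^ 6 + 15 * y ^ 4 + 45 * y ^ 2 + 15) ^ 2
      - y * r y + 1 = 720 / (y ^ 6 + 15 * y ^ 4 + 45 * y ^ 2 + 15) ^ 2 := by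
      simp only [hrdef]
      field_simp
      ring
    rw [e]; positivity
  have hr1 : ∀ y : ℝ, 0 ≤ y → r y ≤ 1 := by
    intro y hy
    simp only [hrdef]
    rw [div_le_one (hQ y)]
    nlinarith [sq_nonneg (y - 1), sq_nonneg (y ^ 2 - y), sq_nonneg (y ^ 3 - y ^ 2),
      mul_nonneg hy (sq_nonneg (y - 1)), sq_nonneg y, sq_nonneg (y ^ 2), sq_nonneg (y ^ 3)]
  -- `D(x) ≥ D(y) ≥ - phi y` for all `y ≥ x`
  have hD : ∀ y, x ≤ y → -phi y ≤ tail x - r x * phi x := by
    intro y hxy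
    have hanti : AntitoneOn (fun x => tail x - r x * phi x) (Icc x y) := by
      refine antitoneOn_of_deriv_nonpos (convex_Icc x y) ?_ ?_ ?_
      · exact fun z _ => (ca_hasDerivAt (hder z)).continuousAt.continuousWithinAt
      · intro z _
        exact (ca_hasDerivAt (hder z)).differentiableAt.differentiableWithinAt
      · intro z _
        rw [(ca_hasDerivAt (hder z)).deriv]
        have h1 := hres z
        have h2 := phi_pos z
        nlinarith
    have h := hanti (left_mem_Icc.2 hxy) (right_mem_Icc.2 hxy) hxy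
    simp only at h
    have h1 := hr1 y (hx.trans hxy)
    have h2 := phi_pos y
    have h3 := tail_nonneg y
    nlinarith
  have hlim := le_of_tendsto ca_tendsto_neg_phi ((eventually_ge_atTop x).mono hD)
  show r x * phi x ≤ tail x
  linarith

theorem mills_upper7 {x : ℝ} (hx : 0 < x) :
    tail x ≤ ((x ^ 6 + 20 * x ^ 4 + 87 * x ^ 2 + 48) /
      (x * (x ^ 6 + 21 * x ^ 4 + 105 * x ^ 2 + 105))) * phi x := by
  set r : ℝ → ℝ := fun x => (x ^ 6 + 20 * x ^ 4 + 87 * x ^ 2 + 48) /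
      (x * (x ^ 6 + 21 * x ^ 4 + 105 * x ^ 2 + 105)) with hrdef
  have hQ : ∀ y : ℝ, 0 < y → 0 < y * (y ^ 6 + 21 * y ^ 4 + 105 * y ^ 2 + 105) :=
    fun y hy => by positivity
  have hder : ∀ y : ℝ, 0 < y → HasDerivAt r (((6 * y ^ 5 + 80 * y ^ 3 + 174 * y) *
      (y * (y ^ 6 + 21 * y ^ 4 + 105 * y ^ 2 + 105)) - (y ^ 6 + 20 * y ^ 4 + 87 * y ^ 2 + 48) *
      (1 * (y ^ 6 + 21 * y ^ 4 + 105 * y ^ 2 + 105) + y * (6 * y ^ 5 + 84 * y ^ 3 + 210 * y))) /
      (y * (y ^ 6 + 21 * y ^ 4 + 105 * y ^ 2 + 105)) ^ 2) y := by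
    intro y hy
    have h1 : HasDerivAt (fun y : ℝ => y ^ 6 + 20 * y ^ 4 + 87 * y ^ 2 + 48)
        (6 * y ^ 5 + 80 * y ^ 3 + 174 * y) y := by
      have := ((((hasDerivAt_pow 6 y).add ((hasDerivAt_pow 4 y).const_mul 20)).add
        ((hasDerivAt_pow 2 y).const_mul 87)).add_const 48)
      refine HasDerivAt.congr_deriv this ?_
      norm_num
      ring
    have h2 : HasDerivAt (fun y : ℝ => y ^ 6 + 21 * y ^ 4 + 105 * y ^ 2 + 105)
        (6 * y ^ 5 + 84 * y ^ 3 + 210 * y) y := by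
      have := ((((hasDerivAt_pow 6 y).add ((hasDerivAt_pow 4 y).const_mul 21)).add
        ((hasDerivAt_pow 2 y).const_mul 105)).add_const 105)
      refine HasDerivAt.congr_deriv this ?_
      norm_num
      ring
    exact h1.div ((hasDerivAt_id' y).mul h2) (hQ y hy).ne'
  have hres : ∀ y : ℝ, 0 < y → ((6 * y ^ 5 + 80 * y ^ 3 + 174 * y) *
      (y * (y ^ 6 + 21 * y ^ 4 + 105 * y ^ 2 + 105)) - (y ^ 6 + 20 * y ^ 4 + 87 * y ^ 2 + 48) *
      (1 * (y ^ 6 + 21 * y ^ 4 + 105 * y ^ 2 + 105) + y * (6 * y ^ 5 + 84 * y ^ 3 + 210 * y))) /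
      (y * (y ^ 6 + 21 * y ^ 4 + 105 * y ^ 2 + 105)) ^ 2 - y * r y + 1 ≤ 0 := by
    intro y hy
    have hQy := hQ y hy
    have e : ((6 * y ^ 5 + 80 * y ^ 3 + 174 * y) *
      (y * (y ^ 6 + 21 * y ^ 4 + 105 * y ^ 2 + 105)) - (y ^ 6 + 20 * y ^ 4 + 87 * y ^ 2 + 48) *
      (1 * (y ^ 6 + 21 * y ^ 4 + 105 * y ^ 2 + 105) + y * (6 * y ^ 5 + 84 * y ^ 3 + 210 * y))) /
      (y * (y ^ 6 + 21 * y ^ 4 + 105 * y ^ 2 + 105)) ^ 2 - y * r y + 1 =
        -(5040 / (y * (y ^ 6 + 21 * y ^ 4 + 105 * y ^ 2 + 105)) ^ 2) := by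
      simp only [hrdef]
      field_simp
      ring
    rw [e]
    have : 0 < 5040 / (y * (y ^ 6 + 21 * y ^ 4 + 105 * y ^ 2 + 105)) ^ 2 := by positivity
    linarith
  have hD : ∀ y, max x 1 ≤ y → tail x - r x * phi x ≤ phi y := by
    intro y hy
    have hxy : x ≤ y := (le_max_left _ _).trans hy
    have hy1 : 1 ≤ y := (le_max_right _ _).trans hy
    have hmono : MonotoneOn (fun x => tail x - r x * phi x) (Icc x y) := by
      refine monotoneOn_of_deriv_nonneg (convex_Icc x y) ?_ ?_ ?_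
      · exact fun z hz => (ca_hasDerivAt (hder z (hx.trans_le hz.1))).continuousAt.continuousWithinAt
      · intro z hz
        rw [interior_Icc] at hz
        exact (ca_hasDerivAt (hder z (hx.trans hz.1))).differentiableAt.differentiableWithinAt
      · intro z hz
        rw [interior_Icc] at hz
        rw [(ca_hasDerivAt (hder z (hx.trans hz.1))).deriv]
        have h1 := hres z (hx.trans hz.1)
        have h2 := phi_pos z
        nlinarith
    have h := hmono (left_mem_Icc.2 hxy) (right_mem_Icc.2 hxy) hxy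
    simp only at h
    have h1 : 0 ≤ r y := by
      simp only [hrdef]
      have : 0 < y := by linarith
      positivity
    have h2 := phi_pos y
    have h3 := ca_tail_le_phi hy1
    nlinarith
  have hlim := ge_of_tendsto tendsto_phi_atTop ((eventually_ge_atTop (max x 1)).mono hD)
  show tail x ≤ r x * phi x
  linarith

theorem cost_A (e x : ℝ) (h0 : 0 ≤ e) (_hx : 0 ≤ x) : cost 6 e x ≤ (1 + e) * psi x :=
  cost_le 6 e x h0

theorem cost_C (e x X : ℝ) (_h0 : 0 ≤ e) (_h1 : e ≤ 1) (_hx : 0 ≤ x) (hX : x ≤ X) :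
    cost 6 e x ≤ (1 + e) * psi x - ((6 * (1 + e) - 7) * phi X - 6 * (1 + e) * x * tail X) / 5 := by
  have hint1 : Integrable (fun t => (1 + e) * ((t - x) * phi t)) := by
    refine (co_lin_int (1 + e) (-(1 + e) * x)).congr (Eventually.of_forall fun t => ?_)
    simp only; ring
  have hint2 : Integrable (fun t => (((6 * (1 + e) - 7) / 5) * t + (-(6 * (1 + e) * x) / 5)) *
      phi t) := co_lin_int _ _
  have e1 : (1 + e) * psi x = ∫ t in Ioi x, (1 + e) * ((t - x) * phi t) := by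
    rw [integral_const_mul, integral_Ioi_sub_mul_phi]
  have e2 : ((6 * (1 + e) - 7) * phi X - 6 * (1 + e) * x * tail X) / 5 =
      ∫ t in Ioi X, (((6 * (1 + e) - 7) / 5) * t + (-(6 * (1 + e) * x) / 5)) * phi t := by
    have : ∀ t : ℝ, (((6 * (1 + e) - 7) / 5) * t + (-(6 * (1 + e) * x) / 5)) * phi t =
        ((6 * (1 + e) - 7) / 5) * (t * phi t) + (-(6 * (1 + e) * x) / 5) * phi t := fun t => by ring
    simp only [this]
    rw [integral_add (integrable_mul_phi.integrableOn.const_mul _)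
      (integrable_phi.integrableOn.const_mul _), integral_const_mul, integral_const_mul,
      integral_Ioi_mul_phi]
    unfold tail
    ring
  have e3 : ∫ t in Ioi X, (((6 * (1 + e) - 7) / 5) * t + (-(6 * (1 + e) * x) / 5)) * phi t =
      ∫ t in Ioi x, (Ioi X).indicator
        (fun t => (((6 * (1 + e) - 7) / 5) * t + (-(6 * (1 + e) * x) / 5)) * phi t) t := by
    rw [setIntegral_indicator measurableSet_Ioi]
    congr 2
    ext t
    simp only [mem_inter_iff, mem_Ioi]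
    constructor
    · intro h; exact ⟨hX.trans_lt h, h⟩
    · exact fun h => h.2
  rw [e2, e3, e1, co_cost_eq, ← integral_sub hint1.integrableOn
    ((hint2.indicator measurableSet_Ioi).integrableOn)]
  refine setIntegral_mono_on (co_f_int 6 e x).integrableOn
    (hint1.integrableOn.sub ((hint2.indicator measurableSet_Ioi).integrableOn))
    measurableSet_Ioi fun t ht => ?_
  unfold co_f
  by_cases htX : t ∈ Ioi X
  · rw [indicator_of_mem htX]
    have h1 : (1 + e) * ((t - x) * phi t) -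
        (((6 * (1 + e) - 7) / 5) * t + (-(6 * (1 + e) * x) / 5)) * phi t =
        (((((6:ℕ):ℝ) + 1) * t - (1 + e) * (t - x)) / (((6:ℕ):ℝ) - 1)) * phi t := by
      push_cast; ring
    rw [h1]
    exact mul_le_mul_of_nonneg_right (min_le_right _ _) (phi_nonneg t)
  · rw [indicator_of_notMem htX, sub_zero, ← mul_assoc]
    exact mul_le_mul_of_nonneg_right (min_le_left _ _) (phi_nonneg t)

theorem cost_B (e x : ℝ) (h0 : 0 ≤ e) (h1 : e ≤ 1) (hx : 0 ≤ x) :
    cost 6 e x ≤ (7 * phi x - (1 + e) * psi x) / 5 := by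
  have h := cost_C e x x h0 h1 hx le_rfl
  refine h.trans (le_of_eq ?_)
  unfold psi
  ring

theorem tail_le_init {x : ℝ} (hx : 0 ≤ x) (hx1 : x ≤ 7 / 10) :
    tail x ≤ (12534 / 10000) * phi x := by
  have hder : ∀ z : ℝ, HasDerivAt (fun x => tail x - (12534 / 10000 : ℝ) * phi x)
      (-(0 - z * (12534 / 10000 : ℝ) + 1) * phi z) z := fun z =>
    ca_hasDerivAt (r := fun _ => (12534 / 10000 : ℝ)) (hasDerivAt_const z _)
  have hanti : AntitoneOn (fun x => tail x - (12534 / 10000 : ℝ) * phi x) (Icc 0 (7 / 10)) := by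
    refine antitoneOn_of_deriv_nonpos (convex_Icc _ _) ?_ ?_ ?_
    · exact fun z _ => (hder z).continuousAt.continuousWithinAt
    · exact fun z _ => (hder z).differentiableAt.differentiableWithinAt
    · intro z hz
      rw [interior_Icc] at hz
      rw [(hder z).deriv]
      have h1 := phi_pos z
      have h2 : z < 7 / 10 := hz.2
      nlinarith
  have h := hanti (left_mem_Icc.2 (by norm_num)) ⟨hx, hx1⟩ hx
  simp only at h
  have h0 : tail 0 ≤ (12534 / 10000 : ℝ) * phi 0 := by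
    rw [tail_zero]
    have hphi : phi 0 = (Real.sqrt (2 * Real.pi))⁻¹ := by unfold phi; simp
    rw [hphi]
    have hs : Real.sqrt (2 * Real.pi) ≤ 25068 / 10000 := by
      rw [Real.sqrt_le_left (by norm_num)]
      have := Real.pi_lt_d4
      norm_num
      linarith
    have hs0 : 0 < Real.sqrt (2 * Real.pi) := Real.sqrt_pos.2 (by positivity)
    rw [← div_eq_mul_inv, div_le_div_iff₀ (by norm_num) hs0]
    linarith
  linarith

theorem ca_exp_lo : (4867 / 10000 : ℝ) ≤ Real.exp (-(18 / 25)) := by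
  have h := Real.exp_bound (x := -(18 / 25)) (by norm_num [abs_le]) (n := 8) (by norm_num)
  rw [abs_le] at h
  have h1 := h.1
  norm_num [Finset.sum_range_succ, Nat.factorial, abs_of_neg] at h1
  linarith

theorem ca_exp_hi : Real.exp (-(18 / 25)) ≤ (4868 / 10000 : ℝ) := by
  have h := Real.exp_bound (x := -(18 / 25)) (by norm_num [abs_le]) (n := 8) (by norm_num)
  rw [abs_le] at h
  have h1 := h.2
  norm_num [Finset.sum_range_succ, Nat.factorial, abs_of_neg] at h1
  linarith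

theorem ca_phi_six_fifths : phi (6 / 5) = phi 0 * Real.exp (-(18 / 25)) := by
  unfold phi
  have e1 : (-(6 / 5 : ℝ) ^ 2 / 2) = -(18 / 25) := by norm_num
  have e2 : (-(0 : ℝ) ^ 2 / 2) = 0 := by norm_num
  rw [e1, e2, Real.exp_zero, mul_one]

theorem phi_ratio : (4867 / 10000) * phi 0 ≤ phi (6 / 5) := by
  rw [ca_phi_six_fifths]
  have h1 := ca_exp_lo
  have h2 := phi_pos 0
  nlinarith

theorem tail_ratio : tail (6 / 5) ≤ (2918 / 10000) * phi 0 := by
  have h := mills_upper7 (x := 6 / 5) (by norm_num)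
  refine h.trans ?_
  rw [ca_phi_six_fifths]
  have h1 := ca_exp_hi
  have h2 := phi_pos 0
  have h3 := Real.exp_pos (-(18 / 25))
  have h4 : (((6 / 5 : ℝ) ^ 6 + 20 * (6 / 5) ^ 4 + 87 * (6 / 5) ^ 2 + 48) /
      ((6 / 5) * ((6 / 5) ^ 6 + 21 * (6 / 5) ^ 4 + 105 * (6 / 5) ^ 2 + 105))) ≤ 5994 / 10000 := by
    norm_num
  calc _ ≤ (5994 / 10000 : ℝ) * (phi 0 * Real.exp (-(18 / 25))) :=
        mul_le_mul_of_nonneg_right h4 (by positivity)
    _ ≤ (5994 / 10000 : ℝ) * (phi 0 * (4868 / 10000)) := by gcongr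
    _ ≤ _ := by nlinarith

end P226
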