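import Mathlib

/-! P226: reflective rational polynomials in one and two variables, Bernstein positivity check. -/

namespace P226
namespace LP

/-- evaluation of a coefficient list (increasing degrees) -/
noncomputable def ev (p : List ℚ) (x : ℝ) : ℝ :=
  match p with
  | [] => 0
  | c :: p => (c : ℝ) + x * ev p x

/-- coefficientwise sum -/
def add : List ℚ → List ℚ → List ℚ
  | [], q => q
  | p, [] => p
  | c :: p, d :: q => (c + d) :: add p q

/-- scalar multiple -/
def smul (c : ℚ) : List ℚ → List ℚ
  | [] => []
  | d :: q => (c * d) :: smul c q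

/-- product -/
def mul : List ℚ → List ℚ → List ℚ
  | [], _ => []
  | c :: p, q => add (smul c q) (0 :: mul p q)

@[simp] theorem ev_nil (x : ℝ) : ev [] x = 0 := rfl
@[simp] theorem ev_cons (c : ℚ) (p : List ℚ) (x : ℝ) : ev (c :: p) x = (c : ℝ) + x * ev p x := rfl

@[simp] theorem ev_add (p q : List ℚ) (x : ℝ) : ev (add p q) x = ev p x + ev q x := by
  induction p generalizing q with
  | nil => simp [add]
  | cons c p ih =>
    cases q with
    | nil => simp [add]
    | cons d q => simp only [add, ev_cons, ih, Rat.cast_add]; ring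

@[simp] theorem ev_smul (c : ℚ) (q : List ℚ) (x : ℝ) : ev (smul c q) x = (c : ℝ) * ev q x := by
  induction q with
  | nil => simp [smul]
  | cons d q ih => simp only [smul, ev_cons, ih, Rat.cast_mul]; ring

@[simp] theorem ev_mul (p q : List ℚ) (x : ℝ) : ev (mul p q) x = ev p x * ev q x := by
  induction p with
  | nil => simp [mul]
  | cons c p ih => simp only [mul, ev_cons, ev_add, ev_smul, ih, Rat.cast_zero]; ring

/-- composition `p(r(x))` -/
def comp (p r : List ℚ) : List ℚ :=
  match p with
  | [] => []
  | c :: p => add [c] (mul r (comp p r))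

@[simp] theorem ev_comp (p r : List ℚ) (x : ℝ) : ev (comp p r) x = ev p (ev r x) := by
  induction p with
  | nil => simp [comp]
  | cons c p ih => simp [comp, ih]

/-- binomial row `C(n,j)` as rationals, computed by Pascal -/
def row : ℕ → List ℚ
  | 0 => [1]
  | n + 1 => add (row n ++ [0]) (0 :: row n)

/-- homogeneous evaluation `Σ q_j a^j b^(n-j)`, `n + 1 = length` -/
noncomputable def hev (q : List ℚ) (a b : ℝ) : ℝ :=
  match q with
  | [] => 0
  | c :: q => (c : ℝ) * b ^ q.length + a * hev q a b

@[simp] theorem hev_nil (a b : ℝ) : hev [] a b = 0 := rfl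
@[simp] theorem hev_cons (c : ℚ) (q : List ℚ) (a b : ℝ) :
    hev (c :: q) a b = (c : ℝ) * b ^ q.length + a * hev q a b := rfl

theorem length_add_eq (p q : List ℚ) (h : p.length = q.length) :
    (add p q).length = p.length := by
  induction p generalizing q with
  | nil => cases q with
    | nil => rfl
    | cons d q => simp at h
  | cons c p ih =>
    cases q with
    | nil => simp at h
    | cons d q =>
      simp only [add, List.length_cons]
      rw [ih q (by simpa using h)]

theorem length_smul (c : ℚ) (q : List ℚ) : (smul c q).length = q.length := by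
  induction q with
  | nil => rfl
  | cons d q ih => simp [smul, ih]

theorem hev_add (p q : List ℚ) (h : p.length = q.length) (a b : ℝ) :
    hev (add p q) a b = hev p a b + hev q a b := by
  induction p generalizing q with
  | nil => cases q with
    | nil => simp [add]
    | cons d q => simp at h
  | cons c p ih =>
    cases q with
    | nil => simp at h
    | cons d q =>
      have h' : p.length = q.length := by simpa using h
      simp only [add, hev_cons, ih q h', Rat.cast_add, length_add_eq p q h', ← h']
      ring

theorem hev_smul (c : ℚ) (q : List ℚ) (a b : ℝ) : hev (smul c q) a b = (c : ℝ) * hev q a b := by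
  induction q with
  | nil => simp [smul]
  | cons d q ih => simp only [smul, hev_cons, ih, Rat.cast_mul, length_smul]; ring

theorem hev_append_zero (q : List ℚ) (a b : ℝ) : hev (q ++ [0]) a b = b * hev q a b := by
  induction q with
  | nil => simp
  | cons d q ih => simp only [List.cons_append, hev_cons, ih, List.length_append,
      List.length_cons, List.length_nil]; ring

theorem length_row (n : ℕ) : (row n).length = n + 1 := by
  induction n with
  | zero => rfl
  | succ n ih =>
    simp only [row]
    rw [length_add_eq _ _ (by simp)]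
    simp [ih]

theorem hev_row (n : ℕ) (a b : ℝ) : hev (row n) a b = (a + b) ^ n := by
  induction n with
  | zero => simp [row]
  | succ n ih =>
    simp only [row]
    rw [hev_add _ _ (by simp), hev_append_zero, hev_cons, ih]
    simp only [Rat.cast_zero, zero_mul, zero_add, pow_succ]; ring

/-- Bernstein (unnormalised) coefficients on `[0,1]` -/
def hom : List ℚ → List ℚ
  | [] => []
  | c :: p => add (smul c (row p.length)) (0 :: hom p)

theorem length_hom (p : List ℚ) : (hom p).length = p.length := by
  induction p with
  | nil => rfl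
  | cons c p ih =>
    simp only [hom]
    rw [length_add_eq _ _ (by simp [length_smul, length_row, ih])]
    simp [length_smul, length_row]

theorem hev_hom (p : List ℚ) (a b : ℝ) (hab : a + b = 1) : hev (hom p) a b = ev p a := by
  induction p with
  | nil => simp [hom]
  | cons c p ih =>
    simp only [hom]
    rw [hev_add _ _ (by simp [length_smul, length_row, length_hom]), hev_smul, hev_row, hab,
      hev_cons, ih]
    simp

/-- all coefficients nonnegative -/
def allNN : List ℚ → Bool
  | [] => true
  | c :: p => decide (0 ≤ c) && allNN p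

theorem hev_nonneg (q : List ℚ) (h : allNN q = true) {a b : ℝ} (ha : 0 ≤ a) (hb : 0 ≤ b) :
    0 ≤ hev q a b := by
  induction q with
  | nil => simp
  | cons c q ih =>
    simp only [allNN, Bool.and_eq_true, decide_eq_true_eq] at h
    have h1 : (0:ℝ) ≤ (c:ℝ) := by exact_mod_cast h.1
    have h2 := ih h.2
    simp only [hev_cons]
    positivity

/-- one-variable check on `[u, u+w]` -/
def chk1 (p : List ℚ) (u w : ℚ) : Bool := allNN (hom (comp p [u, w]))

theorem chk1_sound (p : List ℚ) (u w : ℚ) (hw : 0 < w) (h : chk1 p u w = true) {x : ℝ}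
    (h1 : (u:ℝ) ≤ x) (h2 : x ≤ (u:ℝ) + w) : 0 ≤ ev p x := by
  have hw' : (0:ℝ) < (w:ℝ) := by exact_mod_cast hw
  set a : ℝ := (x - u) / w with ha
  have ha0 : 0 ≤ a := by rw [ha]; apply div_nonneg (by linarith) hw'.le
  have ha1 : a ≤ 1 := by rw [ha, div_le_one hw']; linarith
  have e : ev (comp p [u, w]) a = ev p x := by
    rw [ev_comp]; congr 1
    simp only [ev_cons, ev_nil]; rw [ha]; field_simp; ring
  rw [← e, ← hev_hom _ a (1 - a) (by ring)]
  exact hev_nonneg _ h ha0 (by linarith)

/-! ### two variables -/

/-- evaluation, `P = Σ_l P_l(x) t^l` -/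
noncomputable def ev2 (P : List (List ℚ)) (x t : ℝ) : ℝ :=
  match P with
  | [] => 0
  | p :: P => ev p x + t * ev2 P x t

@[simp] theorem ev2_nil (x t : ℝ) : ev2 [] x t = 0 := rfl
@[simp] theorem ev2_cons (p : List ℚ) (P : List (List ℚ)) (x t : ℝ) :
    ev2 (p :: P) x t = ev p x + t * ev2 P x t := rfl

/-- sum -/
def add2 : List (List ℚ) → List (List ℚ) → List (List ℚ)
  | [], q => q
  | p, [] => p
  | c :: p, d :: q => add c d :: add2 p q

/-- multiplication by a polynomial in `x` -/
def smul2 (c : List ℚ) : List (List ℚ) → List (List ℚ)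
  | [] => []
  | d :: q => mul c d :: smul2 c q

/-- product -/
def mul2 : List (List ℚ) → List (List ℚ) → List (List ℚ)
  | [], _ => []
  | c :: p, q => add2 (smul2 c q) ([] :: mul2 p q)

@[simp] theorem ev2_add (p q : List (List ℚ)) (x t : ℝ) :
    ev2 (add2 p q) x t = ev2 p x t + ev2 q x t := by
  induction p generalizing q with
  | nil => simp [add2]
  | cons c p ih =>
    cases q with
    | nil => simp [add2]
    | cons d q => simp only [add2, ev2_cons, ih, ev_add]; ring

@[simp] theorem ev2_smul (c : List ℚ) (q : List (List ℚ)) (x t : ℝ) :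
    ev2 (smul2 c q) x t = ev c x * ev2 q x t := by
  induction q with
  | nil => simp [smul2]
  | cons d q ih => simp only [smul2, ev2_cons, ih, ev_mul]; ring

@[simp] theorem ev2_mul (p q : List (List ℚ)) (x t : ℝ) :
    ev2 (mul2 p q) x t = ev2 p x t * ev2 q x t := by
  induction p with
  | nil => simp [mul2]
  | cons c p ih => simp only [mul2, ev2_cons, ev2_add, ev2_smul, ih, ev_nil]; ring

/-- substitute `x = u + w a` in all coefficients -/
def compx (P : List (List ℚ)) (u w : ℚ) : List (List ℚ) := P.map (fun p => comp p [u, w])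

theorem ev2_compx (P : List (List ℚ)) (u w : ℚ) (a t : ℝ) :
    ev2 (compx P u w) a t = ev2 P ((u:ℝ) + w * a) t := by
  induction P with
  | nil => rfl
  | cons p P ih =>
    have ih' : ev2 (List.map (fun p => comp p [u, w]) P) a t = ev2 P ((u:ℝ) + w * a) t := ih
    simp only [compx, List.map_cons, ev2_cons, ih', ev_comp, ev_cons, ev_nil]
    congr 2
    ring

/-- composition `t = r(x,t)` -/
def comp2 (P : List (List ℚ)) (r : List (List ℚ)) : List (List ℚ) :=
  match P with
  | [] => []
  | c :: P => add2 [c] (mul2 r (comp2 P r))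

theorem ev2_comp (P r : List (List ℚ)) (x t : ℝ) : ev2 (comp2 P r) x t = ev2 P x (ev2 r x t) := by
  induction P with
  | nil => simp [comp2]
  | cons c p ih => simp [comp2, ih]

/-- homogeneous evaluation in `t` -/
noncomputable def hev2 (q : List (List ℚ)) (x a b : ℝ) : ℝ :=
  match q with
  | [] => 0
  | c :: q => ev c x * b ^ q.length + a * hev2 q x a b

@[simp] theorem hev2_nil (x a b : ℝ) : hev2 [] x a b = 0 := rfl
@[simp] theorem hev2_cons (c : List ℚ) (q : List (List ℚ)) (x a b : ℝ) :
    hev2 (c :: q) x a b = ev c x * b ^ q.length + a * hev2 q x a b := rfl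

theorem length_add2_eq (p q : List (List ℚ)) (h : p.length = q.length) :
    (add2 p q).length = p.length := by
  induction p generalizing q with
  | nil => cases q with
    | nil => rfl
    | cons d q => simp at h
  | cons c p ih =>
    cases q with
    | nil => simp at h
    | cons d q =>
      simp only [add2, List.length_cons]
      rw [ih q (by simpa using h)]

theorem hev2_add (p q : List (List ℚ)) (h : p.length = q.length) (x a b : ℝ) :
    hev2 (add2 p q) x a b = hev2 p x a b + hev2 q x a b := by
  induction p generalizing q with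
  | nil => cases q with
    | nil => simp [add2]
    | cons d q => simp at h
  | cons c p ih =>
    cases q with
    | nil => simp at h
    | cons d q =>
      have h' : p.length = q.length := by simpa using h
      simp only [add2, hev2_cons, ih q h', ev_add, length_add2_eq p q h', ← h']
      ring

/-- the row of binomials times the polynomial `c` -/
def rowmul (c : List ℚ) (r : List ℚ) : List (List ℚ) := r.map (fun k => smul k c)

theorem length_rowmul (c r : List ℚ) : (rowmul c r).length = r.length := by simp [rowmul]

theorem hev2_rowmul (c r : List ℚ) (x a b : ℝ) :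
    hev2 (rowmul c r) x a b = ev c x * hev r a b := by
  induction r with
  | nil => simp [rowmul]
  | cons d r ih =>
    have ih' : hev2 (List.map (fun k => smul k c) r) x a b = ev c x * hev r a b := ih
    simp only [rowmul, List.map_cons, hev2_cons, hev_cons, ih', ev_smul, List.length_map]
    ring

/-- Bernstein in `t` -/
def hom2 : List (List ℚ) → List (List ℚ)
  | [] => []
  | c :: p => add2 (rowmul c (row p.length)) ([] :: hom2 p)

theorem length_hom2 (p : List (List ℚ)) : (hom2 p).length = p.length := by
  induction p with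
  | nil => rfl
  | cons c p ih =>
    simp only [hom2]
    rw [length_add2_eq _ _ (by simp [length_rowmul, length_row, ih])]
    simp [length_rowmul, length_row]

theorem hev2_hom (p : List (List ℚ)) (x a b : ℝ) (hab : a + b = 1) :
    hev2 (hom2 p) x a b = ev2 p x a := by
  induction p with
  | nil => simp [hom2]
  | cons c p ih =>
    simp only [hom2]
    rw [hev2_add _ _ (by simp [length_rowmul, length_row, length_hom2]), hev2_rowmul, hev_row, hab,
      hev2_cons, ih]
    simp

/-- all coefficient polynomials have nonnegative Bernstein coefficients on `[0,1]` -/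
def allNN2 : List (List ℚ) → Bool
  | [] => true
  | c :: p => allNN (hom c) && allNN2 p

theorem hev2_nonneg (q : List (List ℚ)) (h : allNN2 q = true) {x a b : ℝ} (hx : 0 ≤ x)
    (hx1 : x ≤ 1) (ha : 0 ≤ a) (hb : 0 ≤ b) : 0 ≤ hev2 q x a b := by
  induction q with
  | nil => simp
  | cons c q ih =>
    simp only [allNN2, Bool.and_eq_true] at h
    have h1 : 0 ≤ ev c x := by
      rw [← hev_hom c x (1 - x) (by ring)]
      exact hev_nonneg _ h.1 hx (by linarith)
    have h2 := ih h.2
    simp only [hev2_cons]
    positivity

/-- check on the box `[u,u+w] × [p,p+z]` -/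
def chk2 (P : List (List ℚ)) (u w p z : ℚ) : Bool :=
  allNN2 (hom2 (comp2 (compx P u w) [[p], [z]]))

theorem chk2_sound (P : List (List ℚ)) (u w p z : ℚ) (hw : 0 < w) (hz : 0 < z)
    (h : chk2 P u w p z = true) {x t : ℝ} (h1 : (u:ℝ) ≤ x) (h2 : x ≤ (u:ℝ) + w)
    (h3 : (p:ℝ) ≤ t) (h4 : t ≤ (p:ℝ) + z) : 0 ≤ ev2 P x t := by
  have hw' : (0:ℝ) < (w:ℝ) := by exact_mod_cast hw
  have hz' : (0:ℝ) < (z:ℝ) := by exact_mod_cast hz
  set a : ℝ := (x - u) / w with ha
  have ha0 : 0 ≤ a := by rw [ha]; apply div_nonneg (by linarith) hw'.le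
  have ha1 : a ≤ 1 := by rw [ha, div_le_one hw']; linarith
  set c : ℝ := (t - p) / z with hc
  have hc0 : 0 ≤ c := by rw [hc]; apply div_nonneg (by linarith) hz'.le
  have hc1 : c ≤ 1 := by rw [hc, div_le_one hz']; linarith
  have e1 : (u:ℝ) + w * a = x := by rw [ha]; field_simp; ring
  have e2 : ev2 [[p], [z]] a c = t := by
    simp only [ev2_cons, ev2_nil, ev_cons, ev_nil]; rw [hc]; field_simp; ring
  have e : ev2 (comp2 (compx P u w) [[p], [z]]) a c = ev2 P x t := by
    rw [ev2_comp, e2, ev2_compx, e1]
  rw [← e, ← hev2_hom _ a c (1 - c) (by ring)]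
  exact hev2_nonneg _ h ha0 ha1 hc0 (by linarith)

/-! ### integration -/

/-- antiderivative with shifted index: coefficients `c_k / (k + n + 1)` -/
def intAux : ℕ → List ℚ → List ℚ
  | _, [] => []
  | n, c :: p => (c / ((n : ℚ) + 1)) :: intAux (n + 1) p

/-- antiderivative vanishing at `0` -/
def int (p : List ℚ) : List ℚ := 0 :: intAux 0 p

/-- rational evaluation -/
def evQ (p : List ℚ) (x : ℚ) : ℚ :=
  match p with
  | [] => 0
  | c :: p => c + x * evQ p x

theorem ev_cast (p : List ℚ) (x : ℚ) : ev p (x:ℝ) = ((evQ p x : ℚ) : ℝ) := by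
  induction p with
  | nil => simp [evQ]
  | cons c p ih => simp [evQ, ih]

theorem hasDerivAt_intAux (p : List ℚ) (n : ℕ) (x : ℝ) :
    HasDerivAt (fun x => x ^ (n + 1) * ev (intAux n p) x) (x ^ n * ev p x) x := by
  induction p generalizing n with
  | nil =>
    simp only [intAux, ev_nil, mul_zero]
    exact hasDerivAt_const x 0
  | cons c p ih =>
    have h1 := ih (n + 1)
    have h2 : HasDerivAt (fun x : ℝ => x ^ (n + 1)) (((n + 1 : ℕ) : ℝ) * x ^ n) x := by
      simpa using hasDerivAt_pow (n + 1) x
    have h3 := (h2.const_mul ((c:ℝ) / ((n:ℝ) + 1))).add h1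
    have e : (fun x : ℝ => x ^ (n + 1) * ev (intAux n (c :: p)) x) =
        (fun x : ℝ => (c:ℝ) / ((n:ℝ) + 1) * x ^ (n + 1)) +
          (fun x : ℝ => x ^ (n + 1 + 1) * ev (intAux (n + 1) p) x) := by
      funext y
      simp only [intAux, ev_cons, Pi.add_apply]
      push_cast
      ring
    rw [e]
    refine h3.congr_deriv ?_
    have : ((n:ℝ) + 1) ≠ 0 := by positivity
    rw [ev_cons]
    push_cast
    field_simp
    ring

theorem hasDerivAt_int (p : List ℚ) (x : ℝ) : HasDerivAt (ev (int p)) (ev p x) x := by
  have h := hasDerivAt_intAux p 0 x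
  have e : ev (int p) = fun x => x ^ (0 + 1) * ev (intAux 0 p) x := by
    funext y; simp [int]
  rw [e]; simpa using h

theorem continuous_ev (p : List ℚ) : Continuous (ev p) := by
  induction p with
  | nil => exact continuous_const
  | cons c p ih =>
    have : ev (c :: p) = fun x => (c:ℝ) + x * ev p x := rfl
    rw [this]; fun_prop

theorem integral_ev (p : List ℚ) (a b : ℚ) :
    ∫ s in (a:ℝ)..(b:ℝ), ev p s = ((evQ (int p) b - evQ (int p) a : ℚ) : ℝ) := by
  rw [intervalIntegral.integral_eq_sub_of_hasDerivAt (fun x _ => hasDerivAt_int p x)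
    ((continuous_ev p).intervalIntegrable _ _), ev_cast, ev_cast]
  push_cast; ring

/-- derivative -/
def der : List ℚ → List ℚ
  | [] => []
  | _ :: p => add p (0 :: der p)

theorem hasDerivAt_ev (p : List ℚ) (x : ℝ) : HasDerivAt (ev p) (ev (der p) x) x := by
  induction p with
  | nil => exact hasDerivAt_const x 0
  | cons c p ih =>
    have h := ((hasDerivAt_id x).mul ih).const_add (c:ℝ)
    have e : ev (c :: p) = fun x => (c:ℝ) + ((id * ev p : ℝ → ℝ)) x := by
      funext y; simp
    rw [e]
    refine h.congr_deriv ?_
    simp [der]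

end LP
end P226
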