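import Vale.Agent.P226_h5.Defs
import Vale.Agent.P226_h5.CertPoly

/-! P226 CERT6: upper bounds for `fr x 3 r`. -/

open MeasureTheory Set


namespace P226
namespace LP

/-- Taylor coefficients `1/k!` with doubled last coefficient -/
def tl : ℕ → ℚ → ℕ → List ℚ
  | 0, c, _ => [2 * c]
  | m + 1, c, k => c :: tl m (c / ((k:ℚ) + 1)) (k + 1)

theorem ev_tl (m k : ℕ) (y : ℝ) :
    (∑ j ∈ Finset.range k, y ^ j / (j.factorial : ℝ)) + y ^ k * ev (tl m (1 / (k.factorial : ℚ)) k) y =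
      (∑ j ∈ Finset.range (k + m), y ^ j / (j.factorial : ℝ)) +
        y ^ (k + m) / ((k + m).factorial : ℝ) * 2 := by
  induction m generalizing k with
  | zero =>
    simp only [tl, ev_cons, ev_nil, add_zero]
    push_cast
    ring
  | succ m ih =>
    have h := ih (k + 1)
    have e1 : (1 / ((k+1).factorial : ℚ)) = 1 / (k.factorial : ℚ) / ((k:ℚ) + 1) := by
      rw [Nat.factorial_succ]; push_cast; field_simp
    rw [e1, Finset.sum_range_succ] at h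
    have e2 : k + (m + 1) = k + 1 + m := by ring
    rw [e2, ← h]
    simp only [tl, ev_cons]
    push_cast
    ring

theorem exp_le_ev (n : ℕ) (hn : Even n) (y : ℝ) (hy : |y| ≤ ((n:ℝ) + 1) / 2) :
    Real.exp y ≤ ev (tl n 1 0) y := by
  have h1 := ev_tl n 0 y
  simp only [Finset.range_zero, Finset.sum_empty, zero_add, pow_zero, one_mul,
    Nat.factorial_zero, Nat.cast_one, div_one] at h1
  rw [h1]
  have h2 : ‖(y:ℂ)‖ / (n.succ : ℝ) ≤ 1 / 2 := by
    rw [Complex.norm_real, Real.norm_eq_abs]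
    rw [div_le_iff₀ (by positivity)]
    push_cast
    linarith
  have h3 := Complex.exp_bound' h2
  have h4 : ‖Complex.exp (y:ℂ) - ∑ m ∈ Finset.range n, (y:ℂ) ^ m / (m.factorial : ℂ)‖ =
      |Real.exp y - ∑ m ∈ Finset.range n, y ^ m / (m.factorial : ℝ)| := by
    rw [← Real.norm_eq_abs, ← Complex.norm_real]
    push_cast
    rfl
  rw [h4, Complex.norm_real, Real.norm_eq_abs, hn.pow_abs] at h3
  have h5 := le_trans (le_abs_self _) h3
  linarith

end LP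

open LP

/-- `fr` in terms of `X = x²` -/
noncomputable def Fq (X r : ℝ) : ℝ := ∫ s in (0:ℝ)..3, (3 - s) * Real.exp (X * (s - r * s ^ 2 / 2))

theorem fr_eq_Fq (x r : ℝ) : fr x 3 r = Fq (x ^ 2) r := rfl

theorem Fq_le_corner (n : ℕ) (X r B : ℚ) (h : (decide (n % 2 = 0) && decide (0 ≤ X) &&
    decide (0 ≤ r) && decide (r ≤ 1) && decide (6 * X ≤ n + 1) &&
    decide (evQ (int (mul [3, -1] (comp (tl n 1 0) [0, X, -(X * r / 2)]))) 3 ≤ B)) = true) :
    Fq (X:ℝ) (r:ℝ) ≤ (B:ℝ) := by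
  simp only [Bool.and_eq_true, decide_eq_true_eq] at h
  obtain ⟨⟨⟨⟨⟨h1, h2⟩, h3⟩, h4⟩, h5⟩, h6⟩ := h
  have h2' : (0:ℝ) ≤ (X:ℝ) := by exact_mod_cast h2
  have h3' : (0:ℝ) ≤ (r:ℝ) := by exact_mod_cast h3
  have h4' : (r:ℝ) ≤ 1 := by exact_mod_cast h4
  have h5' : 6 * (X:ℝ) ≤ n + 1 := by exact_mod_cast h5
  have key : Fq (X:ℝ) (r:ℝ) ≤
      ∫ s in ((0:ℚ):ℝ)..((3:ℚ):ℝ), ev (mul [3, -1] (comp (tl n 1 0) [0, X, -(X * r / 2)])) s := by
    unfold Fq
    push_cast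
    apply intervalIntegral.integral_mono_on (by norm_num)
    · apply Continuous.intervalIntegrable; fun_prop
    · exact (continuous_ev _).intervalIntegrable _ _
    · intro s hs
      have hs0 := hs.1
      have hs3 := hs.2
      rw [ev_mul, ev_comp]
      have e1 : ev [3, -1] s = 3 - s := by
        simp only [ev_cons, ev_nil]; push_cast; ring
      have e2 : ev [0, X, -(X * r / 2)] s = (X:ℝ) * (s - r * s ^ 2 / 2) := by
        simp only [ev_cons, ev_nil]; push_cast; ring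
      rw [e1, e2]
      apply mul_le_mul_of_nonneg_left _ (by linarith)
      apply exp_le_ev n (Nat.even_iff.mpr h1)
      have b1 : s - (r:ℝ) * s ^ 2 / 2 ≤ 3 := by nlinarith [mul_nonneg h3' (sq_nonneg s)]
      have b2 : -3 ≤ s - (r:ℝ) * s ^ 2 / 2 := by nlinarith [mul_le_mul_of_nonneg_right h4' (sq_nonneg s)]
      have b3 : |s - (r:ℝ) * s ^ 2 / 2| ≤ 3 := abs_le.mpr ⟨b2, b1⟩
      rw [abs_mul, abs_of_nonneg h2']
      nlinarith [mul_le_mul_of_nonneg_left b3 h2']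
  rw [integral_ev] at key
  refine key.trans ?_
  have : evQ (int (mul [3, -1] (comp (tl n 1 0) [0, X, -(X * r / 2)]))) 0 = 0 := by
    simp [int, evQ]
  rw [this, sub_zero]
  exact_mod_cast h6

/-- corner bounds: `(n, B_ij)`; `i` = node index (`x = 0, 2/5, 7/10, 1, 13/10, 8/5, 9/5`),
`j` = index of `r = 1, 1/2, 1/4, 0` -/
def nodeX : ℕ → ℚ
  | 0 => 0 | 1 => 2/5 | 2 => 7/10 | 3 => 1 | 4 => 13/10 | 5 => 8/5 | _ => 9/5

/-- nodes in `r` -/
def nodeR : ℕ → ℚ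
  | 0 => 1 | 1 => 1/2 | 2 => 1/4 | _ => 0

/-- the table of corner bounds -/
def Btab : ℕ → ℕ → ℚ
  | 0, _ => 9/2
  | 1, 0 => 4689/1000 | 1, 1 => 4980/1000 | 1, 2 => 5142/1000 | 1, _ => 5316/1000
  | 2, 0 => 5135/1000 | 2, 1 => 6183/1000 | 2, 2 => 6907/1000 | 2, _ => 7827/1000
  | 3, 0 => 5990/1000 | 3, 1 => 8802/1000 | 3, 2 => 11497/1000 | 3, _ => 16086/1000
  | 4, 0 => 7522/1000 | 4, 1 => 14666/1000 | 4, 2 => 25236/1000 | 4, _ => 53607/1000
  | 5, 0 => 10262/1000 | 5, 1 => 29174/1000 | 5, 2 => 77581/1000 | 5, _ => 328971/1000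
  | _, 0 => 13260/1000 | _, 1 => 51300/1000 | _, 2 => 201685/1000 | _, _ => 1584794/1000

/-- Taylor orders -/
def nTab : ℕ → ℕ
  | 3 => 12 | 4 => 16 | 5 => 22 | 6 => 26 | _ => 8

theorem corner (i j : ℕ) (hi : i < 7) (hj : j < 4) :
    Fq (((nodeX i) ^ 2 : ℚ) : ℝ) ((nodeR j : ℚ) : ℝ) ≤ ((Btab i j : ℚ) : ℝ) := by
  apply Fq_le_corner (nTab i)
  have h : ∀ i : Fin 7, ∀ j : Fin 4, (decide (nTab i % 2 = 0) && decide (0 ≤ nodeX i ^ 2) &&
    decide (0 ≤ nodeR j) && decide (nodeR j ≤ 1) && decide (6 * nodeX i ^ 2 ≤ (nTab i : ℚ) + 1) &&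
    decide (evQ (int (mul [3, -1] (comp (tl (nTab i) 1 0)
      [0, nodeX i ^ 2, -(nodeX i ^ 2 * nodeR j / 2)]))) 3 ≤ Btab i j)) = true := by
    decide +kernel
  exact h ⟨i, hi⟩ ⟨j, hj⟩

theorem exp_conv {l m A B : ℝ} (hl : 0 ≤ l) (hm : 0 ≤ m) (h : l + m = 1) :
    Real.exp (l * A + m * B) ≤ l * Real.exp A + m * Real.exp B := by
  have := convexOn_exp.2 (mem_univ A) (mem_univ B) hl hm h
  simpa [smul_eq_mul] using this

theorem Fq_convX {l m : ℝ} (X0 X1 r : ℝ) (hl : 0 ≤ l) (hm : 0 ≤ m) (h : l + m = 1) :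
    Fq (l * X0 + m * X1) r ≤ l * Fq X0 r + m * Fq X1 r := by
  unfold Fq
  rw [← intervalIntegral.integral_const_mul, ← intervalIntegral.integral_const_mul,
    ← intervalIntegral.integral_add
      ((by fun_prop : Continuous _).intervalIntegrable _ _)
      ((by fun_prop : Continuous _).intervalIntegrable _ _)]
  apply intervalIntegral.integral_mono_on (by norm_num)
  · apply Continuous.intervalIntegrable; fun_prop
  · apply Continuous.intervalIntegrable; fun_prop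
  · intro s hs
    have e : (l * X0 + m * X1) * (s - r * s ^ 2 / 2) =
      l * (X0 * (s - r * s ^ 2 / 2)) + m * (X1 * (s - r * s ^ 2 / 2)) := by ring
    rw [e]
    have := mul_le_mul_of_nonneg_left
      (exp_conv (A := X0 * (s - r * s ^ 2 / 2)) (B := X1 * (s - r * s ^ 2 / 2)) hl hm h)
      (by linarith [hs.2] : 0 ≤ 3 - s)
    linarith

theorem Fq_convr {l m : ℝ} (X r0 r1 : ℝ) (hl : 0 ≤ l) (hm : 0 ≤ m) (h : l + m = 1) :
    Fq X (l * r0 + m * r1) ≤ l * Fq X r0 + m * Fq X r1 := by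
  unfold Fq
  rw [← intervalIntegral.integral_const_mul, ← intervalIntegral.integral_const_mul,
    ← intervalIntegral.integral_add
      ((by fun_prop : Continuous _).intervalIntegrable _ _)
      ((by fun_prop : Continuous _).intervalIntegrable _ _)]
  apply intervalIntegral.integral_mono_on (by norm_num)
  · apply Continuous.intervalIntegrable; fun_prop
  · apply Continuous.intervalIntegrable; fun_prop
  · intro s hs
    have e : X * (s - (l * r0 + m * r1) * s ^ 2 / 2) =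
      l * (X * (s - r0 * s ^ 2 / 2)) + m * (X * (s - r1 * s ^ 2 / 2)) := by
      have : s = (l + m) * s := by rw [h]; ring
      calc X * (s - (l * r0 + m * r1) * s ^ 2 / 2)
          = X * ((l + m) * s - (l * r0 + m * r1) * s ^ 2 / 2) := by rw [h]; ring
        _ = _ := by ring
    rw [e]
    have := mul_le_mul_of_nonneg_left
      (exp_conv (A := X * (s - r0 * s ^ 2 / 2)) (B := X * (s - r1 * s ^ 2 / 2)) hl hm h)
      (by linarith [hs.2] : 0 ≤ 3 - s)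
    linarith

/-- the upper bound `N_ij(x,t) ≥ (1+t) fr x 3 ((1-t)/(1+t))` as polynomial in `(x,t)` -/
def NL (X0 X1 r0 r1 B00 B10 B01 B11 : ℚ) : List (List ℚ) :=
  add2 (mul2 [[(r1 - 1) / (r1 - r0)], [(r1 + 1) / (r1 - r0)]]
      [[(X1 * B00 - X0 * B10) / (X1 - X0), 0, (B10 - B00) / (X1 - X0)]])
    (mul2 [[(1 - r0) / (r1 - r0)], [-(1 + r0) / (r1 - r0)]]
      [[(X1 * B01 - X0 * B11) / (X1 - X0), 0, (B11 - B01) / (X1 - X0)]])

theorem fr_le_NL (X0 X1 r0 r1 B00 B10 B01 B11 : ℚ) (hX : X0 < X1) (hr : r0 < r1)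
    (h00 : Fq (X0:ℝ) (r0:ℝ) ≤ (B00:ℝ)) (h10 : Fq (X1:ℝ) (r0:ℝ) ≤ (B10:ℝ))
    (h01 : Fq (X0:ℝ) (r1:ℝ) ≤ (B01:ℝ)) (h11 : Fq (X1:ℝ) (r1:ℝ) ≤ (B11:ℝ)) {x t : ℝ}
    (hx0 : (X0:ℝ) ≤ x ^ 2) (hx1 : x ^ 2 ≤ (X1:ℝ)) (ht : 0 ≤ t)
    (hr0 : (r0:ℝ) * (1 + t) ≤ 1 - t) (hr1 : 1 - t ≤ (r1:ℝ) * (1 + t)) :
    (1 + t) * fr x 3 ((1 - t) / (1 + t)) ≤ ev2 (NL X0 X1 r0 r1 B00 B10 B01 B11) x t := by
  have hX' : (X0:ℝ) < (X1:ℝ) := by exact_mod_cast hX
  have hr' : (r0:ℝ) < (r1:ℝ) := by exact_mod_cast hr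
  have hXp : (0:ℝ) < (X1:ℝ) - X0 := by linarith
  have hrp : (0:ℝ) < (r1:ℝ) - r0 := by linarith
  have htp : 0 < 1 + t := by linarith
  rw [fr_eq_Fq]
  -- weights
  set m : ℝ := (x ^ 2 - X0) / (X1 - X0) with hm
  set l : ℝ := (X1 - x ^ 2) / (X1 - X0) with hl
  have hm0 : 0 ≤ m := div_nonneg (by linarith) hXp.le
  have hl0 : 0 ≤ l := div_nonneg (by linarith) hXp.le
  have hlm : l + m = 1 := by rw [hl, hm]; field_simp; ring
  have hxe : x ^ 2 = l * X0 + m * X1 := by rw [hl, hm]; field_simp; ring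
  set a : ℝ := (r1 * (1 + t) - (1 - t)) / (r1 - r0) with ha
  set b : ℝ := ((1 - t) - r0 * (1 + t)) / (r1 - r0) with hb
  have ha0 : 0 ≤ a := div_nonneg (by linarith) hrp.le
  have hb0 : 0 ≤ b := div_nonneg (by linarith) hrp.le
  have hab : a / (1 + t) + b / (1 + t) = 1 := by rw [ha, hb]; field_simp; ring
  have hre : (1 - t) / (1 + t) = a / (1 + t) * r0 + b / (1 + t) * r1 := by
    rw [ha, hb]; field_simp; ring
  have h1 := Fq_convr (x ^ 2) r0 r1 (div_nonneg ha0 htp.le) (div_nonneg hb0 htp.le) hab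
  rw [← hre] at h1
  have h2 : (1 + t) * Fq (x ^ 2) ((1 - t) / (1 + t)) ≤ a * Fq (x ^ 2) r0 + b * Fq (x ^ 2) r1 := by
    have := mul_le_mul_of_nonneg_left h1 htp.le
    refine this.trans (le_of_eq ?_)
    field_simp
  have h3 := Fq_convX X0 X1 r0 hl0 hm0 hlm
  have h4 := Fq_convX X0 X1 r1 hl0 hm0 hlm
  rw [← hxe] at h3 h4
  have h5 : Fq (x ^ 2) r0 ≤ l * B00 + m * B10 := by
    refine h3.trans (add_le_add ?_ ?_)
    · exact mul_le_mul_of_nonneg_left h00 hl0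
    · exact mul_le_mul_of_nonneg_left h10 hm0
  have h6 : Fq (x ^ 2) r1 ≤ l * B01 + m * B11 := by
    refine h4.trans (add_le_add ?_ ?_)
    · exact mul_le_mul_of_nonneg_left h01 hl0
    · exact mul_le_mul_of_nonneg_left h11 hm0
  have h7 : (1 + t) * Fq (x ^ 2) ((1 - t) / (1 + t)) ≤
      a * (l * B00 + m * B10) + b * (l * B01 + m * B11) :=
    h2.trans (add_le_add (mul_le_mul_of_nonneg_left h5 ha0) (mul_le_mul_of_nonneg_left h6 hb0))
  refine h7.trans (le_of_eq ?_)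
  rw [NL, ev2_add, ev2_mul, ev2_mul]
  simp only [ev2_cons, ev2_nil, ev_cons, ev_nil]
  rw [ha, hb, hl, hm]
  push_cast
  field_simp
  ring

end P226
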