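import Mathlib

/-! P226: common definitions (Gaussian propeller, removal of the smallest cell). -/

open MeasureTheory ProbabilityTheory Set
open scoped RealInnerProductSpace

namespace P226

noncomputable section

/-- one dimensional standard Gaussian density -/
def phi (x : ℝ) : ℝ := (Real.sqrt (2 * Real.pi))⁻¹ * Real.exp (-x ^ 2 / 2)

/-- Gaussian tail `Phibar` -/
def tail (x : ℝ) : ℝ := ∫ t in Ioi x, phi t

/-- `psi = phi - x Phibar` -/
def psi (x : ℝ) : ℝ := phi x - x * tail x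

/-- `f_r(x,T) = ∫_0^T (T-s) exp(x^2 (s - r2 s^2/2)) ds` -/
def fr (x T r2 : ℝ) : ℝ := ∫ s in (0:ℝ)..T, (T - s) * Real.exp (x ^ 2 * (s - r2 * s ^ 2 / 2))

/-- truncated cost: `C n ε x = ∫_{s>0} min((1+ε)s, ((n+1)(x+s)-(1+ε)s)/(n-1)) φ(x+s) ds` -/
def cost (n : ℕ) (ε x : ℝ) : ℝ :=
  ∫ s in Ioi (0:ℝ), min ((1 + ε) * s) ((((n:ℝ) + 1) * (x + s) - (1 + ε) * s) / ((n:ℝ) - 1)) *
    phi (x + s)

section part

variable {E : Type*} [NormedAddCommGroup E] [InnerProductSpace ℝ E] [FiniteDimensional ℝ E]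
  [MeasurableSpace E] [BorelSpace E]

/-- measurable partition of the space -/
structure IsPart {ι : Type*} (A : ι → Set E) : Prop where
  meas : ∀ i, MeasurableSet (A i)
  disj : Pairwise (fun i j => Disjoint (A i) (A j))
  cover : ⋃ i, A i = univ

/-- Gaussian first moment of a set -/
def mom (A : Set E) : E := ∫ x in A, x ∂(stdGaussian E)

end part

/-- The frame seen from the smallest cell. `κ` indexes the other cells,
`w_1 = m e`, `w_l = - ε_l m e + m V_l`. -/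
structure Frame (κ : Type*) [Fintype κ] (E : Type*) [NormedAddCommGroup E]
    [InnerProductSpace ℝ E] where
  e : E
  V : κ → E
  ε : κ → ℝ
  m : ℝ
  norm_e : ‖e‖ = 1
  m_pos : 0 < m
  eps_nonneg : ∀ l, 0 ≤ ε l
  sum_eps : ∑ l, ε l = 1
  V_perp : ∀ l, ⟪V l, e⟫ = 0
  sum_V : ∑ l, V l = 0
  V_neg : ∀ l j, l ≠ j → ⟪V l, V j⟫ < 0
  V_norm : ∀ l, 1 - ε l ^ 2 ≤ ‖V l‖ ^ 2

namespace Frame

variable {κ : Type*} [Fintype κ] [Nonempty κ] {E : Type*} [NormedAddCommGroup E]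
    [InnerProductSpace ℝ E] (F : Frame κ E)

/-- `o_l = 1 + ε_l` -/
def o (l : κ) : ℝ := 1 + F.ε l

/-- `Z_l(y) = ⟪V_l, y⟫` -/
def Z (l : κ) (y : E) : ℝ := ⟪F.V l, y⟫

/-- entry time `τ(y) = max_l Z_l(y)/o_l` -/
def tau (y : E) : ℝ := Finset.univ.sup' Finset.univ_nonempty (fun l => F.Z l y / F.o l)

/-- facet regions (closed; overlaps are null) -/
def B (l : κ) : Set E := {y | F.tau y = F.Z l y / F.o l}

/-- the cell `K = {L_l ≥ 0 ∀ l}`, `L_l(x) = o_l ⟪e,x⟫ - Z_l(x)` (units `m = 1`) -/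
def K : Set E := {x | ∀ l, F.Z l x ≤ F.o l * ⟪F.e, x⟫}

/-- `min_l L_l` -/
def minL (x : E) : ℝ :=
  Finset.univ.inf' Finset.univ_nonempty (fun l => F.o l * ⟪F.e, x⟫ - F.Z l x)

end Frame

/-- A critical frame: what a maximiser with `M_k > M_{k-1}` would give. -/
structure Crit (κ : Type*) [Fintype κ] [Nonempty κ] (E : Type*) [NormedAddCommGroup E]
    [InnerProductSpace ℝ E] [FiniteDimensional ℝ E] [MeasurableSpace E] [BorelSpace E]
    extends Frame κ E where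
  moment_K : ∫ x in toFrame.K, x ∂(stdGaussian E) = m • e
  removal : ((Fintype.card κ : ℝ) + 1) / (2 * (Fintype.card κ : ℝ)) * m <
    ∫ x in toFrame.K, toFrame.minL x ∂(stdGaussian E)

end

end P226
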