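import Vale.Agent.P226_h5.Bridge
import Vale.Agent.P226_h5.Alg

/-! Definitions of the problem statement and transfer to `IsPart`/`mom`. -/

open MeasureTheory ProbabilityTheory Set
open scoped RealInnerProductSpace

namespace P226

theorem zvec_eq_mom {d : ℕ} (A : Set (EuclideanSpace ℝ (Fin d))) : zvec A = mom A := by
  unfold zvec mom
  rw [gaussMeas_eq]

theorem propF_eq {d k : ℕ} (A : Fin k → Set (EuclideanSpace ℝ (Fin d))) :
    propF A = ∑ i, ‖mom (A i)‖ ^ 2 := by
  unfold propF
  simp_rw [zvec_eq_mom]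

theorem IsPart.isPartition {d k : ℕ} {A : Fin k → Set (EuclideanSpace ℝ (Fin d))}
    (hA : IsPart A) : IsPartition A := by
  refine ⟨hA.meas, fun i j hij => ?_, ?_⟩
  · rw [(hA.disj hij).inter_eq, measure_empty]
  · rw [hA.cover, compl_univ, measure_empty]

/-- Every partition up to null sets can be modified on null sets to an exact one. -/
theorem IsPartition.exists_isPart {d k : ℕ} {A : Fin k → Set (EuclideanSpace ℝ (Fin d))}
    (hA : IsPartition A) : ∃ B : Fin k → Set (EuclideanSpace ℝ (Fin d)), IsPart B ∧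
      ∀ i, mom (B i) = mom (A i) := by
  classical
  obtain ⟨hm, hd, hc⟩ := hA
  rw [gaussMeas_eq] at hc
  simp_rw [gaussMeas_eq] at hd
  have hk : 0 < k := by
    rcases Nat.eq_zero_or_pos k with h | h
    · subst h
      simp at hc
    · exact h
  obtain ⟨z⟩ : Nonempty (Fin k) := ⟨⟨0, hk⟩⟩
  -- disjointify
  set D : Fin k → Set (EuclideanSpace ℝ (Fin d)) := fun i => A i \ ⋃ j ∈ {j | j < i}, A j with hD
  set R : Set (EuclideanSpace ℝ (Fin d)) := (⋃ i, A i)ᶜ with hR
  have hRm : MeasurableSet R := (MeasurableSet.iUnion hm).compl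
  have hDm : ∀ i, MeasurableSet (D i) := fun i =>
    (hm i).diff (MeasurableSet.biUnion (to_countable _) fun j _ => hm j)
  have hDA : ∀ i, D i ⊆ A i := fun i => sdiff_subset
  have hDR : ∀ i, Disjoint (D i) R := fun i => by
    rw [Set.disjoint_left]
    intro x hx hxR
    exact hxR (mem_iUnion.2 ⟨i, hDA i hx⟩)
  have hDD : ∀ i j, i ≠ j → Disjoint (D i) (D j) := by
    have key : ∀ i j, i < j → Disjoint (D i) (D j) := by
      intro i j hij
      rw [Set.disjoint_left]
      intro x hx hx2
      exact hx2.2 (mem_biUnion (show i ∈ {l | l < j} from hij) (hDA i hx))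
    intro i j hij
    rcases lt_or_gt_of_ne hij with h | h
    · exact key i j h
    · exact (key j i h).symm
  have hcov : (⋃ i, D i) ∪ R = univ := by
    rw [eq_univ_iff_forall]
    intro x
    by_cases hx : x ∈ R
    · exact Or.inr hx
    · left
      rw [hR, mem_compl_iff, not_not, mem_iUnion] at hx
      have hne : (Finset.univ.filter fun i => x ∈ A i).Nonempty := by
        obtain ⟨i, hi⟩ := hx
        exact ⟨i, by simp [hi]⟩
      obtain ⟨i, hi, hmin⟩ := Finset.exists_min_image _ (fun i : Fin k => i) hne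
      rw [Finset.mem_filter] at hi
      rw [mem_iUnion]
      refine ⟨i, hi.2, ?_⟩
      intro hx2
      obtain ⟨j, hj, hxj⟩ := mem_iUnion₂.1 hx2
      have := hmin j (by simp [hxj])
      exact absurd hj (not_lt.2 this)
  refine ⟨fun i => if i = z then D i ∪ R else D i, ⟨fun i => ?_, fun i j hij => ?_, ?_⟩, fun i => ?_⟩
  · by_cases h : i = z
    · simp only [h, if_true]
      exact (hDm z).union hRm
    · simp only [h, if_false]
      exact hDm i
  · by_cases h : i = z
    · have h' : j ≠ z := fun h' => hij (h.trans h'.symm)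
      simp only [h, if_true, h', if_false]
      exact Disjoint.union_left (hDD z j h'.symm) (hDR j).symm
    · by_cases h' : j = z
      · simp only [h, if_false, h', if_true]
        exact Disjoint.union_right (hDD i z h) (hDR i)
      · simp only [h, if_false, h']
        exact hDD i j hij
  · rw [eq_univ_iff_forall]
    intro x
    have hx : x ∈ (⋃ i, D i) ∪ R := by rw [hcov]; exact mem_univ x
    rw [mem_iUnion]
    rcases hx with hx | hx
    · obtain ⟨i, hi⟩ := mem_iUnion.1 hx
      refine ⟨i, ?_⟩
      by_cases h : i = z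
      · simp only [h, if_true]
        exact Or.inl (h ▸ hi)
      · simp only [h, if_false]
        exact hi
    · refine ⟨z, ?_⟩
      simp only [if_true]
      exact Or.inr hx
  · unfold mom
    apply setIntegral_congr_set
    have hnull : stdGaussian (EuclideanSpace ℝ (Fin d)) (A i \ D i) = 0 := by
      have hsub : A i \ D i ⊆ ⋃ j ∈ {j | j < i}, (A i ∩ A j) := by
        rintro x ⟨hx1, hx2⟩
        have : x ∈ ⋃ j ∈ {j | j < i}, A j := by
          by_contra h
          exact hx2 ⟨hx1, h⟩
        obtain ⟨j, hj, hxj⟩ := mem_iUnion₂.1 this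
        exact mem_biUnion hj ⟨hx1, hxj⟩
      refine measure_mono_null hsub ?_
      rw [measure_biUnion_null_iff (to_countable _)]
      intro j hj
      exact hd i j (ne_of_gt hj)
    have hDi : D i =ᵐ[stdGaussian (EuclideanSpace ℝ (Fin d))] A i := by
      rw [ae_eq_set]
      refine ⟨?_, hnull⟩
      rw [sdiff_eq_empty.2 (hDA i), measure_empty]
    by_cases h : i = z
    · simp only [h, if_true]
      have h0 : R =ᵐ[stdGaussian (EuclideanSpace ℝ (Fin d))] (∅ : Set _) := by
        rw [ae_eq_empty]
        exact hc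
      have := (h ▸ hDi : D z =ᵐ[stdGaussian (EuclideanSpace ℝ (Fin d))] A z).union h0
      rw [union_empty] at this
      exact this
    · simp only [h, if_false]
      exact hDi

/-- If all exact partitions obey the bound, so do all partitions in the sense of the problem. -/
theorem propF_le_of {d k : ℕ} {c : ℝ}
    (h : ∀ B : Fin k → Set (EuclideanSpace ℝ (Fin d)), IsPart B → ∑ i, ‖mom (B i)‖ ^ 2 ≤ c)
    (A : Fin k → Set (EuclideanSpace ℝ (Fin d))) (hA : IsPartition A) : propF A ≤ c := by
  obtain ⟨B, hB, hBA⟩ := hA.exists_isPart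
  have := h B hB
  rw [propF_eq]
  simp_rw [hBA] at this
  exact this

theorem M_eq_of {d k : ℕ} {c : ℝ}
    (h : ∀ B : Fin k → Set (EuclideanSpace ℝ (Fin d)), IsPart B → ∑ i, ‖mom (B i)‖ ^ 2 ≤ c)
    (hex : ∃ B : Fin k → Set (EuclideanSpace ℝ (Fin d)), IsPart B ∧ c ≤ ∑ i, ‖mom (B i)‖ ^ 2) :
    M d k = c := by
  obtain ⟨B, hB, hBc⟩ := hex
  apply le_antisymm
  · apply csSup_le
    · exact ⟨_, B, hB.isPartition, rfl⟩
    · rintro r ⟨A, hA, rfl⟩
      exact propF_le_of h A hA
  · refine hBc.trans ?_
    apply le_csSup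
    · refine ⟨c, ?_⟩
      rintro r ⟨A, hA, rfl⟩
      exact propF_le_of h A hA
    · exact ⟨B, hB.isPartition, (propF_eq B).symm⟩

end P226
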