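import Vale.Agent.P226_h5.Three

open MeasureTheory ProbabilityTheory Set
open scoped RealInnerProductSpace

namespace P226

set_option linter.unusedSectionVars false

section

variable {E : Type*} [NormedAddCommGroup E] [InnerProductSpace ℝ E] [FiniteDimensional ℝ E]
  [MeasurableSpace E] [BorelSpace E]

theorem lo_integral_max (a b c : E) :
    ∫ x, max (max ⟪a, x⟫ ⟪b, x⟫) ⟪c, x⟫ ∂(stdGaussian E) =
      phi 0 * (‖a - b‖ + ‖b - c‖ + ‖c - a‖) / 2 := by
  obtain ⟨M, hM⟩ : ∃ M : E → ℝ, M = fun x => max (max ⟪a, x⟫ ⟪b, x⟫) ⟪c, x⟫ := ⟨_, rfl⟩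
  have hMi : Integrable M (stdGaussian E) := by
    rw [hM]
    exact ((th_integrable_inner a).sup (th_integrable_inner b)).sup (th_integrable_inner c)
  have h1 : ∫ x, (M x + M (-x)) ∂(stdGaussian E) = 2 * ∫ x, M x ∂(stdGaussian E) := by
    have hMn : Integrable (fun x => M (-x)) (stdGaussian E) := by
      have : (fun x => M (-x)) = fun x : E => max (max ⟪-a, x⟫ ⟪-b, x⟫) ⟪-c, x⟫ := by
        funext x
        simp only [hM, inner_neg_right, inner_neg_left]
      rw [this]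
      exact ((th_integrable_inner (-a)).sup (th_integrable_inner (-b))).sup
        (th_integrable_inner (-c))
    rw [integral_add hMi hMn, th_integral_neg]
    ring
  have h2 : ∀ x, M x + M (-x) = (|⟪a - b, x⟫| + |⟪b - c, x⟫| + |⟪c - a, x⟫|) / 2 := by
    intro x
    simp only [hM, inner_neg_right, inner_sub_left]
    exact th_max_id _ _ _
  have hi : ∀ v : E, Integrable (fun x => |⟪v, x⟫|) (stdGaussian E) :=
    fun v => (th_integrable_inner v).abs
  simp_rw [h2] at h1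
  have ha : ∫ x, (|⟪a - b, x⟫| + |⟪b - c, x⟫| + |⟪c - a, x⟫|) ∂(stdGaussian E) =
      (∫ x, (|⟪a - b, x⟫| + |⟪b - c, x⟫|) ∂(stdGaussian E)) +
        ∫ x, |⟪c - a, x⟫| ∂(stdGaussian E) :=
    integral_add ((hi _).add (hi _)) (hi _)
  have hb : ∫ x, (|⟪a - b, x⟫| + |⟪b - c, x⟫|) ∂(stdGaussian E) =
      (∫ x, |⟪a - b, x⟫| ∂(stdGaussian E)) + ∫ x, |⟪b - c, x⟫| ∂(stdGaussian E) :=
    integral_add (hi _) (hi _)
  rw [integral_div, ha, hb,
    th_integral_abs_inner, th_integral_abs_inner, th_integral_abs_inner] at h1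
  have h3 : ∫ x, M x ∂(stdGaussian E) = phi 0 * (‖a - b‖ + ‖b - c‖ + ‖c - a‖) / 2 := by
    linarith
  rw [hM] at h3
  exact h3

/-- three orthonormal-type directions at 120 degrees give the propeller value -/
theorem lo_three (e f : E) (he : ‖e‖ = 1) (hf : ‖f‖ = 1) (hef : ⟪e, f⟫ = (0:ℝ)) :
    ∃ A : Fin 3 → Set E, IsPart A ∧ 9 / (8 * Real.pi) ≤ ∑ i, ‖mom (A i)‖ ^ 2 := by
  obtain ⟨s, hs⟩ : ∃ s : ℝ, s = Real.sqrt 3 := ⟨_, rfl⟩
  have hs2 : s ^ 2 = 3 := by rw [hs]; exact Real.sq_sqrt (by norm_num)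
  have hs0 : 0 ≤ s := by rw [hs]; exact Real.sqrt_nonneg _
  obtain ⟨a, ha⟩ : ∃ a : E, a = e := ⟨_, rfl⟩
  obtain ⟨b, hb⟩ : ∃ b : E, b = (-(1/2) : ℝ) • e + (s / 2) • f := ⟨_, rfl⟩
  obtain ⟨c, hc⟩ : ∃ c : E, c = (-(1/2) : ℝ) • e - (s / 2) • f := ⟨_, rfl⟩
  have hee : ⟪e, e⟫ = (1:ℝ) := by rw [real_inner_self_eq_norm_sq, he]; norm_num
  have hff : ⟪f, f⟫ = (1:ℝ) := by rw [real_inner_self_eq_norm_sq, hf]; norm_num
  have hfe : ⟪f, e⟫ = (0:ℝ) := by rw [real_inner_comm]; exact hef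
  have naa : ‖a‖ ^ 2 = 1 := by rw [ha, he]; norm_num
  have nbb : ‖b‖ ^ 2 = 1 := by
    rw [hb, ← real_inner_self_eq_norm_sq]
    simp only [inner_add_left, inner_add_right, real_inner_smul_left, real_inner_smul_right,
      hee, hff, hef, hfe]
    nlinarith
  have ncc : ‖c‖ ^ 2 = 1 := by
    rw [hc, ← real_inner_self_eq_norm_sq]
    simp only [inner_sub_left, inner_sub_right, real_inner_smul_left, real_inner_smul_right,
      hee, hff, hef, hfe]
    nlinarith
  have key : ∀ v : E, ‖v‖ ^ 2 = 3 → ‖v‖ = s := by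
    intro v hv
    have h0 := norm_nonneg v
    nlinarith [sq_nonneg (‖v‖ - s), sq_nonneg (‖v‖ + s)]
  have nab : ‖a - b‖ = s := by
    apply key
    rw [ha, hb, ← real_inner_self_eq_norm_sq]
    simp only [inner_sub_left, inner_sub_right, inner_add_left, inner_add_right,
      real_inner_smul_left, real_inner_smul_right, hee, hff, hef, hfe]
    nlinarith
  have nbc : ‖b - c‖ = s := by
    apply key
    rw [hb, hc, ← real_inner_self_eq_norm_sq]
    simp only [inner_sub_left, inner_sub_right, inner_add_left, inner_add_right,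
      real_inner_smul_left, real_inner_smul_right, hee, hff, hef, hfe]
    nlinarith
  have nca : ‖c - a‖ = s := by
    apply key
    rw [ha, hc, ← real_inner_self_eq_norm_sq]
    simp only [inner_sub_left, inner_sub_right, inner_add_left, inner_add_right,
      real_inner_smul_left, real_inner_smul_right, hee, hff, hef, hfe]
    nlinarith
  obtain ⟨W, hW⟩ : ∃ W : Fin 3 → E, W = ![a, b, c] := ⟨_, rfl⟩
  obtain ⟨A, hAm, hAd, hAu, hAmax⟩ := exists_argmax_part W (MeasurableSet.univ (α := E))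
  refine ⟨A, ⟨hAm, hAd, hAu⟩, ?_⟩
  have hMi : Integrable (fun x : E => max (max ⟪a, x⟫ ⟪b, x⟫) ⟪c, x⟫) (stdGaussian E) :=
    ((th_integrable_inner a).sup (th_integrable_inner b)).sup (th_integrable_inner c)
  have hsum : ∑ i, ⟪W i, mom (A i)⟫ =
      ∫ x, max (max ⟪a, x⟫ ⟪b, x⟫) ⟪c, x⟫ ∂(stdGaussian E) := by
    rw [← setIntegral_univ (f := fun x : E => max (max ⟪a, x⟫ ⟪b, x⟫) ⟪c, x⟫), ← hAu,
      integral_iUnion_fintype hAm hAd (fun i => hMi.integrableOn)]
    refine Finset.sum_congr rfl fun i _ => ?_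
    rw [inner_mom]
    refine setIntegral_congr_fun (hAm i) fun x hx => ?_
    have h := hAmax i x hx
    have h0 := h 0
    have h1 := h 1
    have h2 := h 2
    simp only [hW, Matrix.cons_val_zero, Matrix.cons_val_one, Matrix.cons_val] at h0 h1 h2
    have hle : max (max ⟪a, x⟫ ⟪b, x⟫) ⟪c, x⟫ ≤ ⟪W i, x⟫ := by
      rw [hW]
      exact max_le (max_le h0 h1) h2
    refine le_antisymm ?_ hle
    rw [hW]
    fin_cases i
    · exact (le_max_left _ _).trans (le_max_left _ _)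
    · exact (le_max_right _ _).trans (le_max_left _ _)
    · exact le_max_right _ _
  rw [lo_integral_max, nab, nbc, nca] at hsum
  have hcs : (∑ i, ⟪W i, mom (A i)⟫) ^ 2 ≤ (∑ i, ‖W i‖ ^ 2) * ∑ i, ‖mom (A i)‖ ^ 2 := by
    have h1 : |∑ i, ⟪W i, mom (A i)⟫| ≤ ∑ i, ‖W i‖ * ‖mom (A i)‖ :=
      (Finset.abs_sum_le_sum_abs _ _).trans
        (Finset.sum_le_sum fun i _ => abs_real_inner_le_norm _ _)
    have h2 := Finset.sum_mul_sq_le_sq_mul_sq Finset.univ (fun i => ‖W i‖)
      (fun i => ‖mom (A i)‖)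
    have h3 : (∑ i, ⟪W i, mom (A i)⟫) ^ 2 ≤ (∑ i, ‖W i‖ * ‖mom (A i)‖) ^ 2 := by
      rw [← sq_abs]
      exact pow_le_pow_left₀ (abs_nonneg _) h1 2
    exact h3.trans h2
  have hWn : ∑ i, ‖W i‖ ^ 2 = 3 := by
    rw [Fin.sum_univ_three, hW]
    simp only [Matrix.cons_val_zero, Matrix.cons_val_one, Matrix.cons_val]
    rw [naa, nbb, ncc]
    norm_num
  rw [hsum, hWn] at hcs
  have hphi : phi 0 ^ 2 = 1 / (2 * Real.pi) := by
    unfold phi
    have hpi := Real.pi_pos
    simp only [ne_eq, OfNat.ofNat_ne_zero, not_false_eq_true, zero_pow, neg_zero, zero_div,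
      Real.exp_zero, mul_one]
    rw [inv_pow, Real.sq_sqrt (by positivity)]
    ring
  have h1 : (phi 0 * (s + s + s) / 2) ^ 2 = 3 * (9 / (8 * Real.pi)) := by
    have : (phi 0 * (s + s + s) / 2) ^ 2 = phi 0 ^ 2 * (9 * s ^ 2) / 4 := by ring
    rw [this, hphi, hs2]
    have := Real.pi_pos
    field_simp
    ring
  rw [h1] at hcs
  linarith

end

/-- The propeller: a partition of `ℝ^d` into `k ≥ 3` cells with value at least `9/(8π)`. -/
theorem propeller_lower (d k : ℕ) (hd : 2 ≤ d) (hk : 3 ≤ k) :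
    ∃ A : Fin k → Set (EuclideanSpace ℝ (Fin d)), IsPart A ∧
      9 / (8 * Real.pi) ≤ ∑ i, ‖mom (A i)‖ ^ 2 := by
  obtain ⟨m, rfl⟩ := Nat.exists_eq_add_of_le hk
  let i0 : Fin d := ⟨0, by omega⟩
  let i1 : Fin d := ⟨1, by omega⟩
  obtain ⟨A, hA, hF⟩ := lo_three (EuclideanSpace.single i0 (1:ℝ)) (EuclideanSpace.single i1 (1:ℝ))
    (by simp) (by simp) (by
      have : i0 ≠ i1 := by simp [i0, i1]
      simp [EuclideanSpace.inner_single_left, this])
  refine ⟨Fin.append A (fun _ : Fin m => ∅), ⟨?_, ?_, ?_⟩, ?_⟩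
  · intro i
    refine Fin.addCases (fun i => ?_) (fun i => ?_) i
    · rw [Fin.append_left]; exact hA.meas i
    · rw [Fin.append_right]; exact MeasurableSet.empty
  · intro i j
    refine Fin.addCases (fun i => ?_) (fun i => ?_) i
    · refine Fin.addCases (fun j => ?_) (fun j => ?_) j
      · intro hij
        simp only [Fin.append_left]
        exact hA.disj (fun h => hij (by rw [h]))
      · intro _
        simp only [Fin.append_right]
        exact disjoint_bot_right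
    · intro _
      simp only [Fin.append_right]
      exact disjoint_bot_left
  · rw [eq_univ_iff_forall]
    intro x
    have hx : x ∈ ⋃ i, A i := by rw [hA.cover]; trivial
    obtain ⟨i, hi⟩ := mem_iUnion.1 hx
    refine mem_iUnion.2 ⟨Fin.castAdd m i, ?_⟩
    rw [Fin.append_left]
    exact hi
  · rw [Fin.sum_univ_add]
    simp only [Fin.append_left, Fin.append_right]
    have : mom (∅ : Set (EuclideanSpace ℝ (Fin d))) = 0 := by simp [mom]
    rw [this]
    simpa using hF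

end P226
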