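import Vale.Agent.P226_h5.Step
import Vale.Agent.P226_h5.Final

/-! P226: consequences of the step `n + 1 → n` cells, `n ≥ 6`. -/

open MeasureTheory ProbabilityTheory Set
open scoped RealInnerProductSpace

namespace P226

variable {E : Type*} [NormedAddCommGroup E] [InnerProductSpace ℝ E] [FiniteDimensional ℝ E]
  [MeasurableSpace E] [BorelSpace E]

/-- Adding empty cells. -/
theorem pad_part {k m : ℕ} (hkm : k ≤ m) (A : Fin k → Set E) (hA : IsPart A) :
    ∃ B : Fin m → Set E, IsPart B ∧ ∑ i, ‖mom (A i)‖ ^ 2 = ∑ i, ‖mom (B i)‖ ^ 2 := by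
  induction m, hkm using Nat.le_induction with
  | base => exact ⟨A, hA, rfl⟩
  | succ m hm ih =>
    obtain ⟨B, hB, h⟩ := ih
    refine ⟨Fin.snoc (α := fun _ => Set E) B ∅, ⟨?_, ?_, ?_⟩, ?_⟩
    · intro i
      refine Fin.lastCases ?_ (fun j => ?_) i
      · rw [Fin.snoc_last]; exact MeasurableSet.empty
      · rw [Fin.snoc_castSucc]; exact hB.meas j
    · intro i
      refine Fin.lastCases ?_ (fun i' => ?_) i
      · intro j _
        change Disjoint (Fin.snoc (α := fun _ => Set E) B ∅ (Fin.last m)) _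
        rw [Fin.snoc_last]
        exact empty_disjoint _
      · intro j
        refine Fin.lastCases ?_ (fun j' => ?_) j
        · intro _
          change Disjoint _ (Fin.snoc (α := fun _ => Set E) B ∅ (Fin.last m))
          rw [Fin.snoc_last]
          exact disjoint_empty _
        · intro hij
          change Disjoint (Fin.snoc (α := fun _ => Set E) B ∅ (Fin.castSucc i'))
            (Fin.snoc (α := fun _ => Set E) B ∅ (Fin.castSucc j'))
          rw [Fin.snoc_castSucc, Fin.snoc_castSucc]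
          exact hB.disj fun h => hij (by rw [h])
    · rw [eq_univ_iff_forall]
      intro x
      obtain ⟨i, hi⟩ := mem_iUnion.1 ((eq_univ_iff_forall.1 hB.cover) x)
      refine mem_iUnion.2 ⟨Fin.castSucc i, ?_⟩
      rw [Fin.snoc_castSucc]
      exact hi
    · rw [Fin.sum_univ_castSucc]
      simp only [Fin.snoc_castSucc, Fin.snoc_last]
      have : mom (∅ : Set E) = 0 := by simp [mom]
      rw [this, h]
      simp

/-- The inequality for six cells implies it for any number of cells. -/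
theorem all_of_six
    (h6 : ∀ A : Fin 6 → Set E, IsPart A → ∑ i, ‖mom (A i)‖ ^ 2 ≤ 9 / (8 * Real.pi))
    (k : ℕ) (A : Fin k → Set E) (hA : IsPart A) : ∑ i, ‖mom (A i)‖ ^ 2 ≤ 9 / (8 * Real.pi) := by
  rcases le_total k 6 with hk6 | hk6
  · obtain ⟨B, hB, h⟩ := pad_part hk6 A hA
    rw [h]
    exact h6 B hB
  · obtain ⟨B, hB, h⟩ := reduce_to_six k hk6 A hA
    exact h.trans (h6 B hB)

theorem bdd_propF (d : ℕ) : BddAbove {r : ℝ | ∃ A : Fin 6 → Set (EuclideanSpace ℝ (Fin d)),
    IsPartition A ∧ r = propF A} := by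
  obtain ⟨w, A, -, -, -, hopt⟩ := exists_opt (E := EuclideanSpace ℝ (Fin d)) 6 (by norm_num)
  refine ⟨∑ i, ‖w i‖ ^ 2, ?_⟩
  rintro r ⟨B, hB, rfl⟩
  exact propF_le_of (fun B hB => hopt B hB) B hB

theorem exists_six {d k : ℕ} (hk : 6 ≤ k) (A : Fin k → Set (EuclideanSpace ℝ (Fin d)))
    (hA : IsPartition A) :
    ∃ B : Fin 6 → Set (EuclideanSpace ℝ (Fin d)), IsPartition B ∧ propF A ≤ propF B := by
  obtain ⟨A', hA', hmom⟩ := hA.exists_isPart
  obtain ⟨B, hB, h⟩ := reduce_to_six k hk A' hA'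
  refine ⟨B, hB.isPartition, ?_⟩
  rw [propF_eq, propF_eq]
  simp_rw [hmom] at h
  exact h

theorem M_eq_six (d k : ℕ) (hk : 6 ≤ k) : M d k = M d 6 := by
  obtain ⟨w, A, hA, hw, -, hopt⟩ := exists_opt (E := EuclideanSpace ℝ (Fin d)) 6 (by norm_num)
  have h6 : M d 6 = ∑ i, ‖w i‖ ^ 2 := by
    apply M_eq_of hopt
    exact ⟨A, hA, le_of_eq (by simp_rw [hw])⟩
  rw [h6]
  apply M_eq_of
  · intro B hB
    obtain ⟨B', hB', h⟩ := reduce_to_six k hk B hB
    exact h.trans (hopt B' hB')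
  · obtain ⟨B, hB, h⟩ := pad_part hk A hA
    refine ⟨B, hB, ?_⟩
    rw [← h]
    simp_rw [hw]
    exact le_rfl

end P226
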