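import Vale.Agent.P226_h16.Asm
import Vale.Agent.P226_h5.ReduceSix
import Vale.Agent.P226_h5.Lower

/-! P226: the full statement. -/

open MeasureTheory ProbabilityTheory Set
open scoped RealInnerProductSpace

namespace P226

variable {E : Type*} [NormedAddCommGroup E] [InnerProductSpace ℝ E] [FiniteDimensional ℝ E]
  [MeasurableSpace E] [BorelSpace E]

theorem all_le (k : ℕ) (A : Fin k → Set E) (hA : IsPart A) :
    ∑ i, ‖mom (A i)‖ ^ 2 ≤ 9 / (8 * Real.pi) :=
  all_of_six (fun A hA => k6_le A hA) k A hA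

theorem propF_le {d k : ℕ} (A : Fin k → Set (EuclideanSpace ℝ (Fin d))) (hA : IsPartition A) :
    propF A ≤ 9 / (8 * Real.pi) :=
  propF_le_of (fun B hB => all_le k B hB) A hA

theorem M_eq {d k : ℕ} (hd : 2 ≤ d) (hk : 3 ≤ k) : M d k = 9 / (8 * Real.pi) :=
  M_eq_of (fun B hB => all_le k B hB) (propeller_lower d k hd hk)

theorem propF_attained {d k : ℕ} (hd : 2 ≤ d) (hk : 3 ≤ k) :
    ∃ A : Fin k → Set (EuclideanSpace ℝ (Fin d)), IsPartition A ∧
      propF A = 9 / (8 * Real.pi) := by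
  obtain ⟨A, hA, h⟩ := propeller_lower d k hd hk
  refine ⟨A, hA.isPartition, le_antisymm (propF_le A hA.isPartition) ?_⟩
  rw [propF_eq]
  exact h

end P226
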