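import Vale.Agent.P226_h5.OneD
import Vale.Agent.P226_h5.Tau

open MeasureTheory ProbabilityTheory Set
open scoped RealInnerProductSpace

namespace P226

set_option linter.unusedSectionVars false
set_option linter.style.haveILetI false

theorem J_eq (A d : ℝ) (hd : 0 ≤ d) :
    ∫ u in (-(A * d))..d, (A * d + u) * phi u = phi d * d ^ 2 * fr d (1 + A) 1 := by
  rcases eq_or_lt_of_le hd with h0 | h0
  · subst_vars
    simp
  · have h1 := intervalIntegral.integral_comp_sub_mul (a := 0) (b := 1 + A)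
      (f := fun u => (A * d + u) * phi u) h0.ne' d
    have e1 : d - d * (1 + A) = -(A * d) := by ring
    have e2 : d - d * 0 = d := by ring
    rw [e1, e2] at h1
    have h2 : ∫ u in (-(A * d))..d, (A * d + u) * phi u =
        d * ∫ s in (0:ℝ)..(1 + A), (A * d + (d - d * s)) * phi (d - d * s) := by
      rw [h1, smul_eq_mul, ← mul_assoc, mul_inv_cancel₀ h0.ne', one_mul]
    rw [h2]
    have h3 : ∀ s : ℝ, (A * d + (d - d * s)) * phi (d - d * s) =
        (phi d * d) * ((1 + A - s) * Real.exp (d ^ 2 * (s - 1 * s ^ 2 / 2))) := by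
      intro s
      have : phi (d - d * s) = phi d * Real.exp (d ^ 2 * (s - 1 * s ^ 2 / 2)) := by
        unfold phi
        rw [mul_assoc, ← Real.exp_add]
        congr 2
        ring
      rw [this]
      ring
    simp_rw [h3]
    rw [intervalIntegral.integral_const_mul]
    unfold fr
    ring

theorem continuous_fr_comp (r2 : ℝ) : Continuous (fun p : ℝ × ℝ => fr p.1 p.2 r2) := by
  unfold fr
  apply intervalIntegral.continuous_parametric_intervalIntegral_of_continuous
    (f := fun (p : ℝ × ℝ) (s : ℝ) => (p.2 - s) * Real.exp (p.1 ^ 2 * (s - r2 * s ^ 2 / 2)))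
  · change Continuous (fun q : (ℝ × ℝ) × ℝ =>
      (q.1.2 - q.2) * Real.exp (q.1.1 ^ 2 * (q.2 - r2 * q.2 ^ 2 / 2)))
    fun_prop
  · exact continuous_snd

theorem fr_nonneg (x T r2 : ℝ) (hT : 0 ≤ T) : 0 ≤ fr x T r2 := by
  unfold fr
  apply intervalIntegral.integral_nonneg hT
  intro s hs
  exact mul_nonneg (sub_nonneg.2 hs.2) (Real.exp_pos _).le

variable {E : Type*} [NormedAddCommGroup E] [InnerProductSpace ℝ E] [FiniteDimensional ℝ E]
  [MeasurableSpace E] [BorelSpace E] {κ : Type*} [Fintype κ] [Nonempty κ]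

section geom

variable (F : Frame κ E) (h2 : 2 ≤ Fintype.card κ) (l : κ)

/-- the unit vector in direction `V_l` -/
noncomputable def gv (F : Frame κ E) (l : κ) : E := (‖F.V l‖)⁻¹ • F.V l

theorem norm_V_pos (F : Frame κ E) (h2 : 2 ≤ Fintype.card κ) (l : κ) : 0 < ‖F.V l‖ :=
  norm_pos_iff.2 (V_ne_zero F h2 l)

theorem norm_gv (F : Frame κ E) (h2 : 2 ≤ Fintype.card κ) (l : κ) : ‖gv F l‖ = 1 := by
  unfold gv
  rw [norm_smul, norm_inv, norm_norm, inv_mul_cancel₀ (norm_V_pos F h2 l).ne']

/-- the point of the fibre -/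
noncomputable def gp (F : Frame κ E) (l : κ) (u : ℝ) (y : E) : E :=
  u • gv F l + (y - ⟪gv F l, y⟫ • gv F l)

theorem continuous_gp (F : Frame κ E) (l : κ) :
    Continuous (fun p : ℝ × E => gp F l p.1 p.2) := by
  unfold gp
  fun_prop

theorem continuous_gp_left (F : Frame κ E) (l : κ) (y : E) :
    Continuous (fun u : ℝ => gp F l u y) := by
  unfold gp
  fun_prop

theorem inner_V_gv (F : Frame κ E) (h2 : 2 ≤ Fintype.card κ) (l : κ) :
    ⟪F.V l, gv F l⟫ = ‖F.V l‖ := by
  unfold gv
  rw [real_inner_smul_right, real_inner_self_eq_norm_sq, pow_two, ← mul_assoc,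
    inv_mul_cancel₀ (norm_V_pos F h2 l).ne', one_mul]

theorem Z_gp (F : Frame κ E) (h2 : 2 ≤ Fintype.card κ) (l : κ) (u : ℝ) (y : E) :
    F.Z l (gp F l u y) = ‖F.V l‖ * u := by
  unfold Frame.Z gp
  rw [inner_add_right, inner_sub_right, real_inner_smul_right, real_inner_smul_right,
    inner_V_gv F h2 l]
  have : ⟪F.V l, y⟫ = ‖F.V l‖ * ⟪gv F l, y⟫ := by
    unfold gv
    rw [real_inner_smul_left, ← mul_assoc, mul_inv_cancel₀ (norm_V_pos F h2 l).ne', one_mul]
  rw [this]
  ring

theorem Z_gp_anti (F : Frame κ E) {l j : κ} (hj : j ≠ l) {u u' : ℝ}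
    (huu : u ≤ u') (y : E) : F.Z j (gp F l u' y) ≤ F.Z j (gp F l u y) := by
  unfold Frame.Z gp
  rw [inner_add_right, inner_add_right, real_inner_smul_right, real_inner_smul_right]
  have h : ⟪F.V j, gv F l⟫ ≤ 0 := by
    unfold gv
    rw [real_inner_smul_right]
    exact mul_nonpos_of_nonneg_of_nonpos (inv_nonneg.2 (norm_nonneg _)) (F.V_neg j l hj).le
  nlinarith [mul_nonneg (sub_nonneg.2 huu) (neg_nonneg.2 h)]

theorem rho_pos (F : Frame κ E) (h2 : 2 ≤ Fintype.card κ) (l : κ) : 0 < F.o l / ‖F.V l‖ :=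
  div_pos (o_pos F l) (norm_V_pos F h2 l)

theorem u_lt_of_tau_lt (F : Frame κ E) (h2 : 2 ≤ Fintype.card κ) (l : κ) {u t : ℝ} {y : E}
    (h : F.tau (gp F l u y) < t) : u < F.o l / ‖F.V l‖ * t := by
  have h1 := (tau_lt_iff F _ t).1 h l
  rw [Z_gp F h2] at h1
  rw [div_mul_eq_mul_div, lt_div_iff₀ (norm_V_pos F h2 l)]
  linarith

/-- if the fibre meets `{τ < t}` then its end point is on the facet region -/
theorem mem_B_of_tau_lt (F : Frame κ E) (h2 : 2 ≤ Fintype.card κ) (l : κ) {u t : ℝ} {y : E}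
    (h : F.tau (gp F l u y) < t) : gp F l (F.o l / ‖F.V l‖ * t) y ∈ F.B l := by
  have hu := u_lt_of_tau_lt F h2 l h
  rw [mem_B_iff']
  have h3 : F.Z l (gp F l (F.o l / ‖F.V l‖ * t) y) / F.o l = t := by
    rw [Z_gp F h2]
    have := (norm_V_pos F h2 l).ne'
    have := (o_pos F l).ne'
    field_simp
  intro j
  rw [h3]
  by_cases hj : j = l
  · subst hj
    exact h3.le
  · have h4 := Z_gp_anti F hj hu.le y
    have h5 := (tau_lt_iff F _ t).1 h j
    rw [div_le_iff₀ (o_pos F j)]
    linarith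

theorem tau_of_mem_B (F : Frame κ E) (h2 : 2 ≤ Fintype.card κ) (l : κ) {t : ℝ} {y : E}
    (h : gp F l (F.o l / ‖F.V l‖ * t) y ∈ F.B l) :
    F.tau (gp F l (F.o l / ‖F.V l‖ * t) y) = t := by
  have h1 := (mem_B_iff F l _).1 h
  rw [Z_gp F h2] at h1
  have h3 := (norm_V_pos F h2 l).ne'
  have h4 := (o_pos F l).ne'
  have h5 : ‖F.V l‖ * (F.o l / ‖F.V l‖ * t) = F.o l * t := by field_simp
  rw [h5] at h1
  exact (mul_left_cancel₀ h4 h1).symm

end geom

/-- the truncated integrand -/
noncomputable def gPhi (F : Frame κ E) (l : κ) (g A : ℝ → ℝ) (y : E) (t : ℝ) : ℝ :=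
  (Ioi (F.tau y)).indicator (fun t => g t * (A t * F.o l + F.Z l y / t)) t

theorem gPhi_bound (F : Frame κ E) (l : κ) (g A : ℝ → ℝ) {G Ab : ℝ}
    (hg0 : ∀ t, 0 ≤ g t) (hgb : ∀ t, g t ≤ G) (hA1 : ∀ t, -1 ≤ A t) (hAb : ∀ t, A t ≤ Ab)
    (y : E) (t : ℝ) : |gPhi F l g A y t| ≤ G * ((1 + |Ab|) * 2 + ((Fintype.card κ : ℝ) + 2)) := by
  have hG : 0 ≤ G := (hg0 0).trans (hgb 0)
  unfold gPhi
  by_cases ht : t ∈ Ioi (F.tau y)
  · rw [indicator_of_mem ht]
    have ht' : F.tau y < t := ht
    have htau := tau_nonneg F y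
    have htpos : 0 < t := by linarith
    rw [abs_mul, abs_of_nonneg (hg0 t)]
    apply mul_le_mul (hgb t) _ (abs_nonneg _) hG
    refine (abs_add_le _ _).trans (add_le_add ?_ ?_)
    · rw [abs_mul]
      apply mul_le_mul _ _ (abs_nonneg _) (by positivity)
      · rw [abs_le]
        constructor
        · have := hA1 t
          have := abs_nonneg Ab
          linarith
        · have := hAb t
          have := le_abs_self Ab
          linarith
      · rw [abs_of_pos (o_pos F l)]
        exact o_le_two F l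
    · rw [abs_div, abs_of_pos htpos, div_le_iff₀ htpos]
      have hn : (0:ℝ) ≤ (Fintype.card κ : ℝ) := by positivity
      rw [abs_le]
      constructor
      · have := neg_le_Z F l y
        nlinarith
      · have h1 := Z_le F l y
        have h3 := o_le_two F l
        nlinarith
  · rw [indicator_of_notMem ht, abs_zero]
    positivity

theorem measurable_gPhi (F : Frame κ E) (l : κ) (g A : ℝ → ℝ) (hg : Measurable g)
    (hA : Measurable A) : Measurable (fun p : E × ℝ => gPhi F l g A p.1 p.2) := by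
  have h : (fun p : E × ℝ => gPhi F l g A p.1 p.2) =
      {p : E × ℝ | F.tau p.1 < p.2}.indicator
        (fun p => g p.2 * (A p.2 * F.o l + F.Z l p.1 / p.2)) := by
    ext p
    unfold gPhi
    by_cases hp : F.tau p.1 < p.2
    · rw [indicator_of_mem (show p.2 ∈ Ioi (F.tau p.1) from hp), indicator_of_mem (show p ∈ _ from hp)]
    · rw [indicator_of_notMem (show p.2 ∉ Ioi (F.tau p.1) from hp),
        indicator_of_notMem (show p ∉ {p : E × ℝ | F.tau p.1 < p.2} from hp)]
  rw [h]
  apply Measurable.indicator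
  · have hZ : Measurable (fun p : E × ℝ => F.Z l p.1) := (continuous_Z F l).measurable.comp measurable_fst
    have hg' : Measurable (fun p : E × ℝ => g p.2) := hg.comp measurable_snd
    have hA' : Measurable (fun p : E × ℝ => A p.2) := hA.comp measurable_snd
    exact hg'.mul ((hA'.mul_const _).add (hZ.div measurable_snd))
  · exact measurableSet_lt ((measurable_tau F).comp measurable_fst) measurable_snd

/-- the facet integrand -/
noncomputable def gPsi (F : Frame κ E) (l : κ) (g A : ℝ → ℝ) (y : E) (t : ℝ) : ℝ :=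
  (F.B l).indicator (fun _ => F.o l * (F.o l / ‖F.V l‖) * (t * g t) * phi (F.o l / ‖F.V l‖ * t) *
    fr (F.o l / ‖F.V l‖ * t) (1 + A t) 1) (gp F l (F.o l / ‖F.V l‖ * t) y)

theorem measurable_fr_comp {a b : ℝ → ℝ} (ha : Measurable a) (hb : Measurable b) (r2 : ℝ) :
    Measurable (fun t => fr (a t) (b t) r2) :=
  (continuous_fr_comp r2).measurable.comp (ha.prodMk hb)

theorem fr_bound (X Tm : ℝ) : ∃ Cb, 0 ≤ Cb ∧ ∀ x ∈ Icc (0:ℝ) X, ∀ T ∈ Icc (0:ℝ) Tm,
    |fr x T 1| ≤ Cb := by
  have hc : IsCompact (Icc (0:ℝ) X ×ˢ Icc (0:ℝ) Tm) := isCompact_Icc.prod isCompact_Icc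
  obtain ⟨Cb, hCb⟩ := hc.exists_bound_of_continuousOn (f := fun p : ℝ × ℝ => fr p.1 p.2 1)
    (continuous_fr_comp 1).continuousOn
  refine ⟨|Cb|, abs_nonneg _, fun x hx T hT => ?_⟩
  have := hCb (x, T) ⟨hx, hT⟩
  rw [Real.norm_eq_abs] at this
  exact this.trans (le_abs_self _)

theorem integrable_fibre (F : Frame κ E) (l : κ) (g A : ℝ → ℝ)
    {G Ab : ℝ} (hg0 : ∀ t, 0 ≤ g t) (hgb : ∀ t, g t ≤ G) (hg : Measurable g) (hA : Measurable A)
    (hA1 : ∀ t, -1 ≤ A t) (hAb : ∀ t, A t ≤ Ab) (y : E) (t : ℝ) :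
    Integrable (fun u => gPhi F l g A (gp F l u y) t * phi u) := by
  have h1 : Measurable (fun u : ℝ => ((gp F l u y, t) : E × ℝ)) :=
    (continuous_gp_left F l y).measurable.prodMk measurable_const
  have h0 := (measurable_gPhi F l g A hg hA).comp h1
  have hm : Measurable (fun u => gPhi F l g A (gp F l u y) t) := h0
  have hm2 : Measurable (fun u => gPhi F l g A (gp F l u y) t * phi u) := hm.mul measurable_phi
  have hb : ∀ u, ‖gPhi F l g A (gp F l u y) t * phi u‖ ≤
      (G * ((1 + |Ab|) * 2 + ((Fintype.card κ : ℝ) + 2))) * phi u := by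
    intro u
    rw [Real.norm_eq_abs, abs_mul, abs_of_pos (phi_pos u)]
    exact mul_le_mul_of_nonneg_right (gPhi_bound F l g A hg0 hgb hA1 hAb _ _) (phi_nonneg u)
  exact (integrable_phi.const_mul (G * ((1 + |Ab|) * 2 + ((Fintype.card κ : ℝ) + 2)))).mono'
    hm2.aestronglyMeasurable (Filter.Eventually.of_forall hb)

theorem integrable_J (a b c : ℝ) :
    Integrable (fun u => (Ioc a b).indicator (fun u => (c + u) * phi u) u) := by
  rw [integrable_indicator_iff measurableSet_Ioc]
  have hcont : Continuous (fun u => (c + u) * phi u) :=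
    (continuous_const.add continuous_id).mul continuous_phi
  exact (hcont.continuousOn.integrableOn_compact isCompact_Icc).mono_set Ioc_subset_Icc_self

theorem fibre_pt (F : Frame κ E) (h2 : 2 ≤ Fintype.card κ) (l : κ) (g A : ℝ → ℝ)
    (hg0 : ∀ t, 0 ≤ g t) (y : E) {t : ℝ} (ht : 0 < t)
    {ρ c ind : ℝ} (hρ : ρ = F.o l / ‖F.V l‖) (hc : c = g t * (‖F.V l‖ / t))
    (hind : ind = (F.B l).indicator (fun _ => (1:ℝ)) (gp F l (ρ * t) y)) (u : ℝ) :
    gPhi F l g A (gp F l u y) t * phi u ≤
      ind * c * (Ioc (-(A t * (ρ * t))) (ρ * t)).indicator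
        (fun u => (A t * (ρ * t) + u) * phi u) u := by
  have hσ : 0 < ‖F.V l‖ := norm_V_pos F h2 l
  have hoρ : F.o l = ‖F.V l‖ * ρ := by rw [hρ]; field_simp
  have hc0 : 0 ≤ c := by rw [hc]; exact mul_nonneg (hg0 t) (div_nonneg hσ.le ht.le)
  have hind0 : 0 ≤ ind := by rw [hind]; exact indicator_nonneg (fun _ _ => zero_le_one) _
  have hR0 : 0 ≤ (Ioc (-(A t * (ρ * t))) (ρ * t)).indicator
      (fun u => (A t * (ρ * t) + u) * phi u) u := by
    apply indicator_nonneg
    intro u hu
    exact mul_nonneg (by linarith [hu.1]) (phi_nonneg u)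
  by_cases hτ : F.tau (gp F l u y) < t
  · have hval : gPhi F l g A (gp F l u y) t = c * (A t * (ρ * t) + u) := by
      unfold gPhi
      rw [indicator_of_mem (show t ∈ Ioi (F.tau (gp F l u y)) from hτ), Z_gp F h2, hoρ, hc]
      field_simp
    have hmem := mem_B_of_tau_lt F h2 l hτ
    rw [← hρ] at hmem
    have hind1 : ind = 1 := by
      rw [hind, indicator_of_mem hmem]
    have hu := u_lt_of_tau_lt F h2 l hτ
    rw [← hρ] at hu
    rw [hval, hind1, one_mul]
    by_cases hu2 : -(A t * (ρ * t)) < u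
    · rw [indicator_of_mem (show u ∈ Ioc (-(A t * (ρ * t))) (ρ * t) from ⟨hu2, hu.le⟩)]
      exact le_of_eq (by ring)
    · have h0 : c * (A t * (ρ * t) + u) * phi u ≤ 0 := by
        apply mul_nonpos_of_nonpos_of_nonneg _ (phi_nonneg u)
        apply mul_nonpos_of_nonneg_of_nonpos hc0
        linarith [not_lt.1 hu2]
      exact h0.trans (mul_nonneg hc0 hR0)
  · have hval : gPhi F l g A (gp F l u y) t = 0 := by
      unfold gPhi
      rw [indicator_of_notMem (show t ∉ Ioi (F.tau (gp F l u y)) from hτ)]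
    rw [hval, zero_mul]
    exact mul_nonneg (mul_nonneg hind0 hc0) hR0

theorem inner_fibre (F : Frame κ E) (h2 : 2 ≤ Fintype.card κ) (l : κ) (g A : ℝ → ℝ)
    {G Ab : ℝ} (hg0 : ∀ t, 0 ≤ g t) (hgb : ∀ t, g t ≤ G) (hg : Measurable g) (hA : Measurable A)
    (hA1 : ∀ t, -1 ≤ A t) (hAb : ∀ t, A t ≤ Ab) (y : E) {t : ℝ} (ht : 0 < t) :
    ∫ u, gPhi F l g A (gp F l u y) t * phi u ≤ gPsi F l g A y t := by
  obtain ⟨ρ, hρ⟩ : ∃ ρ : ℝ, ρ = F.o l / ‖F.V l‖ := ⟨_, rfl⟩
  have hρpos : 0 < ρ := hρ ▸ rho_pos F h2 l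
  have hσ : 0 < ‖F.V l‖ := norm_V_pos F h2 l
  have hoρ : F.o l = ‖F.V l‖ * ρ := by rw [hρ]; field_simp
  obtain ⟨c, hc⟩ : ∃ c : ℝ, c = g t * (‖F.V l‖ / t) := ⟨_, rfl⟩
  obtain ⟨ind, hind⟩ : ∃ ind : ℝ, ind = (F.B l).indicator (fun _ => (1:ℝ)) (gp F l (ρ * t) y) :=
    ⟨_, rfl⟩
  have hle : -(A t * (ρ * t)) ≤ ρ * t := by
    have := hA1 t
    have : 0 < ρ * t := mul_pos hρpos ht
    nlinarith
  have h1 := integral_mono (integrable_fibre F l g A hg0 hgb hg hA hA1 hAb y t)
    ((integrable_J (-(A t * (ρ * t))) (ρ * t) (A t * (ρ * t))).const_mul (ind * c))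
    (fun u => fibre_pt F h2 l g A hg0 y ht hρ hc hind u)
  refine h1.trans (le_of_eq ?_)
  rw [integral_const_mul, integral_indicator measurableSet_Ioc,
    ← intervalIntegral.integral_of_le hle, J_eq (A t) (ρ * t) (mul_pos hρpos ht).le]
  unfold gPsi
  rw [← hρ]
  by_cases hm : gp F l (ρ * t) y ∈ F.B l
  · rw [hind, indicator_of_mem hm, indicator_of_mem hm, hc, hoρ]
    field_simp
  · rw [hind, indicator_of_notMem hm, indicator_of_notMem hm]
    ring

theorem measurable_gPsi (F : Frame κ E) (l : κ) (g A : ℝ → ℝ) (hg : Measurable g)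
    (hA : Measurable A) : Measurable (fun p : E × ℝ => gPsi F l g A p.1 p.2) := by
  set ρ := F.o l / ‖F.V l‖ with hρ
  have hs : MeasurableSet {p : E × ℝ | gp F l (ρ * p.2) p.1 ∈ F.B l} := by
    have h1 : Measurable (fun p : E × ℝ => gp F l (ρ * p.2) p.1) := by
      have : Continuous (fun p : E × ℝ => gp F l (ρ * p.2) p.1) :=
        (continuous_gp F l).comp ((continuous_const.mul continuous_snd).prodMk continuous_fst)
      exact this.measurable
    exact h1 (measurableSet_B F l)
  have h : (fun p : E × ℝ => gPsi F l g A p.1 p.2) =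
      {p : E × ℝ | gp F l (ρ * p.2) p.1 ∈ F.B l}.indicator (fun p =>
        F.o l * ρ * (p.2 * g p.2) * phi (ρ * p.2) * fr (ρ * p.2) (1 + A p.2) 1) := by
    ext p
    unfold gPsi
    rw [← hρ]
    by_cases hp : gp F l (ρ * p.2) p.1 ∈ F.B l
    · rw [indicator_of_mem hp,
        indicator_of_mem (show p ∈ {p : E × ℝ | gp F l (ρ * p.2) p.1 ∈ F.B l} from hp)]
    · rw [indicator_of_notMem hp,
        indicator_of_notMem (show p ∉ {p : E × ℝ | gp F l (ρ * p.2) p.1 ∈ F.B l} from hp)]
  rw [h]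
  apply Measurable.indicator _ hs
  have hm : Measurable (fun t : ℝ =>
      F.o l * ρ * (t * g t) * phi (ρ * t) * fr (ρ * t) (1 + A t) 1) := by
    have h1 : Measurable (fun t : ℝ => fr (ρ * t) (1 + A t) 1) :=
      measurable_fr_comp (measurable_const_mul ρ) (hA.const_add 1) 1
    have h2 : Measurable (fun t : ℝ => phi (ρ * t)) := measurable_phi.comp (measurable_const_mul ρ)
    exact (((measurable_id.mul hg).const_mul _).mul h2).mul h1
  exact hm.comp measurable_snd

theorem gPsi_bound (F : Frame κ E) (h2 : 2 ≤ Fintype.card κ) (l : κ) (g A : ℝ → ℝ)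
    {x1 G Ab : ℝ} (hg0 : ∀ t, 0 ≤ g t) (hgb : ∀ t, g t ≤ G)
    (hgs : ∀ t, t ∉ Ioc 0 x1 → g t = 0)
    (hA1 : ∀ t, -1 ≤ A t) (hAb : ∀ t, A t ≤ Ab) :
    ∃ Cb, 0 ≤ Cb ∧ ∀ y t, |gPsi F l g A y t| ≤ Cb := by
  set ρ := F.o l / ‖F.V l‖ with hρ
  have hρpos : 0 < ρ := rho_pos F h2 l
  have hG : 0 ≤ G := (hg0 0).trans (hgb 0)
  obtain ⟨C1, hC1, hC1'⟩ := fr_bound (ρ * |x1|) (1 + |Ab|)
  refine ⟨F.o l * ρ * (|x1| * G) * 1 * C1, ?_, fun y t => ?_⟩
  · have := o_pos F l
    positivity
  · have ho := o_pos F l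
    unfold gPsi
    rw [← hρ]
    by_cases hp : gp F l (ρ * t) y ∈ F.B l
    · rw [indicator_of_mem hp]
      by_cases ht : t ∈ Ioc 0 x1
      · have ht0 : 0 < t := ht.1
        have htx : t ≤ |x1| := ht.2.trans (le_abs_self _)
        rw [abs_mul, abs_mul, abs_mul, abs_mul, abs_of_pos ho, abs_of_pos hρpos,
          abs_of_pos (phi_pos _), abs_of_nonneg (mul_nonneg ht0.le (hg0 t))]
        apply mul_le_mul _ _ (abs_nonneg _) (by positivity)
        · apply mul_le_mul _ (phi_le_one _) (phi_nonneg _) (by positivity)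
          apply mul_le_mul_of_nonneg_left _ (by positivity)
          exact mul_le_mul htx (hgb t) (hg0 t) (abs_nonneg _)
        · apply hC1'
          · exact ⟨by positivity, mul_le_mul_of_nonneg_left htx hρpos.le⟩
          · constructor
            · have := hA1 t
              linarith
            · have := hAb t
              have := le_abs_self Ab
              linarith
      · rw [hgs t ht]
        simp only [mul_zero, zero_mul, abs_zero]
        positivity
    · rw [indicator_of_notMem hp, abs_zero]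
      positivity

theorem grow (F : Frame κ E) (h2 : 2 ≤ Fintype.card κ) (l : κ) (g A : ℝ → ℝ)
    (hg : Measurable g) (hA : Measurable A) (x1 G Ab : ℝ) (hg0 : ∀ t, 0 ≤ g t) (hgb : ∀ t, g t ≤ G)
    (hgs : ∀ t, t ∉ Ioc 0 x1 → g t = 0) (hA1 : ∀ t, -1 ≤ A t) (hAb : ∀ t, A t ≤ Ab) :
    ∫ y, (∫ t in Ioi (F.tau y), g t * (A t * F.o l + F.Z l y / t)) ∂(stdGaussian E) ≤
      F.o l * ∫ y in F.B l, F.tau y * g (F.tau y) *
        fr (F.o l / ‖F.V l‖ * F.tau y) (1 + A (F.tau y)) 1 ∂(stdGaussian E) := by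
  set ρ := F.o l / ‖F.V l‖ with hρ
  have hρpos : 0 < ρ := rho_pos F h2 l
  have ho := o_pos F l
  set μt : Measure ℝ := volume.restrict (Ioc 0 x1) with hμt
  haveI : IsFiniteMeasure μt := ⟨by rw [hμt, Measure.restrict_apply_univ]; exact measure_Ioc_lt_top⟩
  have hv := norm_gv F h2 l
  -- step 1: left side as iterated integral on finite measures
  have hL1 : ∀ y, ∫ t in Ioi (F.tau y), g t * (A t * F.o l + F.Z l y / t) =
      ∫ t, gPhi F l g A y t ∂μt := by
    intro y
    rw [← integral_indicator measurableSet_Ioi]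
    change ∫ t, gPhi F l g A y t = _
    rw [hμt, setIntegral_eq_integral_of_forall_compl_eq_zero]
    intro t ht
    unfold gPhi
    by_cases h : t ∈ Ioi (F.tau y)
    · rw [indicator_of_mem h, hgs t ht, zero_mul]
    · rw [indicator_of_notMem h]
  have hbd := gPhi_bound F l g A hg0 hgb hA1 hAb
  have hmeas := measurable_gPhi F l g A hg hA
  have hint : Integrable (fun p : E × ℝ => gPhi F l g A p.1 p.2) ((stdGaussian E).prod μt) :=
    (integrable_const (G * ((1 + |Ab|) * 2 + ((Fintype.card κ : ℝ) + 2)))).mono'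
      hmeas.aestronglyMeasurable
      (Filter.Eventually.of_forall fun p => by rw [Real.norm_eq_abs]; exact hbd p.1 p.2)
  simp_rw [hL1]
  rw [integral_integral_swap (f := fun y t => gPhi F l g A y t) hint]
  -- step 2: right side
  obtain ⟨Cb, hCb0, hCb⟩ := gPsi_bound F h2 l g A hg0 hgb hgs hA1 hAb
  have hmeas2 := measurable_gPsi F l g A hg hA
  have hint2 : Integrable (fun p : E × ℝ => gPsi F l g A p.1 p.2) ((stdGaussian E).prod μt) :=
    (integrable_const Cb).mono' hmeas2.aestronglyMeasurable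
      (Filter.Eventually.of_forall fun p => by rw [Real.norm_eq_abs]; exact hCb p.1 p.2)
  have hR : F.o l * ∫ y in F.B l, F.tau y * g (F.tau y) *
        fr (ρ * F.tau y) (1 + A (F.tau y)) 1 ∂(stdGaussian E) =
      ∫ y, ∫ t, gPsi F l g A y t ∂μt ∂(stdGaussian E) := by
    set h : E → ℝ := (F.B l).indicator (fun y => F.tau y * g (F.tau y) *
        fr (ρ * F.tau y) (1 + A (F.tau y)) 1) with hh
    obtain ⟨C1, hC10, hC1⟩ := fr_bound (ρ * |x1|) (1 + |Ab|)
    have hG : 0 ≤ G := (hg0 0).trans (hgb 0)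
    have hhm : Measurable h := by
      apply Measurable.indicator _ (measurableSet_B F l)
      have h1 : Measurable (fun t : ℝ => t * g t * fr (ρ * t) (1 + A t) 1) :=
        (measurable_id.mul hg).mul (measurable_fr_comp (measurable_const_mul ρ) (hA.const_add 1) 1)
      exact h1.comp (measurable_tau F)
    have hhb : ∀ y, |h y| ≤ |x1| * G * C1 := by
      intro y
      rw [hh]
      by_cases hy : y ∈ F.B l
      · rw [indicator_of_mem hy]
        by_cases ht : F.tau y ∈ Ioc 0 x1
        · have ht0 : 0 < F.tau y := ht.1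
          have htx : F.tau y ≤ |x1| := ht.2.trans (le_abs_self _)
          rw [abs_mul, abs_of_nonneg (mul_nonneg ht0.le (hg0 _))]
          apply mul_le_mul _ _ (abs_nonneg _) (by positivity)
          · exact mul_le_mul htx (hgb _) (hg0 _) (abs_nonneg _)
          · apply hC1
            · exact ⟨by positivity, mul_le_mul_of_nonneg_left htx hρpos.le⟩
            · constructor
              · have := hA1 (F.tau y)
                linarith
              · have := hAb (F.tau y)
                have := le_abs_self Ab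
                linarith
        · rw [hgs _ ht]
          simp only [mul_zero, zero_mul, abs_zero]
          positivity
      · rw [indicator_of_notMem hy, abs_zero]
        positivity
    have hhi : Integrable h (stdGaussian E) :=
      (integrable_const (|x1| * G * C1)).mono' hhm.aestronglyMeasurable
        (Filter.Eventually.of_forall fun y => by rw [Real.norm_eq_abs]; exact hhb y)
    rw [← integral_indicator (measurableSet_B F l)]
    change F.o l * ∫ y, h y ∂(stdGaussian E) = _
    rw [integral_split (gv F l) hv hhi, ← integral_const_mul]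
    refine integral_congr_ae (Filter.Eventually.of_forall fun y => ?_)
    change F.o l * ∫ u, h (gp F l u y) * phi u = ∫ t, gPsi F l g A y t ∂μt
    have h3 : ∫ u, h (gp F l u y) * phi u = ρ * ∫ t, h (gp F l (ρ * t) y) * phi (ρ * t) := by
      rw [Measure.integral_comp_mul_left (fun u => h (gp F l u y) * phi u) ρ, smul_eq_mul,
        abs_of_pos (inv_pos.2 hρpos), ← mul_assoc, mul_inv_cancel₀ hρpos.ne', one_mul]
    rw [h3]
    have h4 : ∀ t, F.o l * ρ * (h (gp F l (ρ * t) y) * phi (ρ * t)) = gPsi F l g A y t := by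
      intro t
      unfold gPsi
      rw [← hρ, hh]
      by_cases hm : gp F l (ρ * t) y ∈ F.B l
      · rw [indicator_of_mem hm, indicator_of_mem hm, tau_of_mem_B F h2 l hm]
        ring
      · rw [indicator_of_notMem hm, indicator_of_notMem hm]
        ring
    rw [← mul_assoc, ← integral_const_mul]
    simp_rw [h4]
    rw [hμt, setIntegral_eq_integral_of_forall_compl_eq_zero]
    intro t ht
    rw [← h4 t, hh]
    by_cases hm : gp F l (ρ * t) y ∈ F.B l
    · rw [indicator_of_mem hm, tau_of_mem_B F h2 l hm, hgs t ht]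
      ring
    · rw [indicator_of_notMem hm]
      ring
  rw [hR, integral_integral_swap (f := fun y t => gPsi F l g A y t) hint2]
  -- step 3: compare for each t
  apply integral_mono_ae
  · exact hint.integral_prod_right
  · exact hint2.integral_prod_right
  · rw [hμt]
    filter_upwards [ae_restrict_mem measurableSet_Ioc] with t ht
    have ht0 : 0 < t := ht.1
    have hi : Integrable (fun y => gPhi F l g A y t) (stdGaussian E) := by
      refine (integrable_const (G * ((1 + |Ab|) * 2 + ((Fintype.card κ : ℝ) + 2)))).mono'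
        (hmeas.comp (measurable_id.prodMk measurable_const)).aestronglyMeasurable
        (Filter.Eventually.of_forall fun y => by rw [Real.norm_eq_abs]; exact hbd y t)
    have hi2 : Integrable (fun y => gPsi F l g A y t) (stdGaussian E) := by
      refine (integrable_const Cb).mono'
        (hmeas2.comp (measurable_id.prodMk measurable_const)).aestronglyMeasurable
        (Filter.Eventually.of_forall fun y => by rw [Real.norm_eq_abs]; exact hCb y t)
    rw [integral_split (gv F l) hv hi]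
    apply integral_mono
    · exact (integrable_split (gv F l) hv hi).integral_prod_left
    · exact hi2
    · intro y
      exact inner_fibre F h2 l g A hg0 hgb hg hA hA1 hAb y ht0

end P226
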