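import Vale.Agent.P226_h5.K4Inv

open MeasureTheory ProbabilityTheory Set Filter
open scoped RealInnerProductSpace ENNReal Topology

namespace P226

set_option linter.unusedSectionVars false

variable {E : Type*} [NormedAddCommGroup E] [InnerProductSpace ℝ E] [FiniteDimensional ℝ E]
  [MeasurableSpace E] [BorelSpace E]

theorem k4_indep (w : Fin 4 → E) (h0 : ∑ i, w i = 0)
    (hneg : ∀ i j, i ≠ j → ⟪w i, w j⟫ < (0:ℝ)) (c : Fin 4 → ℝ) (hc : ∑ i, c i • w i = 0) :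
    ∃ t : ℝ, ∀ i, c i = t := by
  obtain ⟨i0, -, hi0⟩ := Finset.exists_min_image Finset.univ c ⟨0, Finset.mem_univ _⟩
  have h1 : ∑ j, (c j - c i0) * (⟪w i0, w j⟫ : ℝ) = 0 := by
    have e1 : (⟪w i0, ∑ j, c j • w j⟫ : ℝ) = ∑ j, c j * (⟪w i0, w j⟫ : ℝ) := by
      rw [inner_sum]
      exact Finset.sum_congr rfl fun j _ => real_inner_smul_right _ _ _
    have e2 : (⟪w i0, ∑ j, w j⟫ : ℝ) = ∑ j, (⟪w i0, w j⟫ : ℝ) := inner_sum _ _ _
    rw [hc, inner_zero_right] at e1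
    rw [h0, inner_zero_right] at e2
    simp_rw [sub_mul, Finset.sum_sub_distrib, ← Finset.mul_sum]
    rw [← e1, ← e2]
    ring
  have h2 : ∀ j ∈ Finset.univ, (c j - c i0) * (⟪w i0, w j⟫ : ℝ) ≤ 0 := by
    intro j _
    by_cases hj : j = i0
    · rw [hj]; simp
    · exact mul_nonpos_of_nonneg_of_nonpos (sub_nonneg.2 (hi0 j (Finset.mem_univ j)))
        (hneg i0 j (Ne.symm hj)).le
  have h3 := (Finset.sum_eq_zero_iff_of_nonpos h2).1 h1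
  refine ⟨c i0, fun j => ?_⟩
  by_cases hj : j = i0
  · rw [hj]
  · rcases mul_eq_zero.1 (h3 j (Finset.mem_univ j)) with h | h
    · linarith
    · exact absurd h (hneg i0 j (Ne.symm hj)).ne

theorem k4_cell (w : Fin 4 → E) (A : Fin 4 → Set E) (hA : IsPart A)
    (hw : ∀ i, mom (A i) = w i)
    (hmax : ∀ i, ∀ x ∈ A i, ∀ j, ⟪w j, x⟫ ≤ ⟪w i, x⟫)
    (i j k l : Fin 4) (hj : w i ≠ w j) (hk : w i ≠ w k) (hl : w i ≠ w l)
    (hall : ∀ m, m = i ∨ m = j ∨ m = k ∨ m = l) :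
    mom {x : E | 0 < ⟪w i - w k, x⟫ ∧ 0 < ⟪w i - w l, x⟫ ∧ 0 < ⟪w i - w j, x⟫} = w i := by
  have hsub : {x : E | 0 < ⟪w i - w k, x⟫ ∧ 0 < ⟪w i - w l, x⟫ ∧ 0 < ⟪w i - w j, x⟫} ⊆ A i := by
    rintro x ⟨h1, h2, h3⟩
    rw [inner_sub_left] at h1 h2 h3
    have hx : x ∈ ⋃ m, A m := by rw [hA.cover]; exact mem_univ x
    obtain ⟨m, hm⟩ := mem_iUnion.1 hx
    have h4 := hmax m x hm i
    rcases hall m with rfl | rfl | rfl | rfl
    · exact hm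
    · linarith
    · linarith
    · linarith
  have hnull : stdGaussian E (A i \
      {x : E | 0 < ⟪w i - w k, x⟫ ∧ 0 < ⟪w i - w l, x⟫ ∧ 0 < ⟪w i - w j, x⟫}) = 0 := by
    have hcov : A i \ {x : E | 0 < ⟪w i - w k, x⟫ ∧ 0 < ⟪w i - w l, x⟫ ∧ 0 < ⟪w i - w j, x⟫} ⊆
        {x : E | ⟪w i - w k, x⟫ = 0} ∪ ({x : E | ⟪w i - w l, x⟫ = 0} ∪
          {x : E | ⟪w i - w j, x⟫ = 0}) := by
      rintro x ⟨hx, hxn⟩
      have h1 : 0 ≤ (⟪w i - w k, x⟫ : ℝ) := by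
        rw [inner_sub_left]; have := hmax i x hx k; linarith
      have h2 : 0 ≤ (⟪w i - w l, x⟫ : ℝ) := by
        rw [inner_sub_left]; have := hmax i x hx l; linarith
      have h3 : 0 ≤ (⟪w i - w j, x⟫ : ℝ) := by
        rw [inner_sub_left]; have := hmax i x hx j; linarith
      by_contra hcon
      simp only [mem_union, mem_ofPred_eq, not_or] at hcon
      exact hxn ⟨h1.lt_of_ne (Ne.symm hcon.1), h2.lt_of_ne (Ne.symm hcon.2.1),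
        h3.lt_of_ne (Ne.symm hcon.2.2)⟩
    refine measure_mono_null hcov (measure_union_null ?_ (measure_union_null ?_ ?_))
    · exact stdGaussian_hyperplane _ (sub_ne_zero.2 hk) 0
    · exact stdGaussian_hyperplane _ (sub_ne_zero.2 hl) 0
    · exact stdGaussian_hyperplane _ (sub_ne_zero.2 hj) 0
  have hfin : mom {x : E | 0 < ⟪w i - w k, x⟫ ∧ 0 < ⟪w i - w l, x⟫ ∧ 0 < ⟪w i - w j, x⟫} =
      mom (A i) := by
    unfold mom
    exact setIntegral_congr_set ((hsub.eventuallyLE).antisymm (ae_le_set.2 hnull))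
  rw [hfin, hw i]

/-- the critical equation of one facet with a prescribed Gram determinant -/
theorem k4_pair (a b N w0 : E)
    (hli : ∀ x y z : ℝ, x • a + y • b + z • N = 0 → x = 0 ∧ y = 0 ∧ z = 0)
    (hmom : mom {x : E | 0 < ⟪a, x⟫ ∧ 0 < ⟪b, x⟫ ∧ 0 < ⟪N, x⟫} = w0)
    (hs : (4:ℝ) • w0 = a + b + N) (aa bb NN ab aN bN D : ℝ)
    (haa : ⟪a, a⟫ = aa) (hbb : ⟪b, b⟫ = bb) (hNN : ⟪N, N⟫ = NN) (hab : ⟪a, b⟫ = ab)
    (haN : ⟪a, N⟫ = aN) (hbN : ⟪b, N⟫ = bN)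
    (hD : D = aa * bb * NN + 2 * bN * aN * ab - aa * bN ^ 2 - bb * aN ^ 2 - NN * ab ^ 2) :
    0 < D ∧ k4k * ‖N‖ ∈ Ioo 0 Real.pi ∧
      k4H (k4k * ‖N‖) = k4k / Real.sqrt D * (NN * ab - aN * bN) ∧
      (k4G (k4k * ‖N‖)) ^ 2 = (k4k / Real.sqrt D) ^ 2 * ((aa * NN - aN ^ 2) *
        (bb * NN - bN ^ 2)) ∧ 0 ≤ aa * NN - aN ^ 2 ∧ 0 ≤ bb * NN - bN ^ 2 ∧ ‖N‖ ^ 2 = NN := by
  obtain ⟨vol, hv0, hv2, hm, hH, hG⟩ := k4_facet_inv a b N w0 hli hmom hs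
  rw [haa, hbb, hNN, hab, haN, hbN, ← hD] at hv2
  have hsq : Real.sqrt D = vol := by
    rw [← hv2, Real.sqrt_sq hv0.le]
  rw [haa, hbb, hNN, haN, hbN] at hG
  rw [hNN, hab, haN, hbN] at hH
  rw [hsq]
  have c1 := real_inner_mul_inner_self_le a N
  have c2 := real_inner_mul_inner_self_le b N
  rw [haa, hNN, haN] at c1
  rw [hbb, hNN, hbN] at c2
  refine ⟨?_, hm, hH, hG, ?_, ?_, ?_⟩
  · rw [← hv2]; positivity
  · nlinarith [c1]
  · nlinarith [c2]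
  · rw [← hNN, real_inner_self_eq_norm_sq]

/-- the positive root of the face equation -/
theorem k4_face_root (T Sk Sl t : ℝ) (hT : 0 < T) (hSk : 0 ≤ Sk) (hSl : 0 ≤ Sl)
    (ht : t ∈ Ioo 0 Real.pi) (h : (k4G t) ^ 2 = T ^ 2 * (Sk * Sl)) :
    0 < Sk ∧ 0 < Sl ∧ k4G t = Real.sqrt (T * Sk) * Real.sqrt (T * Sl) := by
  have hG : 0 < k4G t := by
    unfold k4G
    exact div_pos ht.1 (k4_sin_pos ht)
  have hG2 : 0 < T ^ 2 * (Sk * Sl) := by rw [← h]; positivity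
  have hSS : Sk * Sl ≠ 0 := fun h0 => by rw [h0, mul_zero] at hG2; exact lt_irrefl _ hG2
  refine ⟨hSk.lt_of_ne (Ne.symm (left_ne_zero_of_mul hSS)),
    hSl.lt_of_ne (Ne.symm (right_ne_zero_of_mul hSS)), ?_⟩
  rw [← Real.sqrt_mul (by positivity)]
  have : T * Sk * (T * Sl) = (k4G t) ^ 2 := by rw [h]; ring
  rw [this, Real.sqrt_sq hG.le]

end P226
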