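import Mathlib

/-! P226, four cells: the real-variable part. -/

open Set

namespace P226

/-- `G θ = θ / sin θ` -/
noncomputable def k4G (x : ℝ) : ℝ := x / Real.sin x

/-- `H θ = - θ cot θ` -/
noncomputable def k4H (x : ℝ) : ℝ := -(x * Real.cos x / Real.sin x)

theorem k4_sin_pos {x : ℝ} (hx : x ∈ Ioo 0 Real.pi) : 0 < Real.sin x :=
  Real.sin_pos_of_pos_of_lt_pi hx.1 hx.2

theorem k4G_lt {x y : ℝ} (hx : x ∈ Ioo 0 Real.pi) (hy : y ∈ Ioo 0 Real.pi) (h : x < y) :
    k4G x < k4G y := by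
  have hsx := k4_sin_pos hx
  have hsy := k4_sin_pos hy
  have hy0 : 0 < y := hy.1
  have ha : 0 < 1 - x / y := by
    have : x / y < 1 := (div_lt_one hy0).2 h
    linarith
  have hb : 0 < x / y := div_pos hx.1 hy0
  have h0 : (0:ℝ) ∈ Icc 0 Real.pi := ⟨le_refl _, Real.pi_pos.le⟩
  have hyy : y ∈ Icc 0 Real.pi := ⟨hy.1.le, hy.2.le⟩
  have h1 := strictConcaveOn_sin_Icc.2 h0 hyy hy0.ne ha hb (by ring)
  simp only [smul_eq_mul, mul_zero, Real.sin_zero, zero_add] at h1
  rw [div_mul_cancel₀ x hy0.ne'] at h1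
  unfold k4G
  rw [div_lt_div_iff₀ hsx hsy]
  rw [div_mul_eq_mul_div, div_lt_iff₀ hy0] at h1
  linarith

theorem k4G_lt_iff {x y : ℝ} (hx : x ∈ Ioo 0 Real.pi) (hy : y ∈ Ioo 0 Real.pi) :
    k4G x < k4G y ↔ x < y := by
  constructor
  · intro h
    by_contra hcon
    push Not at hcon
    rcases hcon.eq_or_lt with h1 | h1
    · rw [h1] at h; exact lt_irrefl _ h
    · exact lt_asymm h (k4G_lt hy hx h1)
  · exact k4G_lt hx hy

theorem k4G_inj {x y : ℝ} (hx : x ∈ Ioo 0 Real.pi) (hy : y ∈ Ioo 0 Real.pi)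
    (h : k4G x = k4G y) : x = y := by
  rcases lt_trichotomy x y with h1 | h1 | h1
  · exact absurd h (k4G_lt hx hy h1).ne
  · exact h1
  · exact absurd h (k4G_lt hy hx h1).ne'

/-- `D = G - H` is strictly decreasing -/
theorem k4D_lt {x y : ℝ} (hx : x ∈ Ioo 0 Real.pi) (hy : y ∈ Ioo 0 Real.pi) (h : x < y) :
    k4G y - k4H y < k4G x - k4H x := by
  have hd : ∀ t ∈ Ioo 0 Real.pi, HasDerivAt (fun t => k4G t - k4H t)
      ((1 + Real.cos t) * (Real.sin t - t) / Real.sin t ^ 2) t := by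
    intro t ht
    have hs := k4_sin_pos ht
    have h1 : HasDerivAt (fun t => k4G t) ((1 * Real.sin t - t * Real.cos t) / Real.sin t ^ 2) t :=
      (hasDerivAt_id' t).div (Real.hasDerivAt_sin t) hs.ne'
    have h2 : HasDerivAt (fun t => k4H t)
        (-(((1 * Real.cos t + t * (-Real.sin t)) * Real.sin t - t * Real.cos t * Real.cos t) /
          Real.sin t ^ 2)) t :=
      (((hasDerivAt_id' t).mul (Real.hasDerivAt_cos t)).div (Real.hasDerivAt_sin t) hs.ne').neg
    have h3 := h1.sub h2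
    have h4 : (1 * Real.sin t - t * Real.cos t) / Real.sin t ^ 2 -
        -(((1 * Real.cos t + t * (-Real.sin t)) * Real.sin t - t * Real.cos t * Real.cos t) /
          Real.sin t ^ 2) = (1 + Real.cos t) * (Real.sin t - t) / Real.sin t ^ 2 := by
      rw [sub_neg_eq_add, ← add_div]
      congr 1
      have := Real.sin_sq_add_cos_sq t
      linear_combination (-t) * this
    rw [h4] at h3
    exact h3
  have hanti : StrictAntiOn (fun t => k4G t - k4H t) (Ioo 0 Real.pi) := by
    apply strictAntiOn_of_deriv_neg (convex_Ioo 0 Real.pi)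
    · intro t ht
      exact (hd t ht).continuousAt.continuousWithinAt
    · intro t ht
      rw [interior_Ioo] at ht
      rw [(hd t ht).deriv]
      have hs := k4_sin_pos ht
      have h1 : Real.sin t < t := Real.sin_lt ht.1
      have h2 : -1 < Real.cos t := by
        rw [← Real.cos_pi]
        exact Real.cos_lt_cos_of_nonneg_of_le_pi ht.1.le le_rfl ht.2
      have h3 : 0 < Real.sin t ^ 2 := by positivity
      apply div_neg_of_neg_of_pos _ h3
      nlinarith
  exact hanti hx hy h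

theorem k4_poly (l : ℝ) (hl0 : 0 ≤ l) (hl1 : l ≤ 1) :
    (15708 / 10000 + ((1 - l) * (34 / 100) + l * (6745 / 10000))) ^ 2 *
        (45 * ((1 - l) * (1 / 3) + l * (187 / 300)) ^ 2 + 3) ≤
      27 * (31415 / 10000) ^ 2 * ((1 - l) * (1 / 3) + l * (187 / 300)) ^ 2 := by
  have h1 : 0 ≤ l * (1 - l) := mul_nonneg hl0 (by linarith)
  have h2 : 0 ≤ l * (l * (1 - l)) := mul_nonneg hl0 h1
  have h3 : 0 ≤ l * (l * (l * (1 - l))) := mul_nonneg hl0 h2
  nlinarith [h1, h2, h3]

/-- main case of the one-variable inequality -/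
theorem k4_main {s f : ℝ} (hs1 : 1 / 3 ≤ s) (hs2 : s ≤ 187 / 300) (_hf0 : 0 < f)
    (hf1 : f < Real.pi / 2) (hsf : Real.sin f = s) :
    (f + Real.pi / 2) ^ 2 * (45 * s ^ 2 + 3) ≤ 27 * Real.pi ^ 2 * s ^ 2 := by
  have hpi1 := Real.pi_gt_d4
  have hpi2 := Real.pi_lt_d4
  obtain ⟨l, hl⟩ : ∃ l : ℝ, l = (s - 1 / 3) / (187 / 300 - 1 / 3) := ⟨_, rfl⟩
  have hl0 : 0 ≤ l := by
    rw [hl]
    apply div_nonneg
    · linarith
    · norm_num
  have hl1 : l ≤ 1 := by rw [hl, div_le_one (by norm_num)]; linarith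
  have hsl : s = (1 - l) * (1 / 3) + l * (187 / 300) := by
    rw [hl]; ring
  have h1 : (1:ℝ) / 3 ≤ Real.sin (34 / 100) := by
    have := Real.sin_gt_sub_cube (x := 34 / 100) (by norm_num)
    norm_num at this ⊢
    linarith
  have h2 : (187:ℝ) / 300 ≤ Real.sin (6745 / 10000) := by
    have := Real.sin_gt_sub_cube (x := 6745 / 10000) (by norm_num)
    norm_num at this ⊢
    linarith
  obtain ⟨g, hg⟩ : ∃ g : ℝ, g = (1 - l) * (34 / 100) + l * (6745 / 10000) := ⟨_, rfl⟩
  have hg0 : 0 ≤ g := by rw [hg]; nlinarith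
  have hfle : f ≤ g := by
    by_contra hcon
    push Not at hcon
    have ha : (34 / 100 : ℝ) ∈ Icc 0 Real.pi := ⟨by norm_num, by linarith⟩
    have hb : (6745 / 10000 : ℝ) ∈ Icc 0 Real.pi := ⟨by norm_num, by linarith⟩
    have hc := strictConcaveOn_sin_Icc.concaveOn.2 ha hb (sub_nonneg.2 hl1) hl0 (by ring)
    simp only [smul_eq_mul] at hc
    rw [← hg] at hc
    have hmono : Real.sin g < Real.sin f :=
      Real.sin_lt_sin_of_lt_of_le_pi_div_two (by linarith) hf1.le hcon
    rw [hsf] at hmono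
    have h3 : (1 - l) * (1 / 3) ≤ (1 - l) * Real.sin (34 / 100) :=
      mul_le_mul_of_nonneg_left h1 (by linarith)
    have h4 : l * (187 / 300) ≤ l * Real.sin (6745 / 10000) :=
      mul_le_mul_of_nonneg_left h2 hl0
    linarith
  have hpoly := k4_poly l hl0 hl1
  rw [← hsl, ← hg] at hpoly
  have h3 : (f + Real.pi / 2) ^ 2 ≤ (15708 / 10000 + g) ^ 2 :=
    pow_le_pow_left₀ (by linarith) (by linarith) 2
  have h5 : (f + Real.pi / 2) ^ 2 * (45 * s ^ 2 + 3) ≤
      (15708 / 10000 + g) ^ 2 * (45 * s ^ 2 + 3) :=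
    mul_le_mul_of_nonneg_right h3 (by positivity)
  have h7 : (31415 / 10000 : ℝ) ^ 2 ≤ Real.pi ^ 2 :=
    pow_le_pow_left₀ (by norm_num) (by linarith) 2
  have h6 : 27 * (31415 / 10000 : ℝ) ^ 2 * s ^ 2 ≤ 27 * Real.pi ^ 2 * s ^ 2 :=
    mul_le_mul_of_nonneg_right (by linarith) (sq_nonneg s)
  linarith

/-- the excluded range of the one-variable problem -/
theorem k4_excl {t u v r : ℝ} (hcase : 187 / 100 < t) (hv0 : 0 < v) (hr0 : 0 < r)
    (hr2 : r ^ 2 = 3 + t ^ 2) (hvge : 157 / 100 + 7 / 10000 + t / 3 ≤ v)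
    (hu2 : u ≤ Real.pi / 2 - (t ^ 2 - 3) / 6) (hvr : v * r = 2 * t * u) : False := by
  have hpi2 := Real.pi_lt_d4
  have hR : 2 * t * u ≤ 2 * t * (Real.pi / 2 - (t ^ 2 - 3) / 6) :=
    mul_le_mul_of_nonneg_left hu2 (by linarith)
  have hR2 : 2 * t * (Real.pi / 2 - (t ^ 2 - 3) / 6) ≤ t * (41416 / 10000) - t ^ 3 / 3 := by
    nlinarith
  have key : ∀ t0 c : ℝ, 0 ≤ t0 → t0 ≤ t → 0 ≤ c →
      c ^ 2 < (157 / 100 + 7 / 10000 + t0 / 3 : ℝ) ^ 2 * (3 + t0 ^ 2) → c < v * r := by
    intro t0 c h0 h1 hc0 hc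
    have h3 : (157 / 100 + 7 / 10000 + t0 / 3) ^ 2 ≤ v ^ 2 :=
      pow_le_pow_left₀ (by linarith) (by linarith) 2
    have h4 : 3 + t0 ^ 2 ≤ 3 + t ^ 2 := by
      have := pow_le_pow_left₀ h0 h1 2
      linarith
    have h5 : (157 / 100 + 7 / 10000 + t0 / 3 : ℝ) ^ 2 * (3 + t0 ^ 2) ≤ v ^ 2 * (3 + t ^ 2) :=
      mul_le_mul h3 h4 (by positivity) (by positivity)
    have h6 : c ^ 2 < (v * r) ^ 2 := by
      rw [mul_pow, hr2]
      linarith
    exact lt_of_pow_lt_pow_left₀ 2 (by positivity) h6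
  rcases le_or_gt t (19 / 10) with hc2 | hc2
  · have h1 : t * (41416 / 10000) - t ^ 3 / 3 ≤ 55845 / 10000 := by
      nlinarith [mul_nonneg (sub_nonneg.2 hc2) (sub_nonneg.2 hc2),
        mul_nonneg (sub_nonneg.2 hc2) (sub_nonneg.2 hcase.le)]
    have h2 := key (187 / 100) (55845 / 10000) (by norm_num) hcase.le (by norm_num) (by norm_num)
    linarith
  · have h1 : t * (41416 / 10000) - t ^ 3 / 3 ≤ 562 / 100 := by
      have h0 : 0 ≤ (t - 2035 / 1000) ^ 2 * (t + 4070 / 1000) := by positivity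
      nlinarith
    have h2 := key (19 / 10) (562 / 100) (by norm_num) hc2.le (by norm_num) (by norm_num)
    linarith

/-- the one-variable inequality -/
theorem k4_onevar {t u v : ℝ} (ht : 1 ≤ t) (hu : u ∈ Ioo 0 Real.pi) (hv : v ∈ Ioo 0 Real.pi)
    (hcv : Real.cos v = -t / 3) (hcu : Real.cos u = (t ^ 2 - 3) / 6)
    (huv : v * Real.sin u = t * (u * Real.sin v)) : u ^ 2 + v ^ 2 ≤ 3 / 4 * Real.pi ^ 2 := by
  have hsu := k4_sin_pos hu
  have hsv := k4_sin_pos hv
  have hpi1 := Real.pi_gt_d4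
  have hpi2 := Real.pi_lt_d4
  have ht0 : 0 < t := by linarith
  obtain ⟨r, hr⟩ : ∃ r : ℝ, r = Real.sqrt (3 + t ^ 2) := ⟨_, rfl⟩
  have hr2 : r ^ 2 = 3 + t ^ 2 := by rw [hr]; exact Real.sq_sqrt (by positivity)
  have hr0 : 0 < r := by rw [hr]; exact Real.sqrt_pos.2 (by positivity)
  have hsin : Real.sin u = Real.sin v * r / 2 := by
    have h1 := Real.sin_sq_add_cos_sq u
    have h2 := Real.sin_sq_add_cos_sq v
    rw [hcu] at h1
    rw [hcv] at h2
    have h3 : Real.sin u ^ 2 = (Real.sin v * r / 2) ^ 2 := by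
      have h4 : Real.sin u ^ 2 = 1 - ((t ^ 2 - 3) / 6) ^ 2 := by linarith
      have h5 : Real.sin v ^ 2 = 1 - (-t / 3) ^ 2 := by linarith
      rw [div_pow, mul_pow, hr2, h5, h4]
      ring
    have h6 : 0 ≤ Real.sin v * r / 2 := by positivity
    exact (pow_left_inj₀ hsu.le h6 two_ne_zero).1 h3
  have hvr : v * r = 2 * t * u := by
    rw [hsin] at huv
    have h1 : (v * r) * Real.sin v = (2 * t * u) * Real.sin v := by linarith
    exact mul_right_cancel₀ hsv.ne' h1
  have hv2 : Real.pi / 2 < v := by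
    by_contra hcon
    push Not at hcon
    have : 0 ≤ Real.cos v := Real.cos_nonneg_of_mem_Icc ⟨by linarith [hv.1], hcon⟩
    rw [hcv] at this
    linarith
  obtain ⟨f, hf⟩ : ∃ f : ℝ, f = v - Real.pi / 2 := ⟨_, rfl⟩
  have hsf : Real.sin f = t / 3 := by
    rw [hf, Real.sin_sub_pi_div_two, hcv]
    ring
  have hvf : v = f + Real.pi / 2 := by rw [hf]; ring
  have hf0 : 0 < f := by rw [hf]; linarith
  have hf1 : f < Real.pi / 2 := by rw [hf]; linarith [hv.2]
  rcases le_or_gt t (187 / 100) with hcase | hcase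
  · have h4 := k4_main (s := t / 3) (f := f) (by linarith) (by linarith) hf0 hf1 hsf
    rw [← hvf] at h4
    have h7 : u = v * r / (2 * t) := by
      rw [hvr]; field_simp
    have h8 : u ^ 2 + v ^ 2 = v ^ 2 * (5 * t ^ 2 + 3) / (4 * t ^ 2) := by
      rw [h7, div_pow, mul_pow, hr2]
      field_simp
      ring
    rw [h8, div_le_iff₀ (by positivity)]
    nlinarith
  · exfalso
    have hfs : t / 3 ≤ f := by
      rw [← hsf]
      exact (Real.sin_lt hf0).le
    have hu2 : u ≤ Real.pi / 2 - (t ^ 2 - 3) / 6 := by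
      have h1 : Real.sin (Real.pi / 2 - u) = (t ^ 2 - 3) / 6 := by
        rw [Real.sin_pi_div_two_sub, hcu]
      have hz : 0 < (t ^ 2 - 3) / 6 := by nlinarith
      have hpos : 0 < Real.pi / 2 - u := by
        by_contra hcon
        push Not at hcon
        have h2 : Real.sin (Real.pi / 2 - u) ≤ 0 :=
          Real.sin_nonpos_of_nonpos_of_neg_pi_le hcon (by linarith [hu.2])
        linarith
      have h3 := (Real.sin_lt hpos).le
      linarith
    exact k4_excl hcase hv.1 hr0 hr2 (by linarith) hu2 hvr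

/-- critical tetrahedra: weights `a b c d` of the faces, exterior dihedral angles `t..` -/
structure K4Tet (a b c d tab tac tad tbc tbd tcd : ℝ) : Prop where
  ha : 0 < a
  hb : 0 < b
  hc : 0 < c
  hd : 0 < d
  hab : tab ∈ Ioo 0 Real.pi
  hac : tac ∈ Ioo 0 Real.pi
  had : tad ∈ Ioo 0 Real.pi
  hbc : tbc ∈ Ioo 0 Real.pi
  hbd : tbd ∈ Ioo 0 Real.pi
  hcd : tcd ∈ Ioo 0 Real.pi
  gab : k4G tab = a * b
  gac : k4G tac = a * c
  gad : k4G tad = a * d
  gbc : k4G tbc = b * c
  gbd : k4G tbd = b * d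
  gcd : k4G tcd = c * d
  ca : a ^ 2 = k4H tab + k4H tac + k4H tad
  cb : b ^ 2 = k4H tab + k4H tbc + k4H tbd
  cc : c ^ 2 = k4H tac + k4H tbc + k4H tcd
  cd : d ^ 2 = k4H tad + k4H tbd + k4H tcd

namespace K4Tet

variable {a b c d tab tac tad tbc tbd tcd : ℝ}

theorem swap (h : K4Tet a b c d tab tac tad tbc tbd tcd) :
    K4Tet b a c d tab tbc tbd tac tad tcd := by
  refine ⟨h.hb, h.ha, h.hc, h.hd, h.hab, h.hbc, h.hbd, h.hac, h.had, h.hcd, ?_, h.gbc, h.gbd,
    h.gac, h.gad, h.gcd, h.cb, h.ca, ?_, ?_⟩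
  · rw [h.gab]; ring
  · rw [h.cc]; ring
  · rw [h.cd]; ring

theorem rot (h : K4Tet a b c d tab tac tad tbc tbd tcd) :
    K4Tet b c d a tbc tbd tab tcd tac tad := by
  refine ⟨h.hb, h.hc, h.hd, h.ha, h.hbc, h.hbd, h.hab, h.hcd, h.hac, h.had, h.gbc, h.gbd, ?_,
    h.gcd, ?_, ?_, ?_, ?_, ?_, ?_⟩
  · rw [h.gab]; ring
  · rw [h.gac]; ring
  · rw [h.gad]; ring
  · rw [h.cb]; ring
  · rw [h.cc]; ring
  · rw [h.cd]; ring
  · rw [h.ca]

theorem core (h : K4Tet a b c d tab tac tad tbc tbd tcd) (hlt : b < a) : c + d < a + b := by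
  have h1 : k4G tbc < k4G tac := by
    rw [h.gbc, h.gac]; exact mul_lt_mul_of_pos_right hlt h.hc
  have h2 : k4G tbd < k4G tad := by
    rw [h.gbd, h.gad]; exact mul_lt_mul_of_pos_right hlt h.hd
  have h3 := k4D_lt h.hbc h.hac ((k4G_lt_iff h.hbc h.hac).1 h1)
  have h4 := k4D_lt h.hbd h.had ((k4G_lt_iff h.hbd h.had).1 h2)
  rw [h.gbc, h.gac] at h3
  rw [h.gbd, h.gad] at h4
  have h5 := h.ca
  have h6 := h.cb
  have h7 : (a - b) * (c + d - a - b) < 0 := by nlinarith
  have h8 : 0 < a - b := by linarith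
  by_contra hcon
  push Not at hcon
  have : 0 ≤ (a - b) * (c + d - a - b) := mul_nonneg h8.le (by linarith)
  linarith

theorem core_ne (h : K4Tet a b c d tab tac tad tbc tbd tcd) (hne : a ≠ b) : c + d < a + b := by
  rcases lt_or_gt_of_ne hne with h1 | h1
  · have := h.swap.core h1
    linarith
  · exact h.core h1

theorem special (h : K4Tet a b b b tab tac tad tbc tbd tcd) (hle : b ≤ a) :
    tab ^ 2 + tac ^ 2 + tad ^ 2 + tbc ^ 2 + tbd ^ 2 + tcd ^ 2 ≤ 9 / 4 * Real.pi ^ 2 := by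
  have ha := h.ha
  have hb := h.hb
  have e1 : tac = tab := k4G_inj h.hac h.hab (by rw [h.gac, h.gab])
  have e2 : tad = tab := k4G_inj h.had h.hab (by rw [h.gad, h.gab])
  have e3 : tbd = tbc := k4G_inj h.hbd h.hbc (by rw [h.gbd, h.gbc])
  have e4 : tcd = tbc := k4G_inj h.hcd h.hbc (by rw [h.gcd, h.gbc])
  subst e1 e2 e3 e4
  have hsv := k4_sin_pos h.had
  have hsu := k4_sin_pos h.hcd
  have hv : k4H tad = -(a * b * Real.cos tad) := by
    rw [← h.gad]; unfold k4H k4G; field_simp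
  have hu : k4H tcd = -(b * b * Real.cos tcd) := by
    rw [← h.gcd]; unfold k4H k4G; field_simp
  have h1 := h.ca
  have h2 := h.cb
  rw [hv] at h1
  rw [hv, hu] at h2
  have hcv : Real.cos tad = -(a / b) / 3 := by
    have : a * (3 * b * Real.cos tad + a) = 0 := by nlinarith
    rcases mul_eq_zero.1 this with h0 | h0
    · exact absurd h0 ha.ne'
    · field_simp
      linarith
  have hcu : Real.cos tcd = ((a / b) ^ 2 - 3) / 6 := by
    rw [hcv] at h2
    field_simp at h2 ⊢
    nlinarith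
  have huv : tad * Real.sin tcd = (a / b) * (tcd * Real.sin tad) := by
    have g1 : tad = a * b * Real.sin tad := by
      rw [← h.gad]; unfold k4G; field_simp
    have g2 : tcd = b * b * Real.sin tcd := by
      rw [← h.gcd]; unfold k4G; field_simp
    have g3 : tad * Real.sin tcd = a * b * Real.sin tad * Real.sin tcd := by rw [← g1]
    have g4 : tcd * Real.sin tad = b * b * Real.sin tcd * Real.sin tad := by rw [← g2]
    rw [g3, g4]
    field_simp
  have ht : 1 ≤ a / b := (one_le_div hb).2 hle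
  have := k4_onevar ht h.hcd h.had hcv hcu huv
  linarith

/-- Real-variable core of the four cell theorem. -/
theorem main (h : K4Tet a b c d tab tac tad tbc tbd tcd) :
    tab ^ 2 + tac ^ 2 + tad ^ 2 + tbc ^ 2 + tbd ^ 2 + tcd ^ 2 ≤ 9 / 4 * Real.pi ^ 2 := by
  -- tetrahedra with the letters moved
  have hbcda := h.rot
  have hcdab := h.rot.rot
  have hdabc := h.rot.rot.rot
  -- a ≠ b → c + d < a + b etc.
  have k1 : a ≠ b → c + d < a + b := h.core_ne
  have k2 : b ≠ c → d + a < b + c := h.rot.core_ne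
  have k3 : c ≠ d → a + b < c + d := h.rot.rot.core_ne
  have k4 : d ≠ a → b + c < d + a := h.rot.rot.rot.core_ne
  -- a ≠ c: use the order (a, c, ...) obtained from swap after rotation
  have hacbd := h.rot.swap.rot.rot.rot
  have k5 : a ≠ c → b + d < a + c := by
    intro hne
    have := hacbd.core_ne hne
    linarith
  have k6 : b ≠ d → a + c < b + d := by
    intro hne
    have := hacbd.rot.rot.core_ne hne
    linarith
  by_cases hab : a = b
  · by_cases hcd : c = d
    · by_cases hac : a = c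
      · subst hab hcd hac
        exact h.special le_rfl
      · -- a = b, c = d, a ≠ c
        have h1 := k5 hac
        have h2 := k4 (fun h0 => hac (by rw [hcd, h0]))
        subst hab hcd
        exfalso
        linarith
    · -- a = b, c ≠ d
      have h3 := k3 hcd
      subst hab
      by_cases hac : a = c
      · subst hac
        -- a = b = c, d > a
        have h4 : a ≤ d := by linarith
        have := hdabc.special h4
        linarith
      · by_cases had : d = a
        · subst had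
          have h4 : d ≤ c := by linarith
          have := hcdab.special h4
          linarith
        · exfalso
          have h5 := k5 hac
          have h6 := k4 had
          linarith
  · by_cases hcd : c = d
    · have h1 := k1 hab
      subst hcd
      by_cases hac : a = c
      · subst hac
        have h4 : a ≤ b := by linarith
        have := hbcda.special h4
        linarith
      · by_cases hbc : b = c
        · subst hbc
          have h4 : b ≤ a := by linarith
          exact h.special h4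
        · exfalso
          have h5 := k5 hac
          have h6 := k2 hbc
          linarith
    · exfalso
      have h1 := k1 hab
      have h3 := k3 hcd
      linarith

end K4Tet

end P226
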