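import Vale.Agent.P226_h5.K4Plane
import Vale.Agent.P226_h5.K4Real
import Vale.Agent.P226_h5.Alg

open MeasureTheory ProbabilityTheory Set Filter
open scoped RealInnerProductSpace ENNReal Topology

namespace P226

set_option linter.unusedSectionVars false

variable {E : Type*} [NormedAddCommGroup E] [InnerProductSpace ℝ E] [FiniteDimensional ℝ E]
  [MeasurableSpace E] [BorelSpace E]

/-- moment of a simplicial cone in the direction which meets only one facet -/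
theorem k4_facet (e1 e2 v : E) (h1 : ‖e1‖ = 1) (h2 : ‖e2‖ = 1) (hv : ‖v‖ = 1)
    (h12 : ⟪e1, e2⟫ = (0:ℝ)) (h1v : ⟪e1, v⟫ = (0:ℝ)) (h2v : ⟪e2, v⟫ = (0:ℝ))
    (a1 b1 b2 n1 n2 c : ℝ) (ha1 : 0 < a1) (hb2 : 0 < b2) (hc : 0 < c) :
    ⟪v, mom {x : E | 0 < ⟪a1 • e1, x⟫ ∧ 0 < ⟪b1 • e1 + b2 • e2, x⟫ ∧
        0 < ⟪n1 • e1 + n2 • e2 + c • v, x⟫}⟫ =
      phi 0 / (2 * Real.pi) * (1 / Real.sqrt (1 + (n1 / c) ^ 2 + (n2 / c) ^ 2) *
        (Real.pi / 2 + Real.arctan (((1 + (n2 / c) ^ 2) * (b1 / b2) - (n1 / c) * (n2 / c)) /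
          Real.sqrt (1 + (n1 / c) ^ 2 + (n2 / c) ^ 2)))) := by
  obtain ⟨K, hK⟩ : ∃ K : Set E, K = {x : E | 0 < ⟪a1 • e1, x⟫ ∧ 0 < ⟪b1 • e1 + b2 • e2, x⟫ ∧
        0 < ⟪n1 • e1 + n2 • e2 + c • v, x⟫} := ⟨_, rfl⟩
  rw [← hK]
  have hhs : ∀ w : E, MeasurableSet {x : E | 0 < (⟪w, x⟫ : ℝ)} := fun w =>
    measurableSet_lt measurable_const (by fun_prop)
  have hKm : MeasurableSet K := by
    rw [hK]
    exact (hhs _).inter ((hhs _).inter (hhs _))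
  have hint : Integrable (fun x : E => K.indicator (fun x => ⟪v, x⟫) x) (stdGaussian E) :=
    (integrable_id_std.const_inner v).indicator hKm
  have hmemK : ∀ (y : E) (u : ℝ), u • v + (y - ⟪v, y⟫ • v) ∈ K ↔
      ((⟪e1, y⟫, ⟪e2, y⟫) ∈ {p : ℝ × ℝ | 0 < p.1 ∧ -((b1 / b2) * p.1) < p.2} ∧
        -(n1 / c * ⟪e1, y⟫ + n2 / c * ⟪e2, y⟫) < u) := by
    intro y u
    have hve1 : ⟪v, e1⟫ = (0:ℝ) := by rw [real_inner_comm]; exact h1v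
    have hve2 : ⟪v, e2⟫ = (0:ℝ) := by rw [real_inner_comm]; exact h2v
    have hvv : ⟪v, v⟫ = (1:ℝ) := by rw [real_inner_self_eq_norm_sq, hv]; norm_num
    rw [hK]
    change (0 < ⟪a1 • e1, u • v + (y - ⟪v, y⟫ • v)⟫ ∧
      0 < ⟪b1 • e1 + b2 • e2, u • v + (y - ⟪v, y⟫ • v)⟫ ∧
      0 < ⟪n1 • e1 + n2 • e2 + c • v, u • v + (y - ⟪v, y⟫ • v)⟫) ↔
      ((0 < ⟪e1, y⟫ ∧ -((b1 / b2) * ⟪e1, y⟫) < ⟪e2, y⟫) ∧
        -(n1 / c * ⟪e1, y⟫ + n2 / c * ⟪e2, y⟫) < u)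
    simp only [inner_add_left, inner_add_right, inner_sub_right, real_inner_smul_left,
      real_inner_smul_right, h1v, h2v, hvv]
    have k1 : 0 < u * (a1 * 0) + (a1 * ⟪e1, y⟫ - ⟪v, y⟫ * (a1 * 0)) ↔ 0 < ⟪e1, y⟫ := by
      have : u * (a1 * 0) + (a1 * ⟪e1, y⟫ - ⟪v, y⟫ * (a1 * 0)) = a1 * ⟪e1, y⟫ := by ring
      rw [this]
      exact mul_pos_iff_of_pos_left ha1
    have k2 : 0 < u * (b1 * 0) + (b1 * ⟪e1, y⟫ - ⟪v, y⟫ * (b1 * 0)) +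
        (u * (b2 * 0) + (b2 * ⟪e2, y⟫ - ⟪v, y⟫ * (b2 * 0))) ↔
        -((b1 / b2) * ⟪e1, y⟫) < ⟪e2, y⟫ := by
      have h0 : u * (b1 * 0) + (b1 * ⟪e1, y⟫ - ⟪v, y⟫ * (b1 * 0)) +
        (u * (b2 * 0) + (b2 * ⟪e2, y⟫ - ⟪v, y⟫ * (b2 * 0))) =
          b2 * (⟪e2, y⟫ - -((b1 / b2) * ⟪e1, y⟫)) := by
        field_simp
        ring
      rw [h0, mul_pos_iff_of_pos_left hb2, sub_pos]
    have k3 : 0 < u * (n1 * 0) + (n1 * ⟪e1, y⟫ - ⟪v, y⟫ * (n1 * 0)) +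
        (u * (n2 * 0) + (n2 * ⟪e2, y⟫ - ⟪v, y⟫ * (n2 * 0))) +
        (u * (c * 1) + (c * ⟪v, y⟫ - ⟪v, y⟫ * (c * 1))) ↔
        -(n1 / c * ⟪e1, y⟫ + n2 / c * ⟪e2, y⟫) < u := by
      have h0 : u * (n1 * 0) + (n1 * ⟪e1, y⟫ - ⟪v, y⟫ * (n1 * 0)) +
        (u * (n2 * 0) + (n2 * ⟪e2, y⟫ - ⟪v, y⟫ * (n2 * 0))) +
        (u * (c * 1) + (c * ⟪v, y⟫ - ⟪v, y⟫ * (c * 1))) =
          c * (u - -(n1 / c * ⟪e1, y⟫ + n2 / c * ⟪e2, y⟫)) := by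
        field_simp
        ring
      rw [h0, mul_pos_iff_of_pos_left hc, sub_pos]
    constructor
    · rintro ⟨q1, q2, q3⟩
      refine ⟨⟨?_, ?_⟩, ?_⟩
      · apply k1.1; linarith
      · apply k2.1; linarith
      · apply k3.1; linarith
    · rintro ⟨⟨q1, q2⟩, q3⟩
      have r1 := k1.2 q1
      have r2 := k2.2 q2
      have r3 := k3.2 q3
      refine ⟨?_, ?_, ?_⟩ <;> linarith
  obtain ⟨S, hS⟩ : ∃ S : Set (ℝ × ℝ), S = {p : ℝ × ℝ | 0 < p.1 ∧ -((b1 / b2) * p.1) < p.2} :=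
    ⟨_, rfl⟩
  have hSm : MeasurableSet S := by
    rw [hS]
    exact (measurableSet_lt measurable_const measurable_fst).inter
      (measurableSet_lt (by fun_prop) measurable_snd)
  have hinner : ∀ y : E, ∫ u, K.indicator (fun x => ⟪v, x⟫) (u • v + (y - ⟪v, y⟫ • v)) * phi u =
      S.indicator (fun p => phi (n1 / c * p.1 + n2 / c * p.2)) (⟪e1, y⟫, ⟪e2, y⟫) := by
    intro y
    have hvu : ∀ u : ℝ, ⟪v, u • v + (y - ⟪v, y⟫ • v)⟫ = u := by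
      intro u
      simp only [inner_add_right, inner_sub_right, real_inner_smul_right,
        real_inner_self_eq_norm_sq, hv]
      ring
    by_cases hy : (⟪e1, y⟫, ⟪e2, y⟫) ∈ S
    · rw [indicator_of_mem hy]
      have h3 : ∀ u : ℝ, K.indicator (fun x => ⟪v, x⟫) (u • v + (y - ⟪v, y⟫ • v)) * phi u =
          (Ioi (-(n1 / c * ⟪e1, y⟫ + n2 / c * ⟪e2, y⟫))).indicator (fun u => u * phi u) u := by
        intro u
        by_cases hu : -(n1 / c * ⟪e1, y⟫ + n2 / c * ⟪e2, y⟫) < u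
        · rw [indicator_of_mem ((hmemK y u).2 ⟨by rw [← hS]; exact hy, hu⟩),
            indicator_of_mem (show u ∈ Ioi _ from hu), hvu]
        · rw [indicator_of_notMem (fun h => hu ((hmemK y u).1 h).2),
            indicator_of_notMem (show u ∉ Ioi _ from hu), zero_mul]
      simp_rw [h3]
      rw [integral_indicator measurableSet_Ioi, integral_Ioi_mul_phi, phi_neg]
    · rw [indicator_of_notMem hy]
      have h3 : ∀ u : ℝ, K.indicator (fun x => ⟪v, x⟫) (u • v + (y - ⟪v, y⟫ • v)) * phi u = 0 := by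
        intro u
        rw [indicator_of_notMem (fun h => hy (by rw [hS]; exact ((hmemK y u).1 h).1)), zero_mul]
      simp_rw [h3]
      exact integral_zero _ _
  have hmain : ⟪v, mom K⟫ = ∫ y, S.indicator (fun p => phi (n1 / c * p.1 + n2 / c * p.2))
      (⟪e1, y⟫, ⟪e2, y⟫) ∂(stdGaussian E) := by
    rw [inner_mom, ← integral_indicator hKm, integral_split v hv hint]
    exact integral_congr_ae (Eventually.of_forall hinner)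
  have hFm : Measurable (S.indicator (fun p : ℝ × ℝ => phi (n1 / c * p.1 + n2 / c * p.2))) :=
    (measurable_phi.comp (by fun_prop)).indicator hSm
  have hFm2 : Measurable (fun y : E => S.indicator
      (fun p : ℝ × ℝ => phi (n1 / c * p.1 + n2 / c * p.2)) (⟪e1, y⟫, ⟪e2, y⟫)) := by
    apply hFm.comp
    fun_prop
  have hnn : ∀ p : ℝ × ℝ, 0 ≤ S.indicator (fun p : ℝ × ℝ => phi (n1 / c * p.1 + n2 / c * p.2)) p :=
    fun p => indicator_nonneg (fun _ _ => phi_nonneg _) p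
  rw [hmain, integral_eq_lintegral_of_nonneg_ae (Eventually.of_forall fun y => hnn _)
    hFm2.aestronglyMeasurable]
  have h4 : ∫⁻ y, ENNReal.ofReal (S.indicator
      (fun p : ℝ × ℝ => phi (n1 / c * p.1 + n2 / c * p.2)) (⟪e1, y⟫, ⟪e2, y⟫)) ∂(stdGaussian E) =
      ∫⁻ y, S.indicator (fun p : ℝ × ℝ => ENNReal.ofReal (phi (n1 / c * p.1 + n2 / c * p.2)))
        (⟪e1, y⟫, ⟪e2, y⟫) ∂(stdGaussian E) := by
    refine lintegral_congr fun y => ?_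
    by_cases hy : (⟪e1, y⟫, ⟪e2, y⟫) ∈ S
    · rw [indicator_of_mem hy, indicator_of_mem hy]
    · rw [indicator_of_notMem hy, indicator_of_notMem hy, ENNReal.ofReal_zero]
  have hFm3 : Measurable (S.indicator
      (fun p : ℝ × ℝ => ENNReal.ofReal (phi (n1 / c * p.1 + n2 / c * p.2)))) :=
    ((measurable_phi.comp (by fun_prop)).ennreal_ofReal).indicator hSm
  rw [h4, k4_lintegral_two e1 e2 h1 h2 h12 hFm3, hS, k4_planar (n1 / c) (n2 / c) (b1 / b2),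
    ENNReal.toReal_ofReal]
  have hat := Real.neg_pi_div_two_lt_arctan (((1 + (n2 / c) ^ 2) * (b1 / b2) -
    (n1 / c) * (n2 / c)) / Real.sqrt (1 + (n1 / c) ^ 2 + (n2 / c) ^ 2))
  have hphi0 := phi_nonneg 0
  have hpi := Real.pi_pos
  apply mul_nonneg
  · positivity
  · apply mul_nonneg
    · positivity
    · linarith

/-- Gram-Schmidt for three independent vectors -/
theorem k4_gs (a b N : E) (hli : ∀ x y z : ℝ, x • a + y • b + z • N = 0 → x = 0 ∧ y = 0 ∧ z = 0) :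
    ∃ (e1 e2 v : E) (a1 b1 b2 n1 n2 c : ℝ), ‖e1‖ = 1 ∧ ‖e2‖ = 1 ∧ ‖v‖ = 1 ∧
      ⟪e1, e2⟫ = (0:ℝ) ∧ ⟪e1, v⟫ = (0:ℝ) ∧ ⟪e2, v⟫ = (0:ℝ) ∧ 0 < a1 ∧ 0 < b2 ∧ 0 < c ∧
      a = a1 • e1 ∧ b = b1 • e1 + b2 • e2 ∧ N = n1 • e1 + n2 • e2 + c • v := by
  have key : ∀ w : E, w ≠ 0 → ‖(‖w‖⁻¹ • w : E)‖ = 1 ∧ w = ‖w‖ • (‖w‖⁻¹ • w : E) ∧ 0 < ‖w‖ := by
    intro w hw
    have hn : ‖w‖ ≠ 0 := norm_ne_zero_iff.2 hw
    refine ⟨?_, ?_, norm_pos_iff.2 hw⟩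
    · rw [norm_smul, norm_inv, norm_norm, inv_mul_cancel₀ hn]
    · rw [smul_smul, mul_inv_cancel₀ hn, one_smul]
  have ha0 : a ≠ 0 := by
    intro h
    have := hli 1 0 0 (by rw [h]; simp)
    exact one_ne_zero this.1
  obtain ⟨h1, hae, ha1⟩ := key a ha0
  obtain ⟨e1, he1⟩ : ∃ e1 : E, e1 = ‖a‖⁻¹ • a := ⟨_, rfl⟩
  rw [← he1] at h1 hae
  obtain ⟨b', hb'⟩ : ∃ b' : E, b' = b - ⟪e1, b⟫ • e1 := ⟨_, rfl⟩
  have hb0 : b' ≠ 0 := by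
    intro h
    have := hli (-(⟪e1, b⟫ * ‖a‖⁻¹)) 1 0 (by
      rw [one_smul, zero_smul, add_zero, neg_smul, mul_smul, ← he1]
      rw [hb'] at h
      rw [neg_add_eq_sub]; exact h)
    exact one_ne_zero this.2.1
  obtain ⟨h2, hbe, hb2⟩ := key b' hb0
  obtain ⟨e2, he2⟩ : ∃ e2 : E, e2 = ‖b'‖⁻¹ • b' := ⟨_, rfl⟩
  rw [← he2] at h2 hbe
  have h12 : ⟪e1, e2⟫ = (0:ℝ) := by
    rw [he2, real_inner_smul_right, hb', inner_sub_right, real_inner_smul_right,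
      real_inner_self_eq_norm_sq, h1]
    ring
  obtain ⟨N', hN'⟩ : ∃ N' : E, N' = N - ⟪e1, N⟫ • e1 - ⟪e2, N⟫ • e2 := ⟨_, rfl⟩
  have hN0 : N' ≠ 0 := by
    intro h
    have := hli (-(⟪e1, N⟫ * ‖a‖⁻¹) + ⟪e2, N⟫ * ‖b'‖⁻¹ * ⟪e1, b⟫ * ‖a‖⁻¹)
      (-(⟪e2, N⟫ * ‖b'‖⁻¹)) 1 (by
      have q1 : ∀ r : ℝ, r • e1 = (r * ‖a‖⁻¹) • a := by
        intro r
        rw [mul_smul, ← he1]
      have q2 : ∀ r : ℝ, r • e2 = (r * ‖b'‖⁻¹) • b - (r * ‖b'‖⁻¹ * ⟪e1, b⟫ * ‖a‖⁻¹) • a := by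
        intro r
        have : r • e2 = (r * ‖b'‖⁻¹) • b' := by rw [mul_smul, ← he2]
        rw [this]
        have hb2' : b' = b - (⟪e1, b⟫ * ‖a‖⁻¹) • a := by rw [← q1]; exact hb'
        calc (r * ‖b'‖⁻¹) • b' = (r * ‖b'‖⁻¹) • (b - (⟪e1, b⟫ * ‖a‖⁻¹) • a) := by rw [← hb2']
          _ = (r * ‖b'‖⁻¹) • b - (r * ‖b'‖⁻¹ * ⟪e1, b⟫ * ‖a‖⁻¹) • a := by
            rw [smul_sub, smul_smul]
            congr 2
            ring
      rw [hN', q1, q2] at h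
      rw [← h]
      module)
    exact one_ne_zero this.2.2
  obtain ⟨hv, hNe, hc⟩ := key N' hN0
  obtain ⟨v, hvdef⟩ : ∃ v : E, v = ‖N'‖⁻¹ • N' := ⟨_, rfl⟩
  rw [← hvdef] at hv hNe
  have h21 : ⟪e2, e1⟫ = (0:ℝ) := by rw [real_inner_comm]; exact h12
  have h1v : ⟪e1, v⟫ = (0:ℝ) := by
    rw [hvdef, real_inner_smul_right, hN', inner_sub_right, inner_sub_right,
      real_inner_smul_right, real_inner_smul_right, real_inner_self_eq_norm_sq, h1, h12]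
    ring
  have h2v : ⟪e2, v⟫ = (0:ℝ) := by
    rw [hvdef, real_inner_smul_right, hN', inner_sub_right, inner_sub_right,
      real_inner_smul_right, real_inner_smul_right, real_inner_self_eq_norm_sq, h2, h21]
    ring
  refine ⟨e1, e2, v, ‖a‖, ⟪e1, b⟫, ‖b'‖, ⟪e1, N⟫, ⟪e2, N⟫, ‖N'‖, h1, h2, hv, h12, h1v, h2v,
    ha1, hb2, hc, hae, ?_, ?_⟩
  · rw [← hbe, hb']; abel
  · rw [← hNe, hN']; abel

end P226
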