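import Vale.Agent.P226_h5.K4Facet

open MeasureTheory ProbabilityTheory Set Filter
open scoped RealInnerProductSpace ENNReal Topology

namespace P226

set_option linter.unusedSectionVars false

/-- `κ = π / (2 φ(0))` -/
noncomputable def k4k : ℝ := Real.pi / (2 * phi 0)

theorem k4k_pos : 0 < k4k := div_pos Real.pi_pos (mul_pos two_pos (phi_pos 0))

theorem k4_theta (c l t : ℝ) (hc : 0 < c) (hl : 0 < l)
    (h : c / 4 = phi 0 / (2 * Real.pi) * (1 / (l / c) * t)) : k4k * l = t := by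
  have hp0 := phi_pos 0
  have hpi := Real.pi_pos
  have h1 : t = c / 4 * (2 * Real.pi) / phi 0 * (l / c) := by
    rw [h]
    field_simp
  rw [h1]
  unfold k4k
  field_simp
  ring

theorem k4_HX (s X : ℝ) (h : s = Real.pi / 2 + Real.arctan X) :
    s ∈ Ioo 0 Real.pi ∧ k4H s = s * X ∧ k4G s ^ 2 = s ^ 2 * (1 + X ^ 2) := by
  have hat1 := Real.neg_pi_div_two_lt_arctan X
  have hat2 := Real.arctan_lt_pi_div_two X
  have hcos : Real.cos s = -Real.sin (Real.arctan X) := by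
    rw [h, add_comm, Real.cos_add_pi_div_two]
  have hsin : Real.sin s = Real.cos (Real.arctan X) := by
    rw [h, add_comm, Real.sin_add_pi_div_two]
  have hcp := Real.cos_arctan_pos X
  refine ⟨⟨by linarith, by linarith⟩, ?_, ?_⟩
  · unfold k4H
    rw [hcos, hsin]
    have : X = Real.sin (Real.arctan X) / Real.cos (Real.arctan X) := by
      rw [← Real.tan_eq_sin_div_cos, Real.tan_arctan]
    conv_rhs => rw [this]
    ring
  · unfold k4G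
    rw [hsin, div_pow, Real.cos_sq_arctan]
    field_simp

/-- the purely real part of the critical facet equation -/
theorem k4_real_facet (a1 b1 b2 n1 n2 c l : ℝ) (ha1 : 0 < a1) (hb2 : 0 < b2) (hc : 0 < c)
    (hl0 : 0 < l) (hl2 : l ^ 2 = n1 ^ 2 + n2 ^ 2 + c ^ 2)
    (hf : c / 4 = phi 0 / (2 * Real.pi) * (1 / Real.sqrt (1 + (n1 / c) ^ 2 + (n2 / c) ^ 2) *
        (Real.pi / 2 + Real.arctan (((1 + (n2 / c) ^ 2) * (b1 / b2) - (n1 / c) * (n2 / c)) /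
          Real.sqrt (1 + (n1 / c) ^ 2 + (n2 / c) ^ 2))))) :
    k4k * l ∈ Ioo 0 Real.pi ∧
      k4H (k4k * l) = k4k / (a1 * b2 * c) *
        ((n1 ^ 2 + n2 ^ 2 + c ^ 2) * (a1 * b1) - (a1 * n1) * (b1 * n1 + b2 * n2)) ∧
      (k4G (k4k * l)) ^ 2 = (k4k / (a1 * b2 * c)) ^ 2 *
        ((a1 ^ 2 * (n1 ^ 2 + n2 ^ 2 + c ^ 2) - (a1 * n1) ^ 2) *
        ((b1 ^ 2 + b2 ^ 2) * (n1 ^ 2 + n2 ^ 2 + c ^ 2) - (b1 * n1 + b2 * n2) ^ 2)) := by
  have hsq : Real.sqrt (1 + (n1 / c) ^ 2 + (n2 / c) ^ 2) = l / c := by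
    have e : 1 + (n1 / c) ^ 2 + (n2 / c) ^ 2 = (l / c) ^ 2 := by
      rw [div_pow l c, hl2]
      field_simp
      ring
    rw [e, Real.sqrt_sq (by positivity)]
  obtain ⟨X, hX⟩ : ∃ X : ℝ, X = ((1 + (n2 / c) ^ 2) * (b1 / b2) - (n1 / c) * (n2 / c)) / (l / c) :=
    ⟨_, rfl⟩
  rw [hsq, ← hX] at hf
  have hθ := k4_theta c l _ hc hl0 hf
  obtain ⟨m, hH, hG⟩ := k4_HX _ _ hθ
  have hlX : l * X = ((c ^ 2 + n2 ^ 2) * b1 - n1 * n2 * b2) / (b2 * c) := by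
    rw [hX]
    field_simp
  refine ⟨m, ?_, ?_⟩
  · rw [hH]
    have : k4k * l * X = k4k * (l * X) := by ring
    rw [this, hlX]
    field_simp
    ring
  · rw [hG]
    have : (k4k * l) ^ 2 * (1 + X ^ 2) = k4k ^ 2 * (l ^ 2 + (l * X) ^ 2) := by ring
    rw [this, hlX, hl2]
    field_simp
    ring

variable {E : Type*} [NormedAddCommGroup E] [InnerProductSpace ℝ E] [FiniteDimensional ℝ E]
  [MeasurableSpace E] [BorelSpace E]

/-- the critical equation of one facet, in Gram form -/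
theorem k4_facet_inv (a b N w0 : E)
    (hli : ∀ x y z : ℝ, x • a + y • b + z • N = 0 → x = 0 ∧ y = 0 ∧ z = 0)
    (hmom : mom {x : E | 0 < ⟪a, x⟫ ∧ 0 < ⟪b, x⟫ ∧ 0 < ⟪N, x⟫} = w0)
    (hs : (4:ℝ) • w0 = a + b + N) :
    ∃ vol : ℝ, 0 < vol ∧
      vol ^ 2 = ⟪a, a⟫ * ⟪b, b⟫ * ⟪N, N⟫ + 2 * ⟪b, N⟫ * ⟪a, N⟫ * ⟪a, b⟫ -
        ⟪a, a⟫ * ⟪b, N⟫ ^ 2 - ⟪b, b⟫ * ⟪a, N⟫ ^ 2 - ⟪N, N⟫ * ⟪a, b⟫ ^ 2 ∧
      k4k * ‖N‖ ∈ Ioo 0 Real.pi ∧
      k4H (k4k * ‖N‖) = k4k / vol * (⟪N, N⟫ * ⟪a, b⟫ - ⟪a, N⟫ * ⟪b, N⟫) ∧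
      (k4G (k4k * ‖N‖)) ^ 2 = (k4k / vol) ^ 2 * ((⟪a, a⟫ * ⟪N, N⟫ - ⟪a, N⟫ ^ 2) *
        (⟪b, b⟫ * ⟪N, N⟫ - ⟪b, N⟫ ^ 2)) := by
  obtain ⟨e1, e2, v, a1, b1, b2, n1, n2, c, h1, h2, hv, h12, h1v, h2v, ha1, hb2, hc, hae, hbe,
    hNe⟩ := k4_gs a b N hli
  have hf := k4_facet e1 e2 v h1 h2 hv h12 h1v h2v a1 b1 b2 n1 n2 c ha1 hb2 hc
  rw [← hae, ← hbe, ← hNe, hmom] at hf
  have h11 : ⟪e1, e1⟫ = (1:ℝ) := by rw [real_inner_self_eq_norm_sq, h1]; norm_num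
  have h22 : ⟪e2, e2⟫ = (1:ℝ) := by rw [real_inner_self_eq_norm_sq, h2]; norm_num
  have hvv : ⟪v, v⟫ = (1:ℝ) := by rw [real_inner_self_eq_norm_sq, hv]; norm_num
  have h21 : ⟪e2, e1⟫ = (0:ℝ) := by rw [real_inner_comm]; exact h12
  have hv1 : ⟪v, e1⟫ = (0:ℝ) := by rw [real_inner_comm]; exact h1v
  have hv2 : ⟪v, e2⟫ = (0:ℝ) := by rw [real_inner_comm]; exact h2v
  have iaa : ⟪a, a⟫ = a1 ^ 2 := by
    rw [hae]; simp only [real_inner_smul_left, real_inner_smul_right, h11]; ring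
  have iab : ⟪a, b⟫ = a1 * b1 := by
    rw [hae, hbe]
    simp only [inner_add_right, real_inner_smul_left, real_inner_smul_right, h11, h12]; ring
  have ibb : ⟪b, b⟫ = b1 ^ 2 + b2 ^ 2 := by
    rw [hbe]
    simp only [inner_add_left, inner_add_right, real_inner_smul_left, real_inner_smul_right,
      h11, h12, h21, h22]; ring
  have iaN : ⟪a, N⟫ = a1 * n1 := by
    rw [hae, hNe]
    simp only [inner_add_right, real_inner_smul_left, real_inner_smul_right, h11, h12, h1v]; ring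
  have ibN : ⟪b, N⟫ = b1 * n1 + b2 * n2 := by
    rw [hbe, hNe]
    simp only [inner_add_left, inner_add_right, real_inner_smul_left, real_inner_smul_right,
      h11, h12, h21, h22, h1v, h2v]; ring
  have iNN : ⟪N, N⟫ = n1 ^ 2 + n2 ^ 2 + c ^ 2 := by
    rw [hNe]
    simp only [inner_add_left, inner_add_right, real_inner_smul_left, real_inner_smul_right,
      h11, h12, h21, h22, h1v, h2v, hv1, hv2, hvv]; ring
  have hvw : ⟪v, w0⟫ = c / 4 := by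
    have h3 : ⟪v, (4:ℝ) • w0⟫ = ⟪v, a + b + N⟫ := by rw [hs]
    rw [real_inner_smul_right, hae, hbe, hNe] at h3
    simp only [inner_add_right, real_inner_smul_right, hv1, hv2, hvv] at h3
    linarith
  have hl2 : ‖N‖ ^ 2 = n1 ^ 2 + n2 ^ 2 + c ^ 2 := by
    rw [← real_inner_self_eq_norm_sq, iNN]
  have hl0 : 0 < ‖N‖ := by
    have h0 : 0 < ‖N‖ ^ 2 := by rw [hl2]; positivity
    refine (norm_nonneg N).lt_of_ne fun h => ?_
    rw [← h] at h0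
    norm_num at h0
  rw [hvw] at hf
  obtain ⟨m, hH, hG⟩ := k4_real_facet a1 b1 b2 n1 n2 c ‖N‖ ha1 hb2 hc hl0 hl2 hf
  refine ⟨a1 * b2 * c, by positivity, ?_, m, ?_, ?_⟩
  · rw [iaa, iab, ibb, iaN, ibN, iNN]; ring
  · rw [iNN, iab, iaN, ibN]; exact hH
  · rw [iaa, ibb, iNN, iaN, ibN]; exact hG

end P226
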