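import Vale.Agent.P226_h5.Defs
import Vale.Agent.P226_h5.Split
import Vale.Agent.P226_h5.OneD

open MeasureTheory ProbabilityTheory Set Filter
open scoped RealInnerProductSpace ENNReal Topology

namespace P226

set_option linter.unusedSectionVars false

section split

variable {E : Type*} [NormedAddCommGroup E] [InnerProductSpace ℝ E] [FiniteDimensional ℝ E]
  [MeasurableSpace E] [BorelSpace E]

theorem k4_lintegral_split (v : E) (hv : ‖v‖ = 1) {f : E → ℝ≥0∞} (hf : Measurable f) :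
    ∫⁻ y, f y ∂(stdGaussian E) =
      ∫⁻ y, (∫⁻ u, f (u • v + (y - ⟪v, y⟫ • v)) * ENNReal.ofReal (phi u)) ∂(stdGaussian E) := by
  have hc : Continuous (fun p : ℝ × E => p.1 • v + (p.2 - ⟪v, p.2⟫ • v)) := by fun_prop
  conv_lhs => rw [← stdGaussian_split v hv]
  have hsym := lintegral_prod_symm' (μ := gaussianReal 0 1) (ν := stdGaussian E)
    (fun p : ℝ × E => f (p.1 • v + (p.2 - ⟪v, p.2⟫ • v))) (hf.comp hc.measurable)
  rw [lintegral_map hf hc.measurable, hsym]
  refine lintegral_congr fun y => ?_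
  rw [gaussianReal_eq_phi]
  have hfy : Measurable fun u : ℝ => f (u • v + (y - ⟪v, y⟫ • v)) := by
    apply hf.comp
    fun_prop
  rw [lintegral_withDensity_eq_lintegral_mul _ (measurable_phi.ennreal_ofReal) hfy]
  refine lintegral_congr fun u => ?_
  simp only [Pi.mul_apply]
  rw [mul_comm]

theorem k4_lintegral_two (e1 e2 : E) (h1 : ‖e1‖ = 1) (h2 : ‖e2‖ = 1) (h12 : ⟪e1, e2⟫ = (0:ℝ))
    {F : ℝ × ℝ → ℝ≥0∞} (hF : Measurable F) :
    ∫⁻ y, F (⟪e1, y⟫, ⟪e2, y⟫) ∂(stdGaussian E) =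
      ∫⁻ s, (∫⁻ t, F (s, t) * ENNReal.ofReal (phi t)) * ENNReal.ofReal (phi s) := by
  have hm : Measurable fun y : E => F (⟪e1, y⟫, ⟪e2, y⟫) := by
    apply hF.comp
    fun_prop
  rw [k4_lintegral_split e2 h2 hm]
  have ha : ∀ (y : E) (u : ℝ), ⟪e1, u • e2 + (y - ⟪e2, y⟫ • e2)⟫ = ⟪e1, y⟫ := by
    intro y u
    simp only [inner_add_right, inner_sub_right, real_inner_smul_right, h12]
    ring
  have hb : ∀ (y : E) (u : ℝ), ⟪e2, u • e2 + (y - ⟪e2, y⟫ • e2)⟫ = u := by
    intro y u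
    simp only [inner_add_right, inner_sub_right, real_inner_smul_right,
      real_inner_self_eq_norm_sq, h2]
    ring
  simp_rw [ha, hb]
  have hG : Measurable fun s : ℝ => ∫⁻ t, F (s, t) * ENNReal.ofReal (phi t) := by
    apply Measurable.lintegral_prod_right'
      (f := fun p : ℝ × ℝ => F p * ENNReal.ofReal (phi p.2))
    exact hF.mul (measurable_phi.comp measurable_snd).ennreal_ofReal
  have hm2 : Measurable fun y : E => ∫⁻ t, F (⟪e1, y⟫, t) * ENNReal.ofReal (phi t) := by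
    apply hG.comp
    fun_prop
  rw [k4_lintegral_split e1 h1 hm2]
  have hc : ∀ (y : E) (u : ℝ), ⟪e1, u • e1 + (y - ⟪e1, y⟫ • e1)⟫ = u := by
    intro y u
    simp only [inner_add_right, inner_sub_right, real_inner_smul_right,
      real_inner_self_eq_norm_sq, h1]
    ring
  simp_rw [hc]
  rw [lintegral_const, measure_univ, mul_one]

end split

/-- `∫_{s>0} s exp(-q s²/2) = 1/q` -/
theorem k4_radial (q : ℝ) (hq : 0 < q) :
    ∫⁻ s in Ioi (0:ℝ), ENNReal.ofReal (s * Real.exp (-(q * s ^ 2) / 2)) =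
      ENNReal.ofReal (1 / q) := by
  have hd : ∀ x ∈ Ici (0:ℝ), HasDerivAt (fun s => -(1 / q) * Real.exp (-(q * s ^ 2) / 2))
      (x * Real.exp (-(q * x ^ 2) / 2)) x := by
    intro x _
    have h1 : HasDerivAt (fun s : ℝ => -(q * s ^ 2) / 2) (-(q * x)) x := by
      have h2 : HasDerivAt (fun s : ℝ => s ^ 2) (2 * x) x := by
        simpa using hasDerivAt_pow 2 x
      exact ((h2.const_mul q).neg.div_const 2).congr_deriv (by ring)
    exact (h1.exp.const_mul (-(1 / q))).congr_deriv (by field_simp)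
  have hpos : ∀ x ∈ Ioi (0:ℝ), 0 ≤ x * Real.exp (-(q * x ^ 2) / 2) := by
    intro x hx
    exact mul_nonneg (le_of_lt hx) (Real.exp_pos _).le
  have hlim : Tendsto (fun s => -(1 / q) * Real.exp (-(q * s ^ 2) / 2)) atTop (𝓝 0) := by
    have h1 : Tendsto (fun s : ℝ => -(q * s ^ 2) / 2) atTop atBot := by
      have h2 : Tendsto (fun s : ℝ => s ^ 2) atTop atTop := tendsto_pow_atTop two_ne_zero
      have h3 : Tendsto (fun s : ℝ => (q / 2) * s ^ 2) atTop atTop :=
        h2.const_mul_atTop (by positivity)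
      have h4 := tendsto_neg_atTop_atBot.comp h3
      refine h4.congr fun s => ?_
      simp only [Function.comp]
      ring
    have h5 := (Real.tendsto_exp_atBot.comp h1).const_mul (-(1 / q))
    simpa using h5
  have hint := integrableOn_Ioi_deriv_of_nonneg' hd hpos hlim
  have hval := integral_Ioi_of_hasDerivAt_of_nonneg' hd hpos hlim
  rw [← ofReal_integral_eq_lintegral_ofReal hint
    ((ae_restrict_iff' measurableSet_Ioi).2 (Eventually.of_forall hpos)), hval]
  congr 1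
  simp

/-- `∫_{x>-κ} 1/(1+x²+(α+βx)²) dx` -/
theorem k4_angular (α β κ : ℝ) :
    ∫⁻ x in Ioi (-κ), ENNReal.ofReal (1 / (1 + x ^ 2 + (α + β * x) ^ 2)) =
      ENNReal.ofReal (1 / Real.sqrt (1 + α ^ 2 + β ^ 2) * (Real.pi / 2 +
        Real.arctan (((1 + β ^ 2) * κ - α * β) / Real.sqrt (1 + α ^ 2 + β ^ 2)))) := by
  obtain ⟨δ, hδ⟩ : ∃ δ : ℝ, δ = Real.sqrt (1 + α ^ 2 + β ^ 2) := ⟨_, rfl⟩
  have hδ0 : 0 < δ := by rw [hδ]; exact Real.sqrt_pos.2 (by positivity)
  have hδ2 : δ ^ 2 = 1 + α ^ 2 + β ^ 2 := by rw [hδ]; exact Real.sq_sqrt (by positivity)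
  rw [← hδ]
  have hA : 0 < 1 + β ^ 2 := by positivity
  have hd : ∀ x ∈ Ici (-κ), HasDerivAt
      (fun x => 1 / δ * Real.arctan (((1 + β ^ 2) * x + α * β) / δ))
      (1 / (1 + x ^ 2 + (α + β * x) ^ 2)) x := by
    intro x _
    have h1 : HasDerivAt (fun x : ℝ => ((1 + β ^ 2) * x + α * β) / δ) ((1 + β ^ 2) / δ) x := by
      have h2 : HasDerivAt (fun x : ℝ => (1 + β ^ 2) * x + α * β) (1 + β ^ 2) x := by
        simpa using ((hasDerivAt_id' x).const_mul (1 + β ^ 2)).add_const (α * β)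
      exact h2.div_const δ
    have h3 := (h1.arctan).const_mul (1 / δ)
    refine h3.congr_deriv ?_
    have h4 : 1 + x ^ 2 + (α + β * x) ^ 2 ≠ 0 := by positivity
    have h5 : 1 + (((1 + β ^ 2) * x + α * β) / δ) ^ 2 ≠ 0 := by positivity
    have h6 : (1 + (((1 + β ^ 2) * x + α * β) / δ) ^ 2) * δ ^ 2 =
        (1 + β ^ 2) * (1 + x ^ 2 + (α + β * x) ^ 2) := by
      rw [add_mul, div_pow, div_mul_cancel₀ _ (by positivity), hδ2]
      ring
    have h7 : 1 + (((1 + β ^ 2) * x + α * β) / δ) ^ 2 =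
        (1 + β ^ 2) * (1 + x ^ 2 + (α + β * x) ^ 2) / δ ^ 2 := by
      rw [← h6]; field_simp
    rw [h7]
    field_simp
  have hpos : ∀ x ∈ Ioi (-κ), 0 ≤ 1 / (1 + x ^ 2 + (α + β * x) ^ 2) := by
    intro x _
    positivity
  have hlim : Tendsto (fun x => 1 / δ * Real.arctan (((1 + β ^ 2) * x + α * β) / δ)) atTop
      (𝓝 (1 / δ * (Real.pi / 2))) := by
    have h1 : Tendsto (fun x : ℝ => ((1 + β ^ 2) * x + α * β) / δ) atTop atTop := by
      apply Tendsto.atTop_div_const hδ0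
      apply tendsto_atTop_add_const_right
      exact tendsto_id.const_mul_atTop hA
    exact ((tendsto_nhds_of_tendsto_nhdsWithin Real.tendsto_arctan_atTop).comp h1).const_mul _
  have hint := integrableOn_Ioi_deriv_of_nonneg' hd hpos hlim
  have hval := integral_Ioi_of_hasDerivAt_of_nonneg' hd hpos hlim
  rw [← ofReal_integral_eq_lintegral_ofReal hint
    ((ae_restrict_iff' measurableSet_Ioi).2 (Eventually.of_forall hpos)), hval]
  congr 1
  have h8 : ((1 + β ^ 2) * (-κ) + α * β) / δ = -(((1 + β ^ 2) * κ - α * β) / δ) := by ring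
  rw [h8, Real.arctan_neg]
  ring

theorem k4_scale (s : ℝ) (hs : 0 < s) {g : ℝ → ℝ≥0∞} (hg : Measurable g) :
    ∫⁻ t, g t = ENNReal.ofReal s * ∫⁻ x, g (s * x) := by
  conv_lhs => rw [← Real.smul_map_volume_mul_left hs.ne']
  rw [lintegral_smul_measure, lintegral_map hg (measurable_const_mul s), abs_of_pos hs]
  rfl

/-- The planar integral. -/
theorem k4_planar (α β κ : ℝ) :
    ∫⁻ s : ℝ, (∫⁻ t : ℝ, ({p : ℝ × ℝ | 0 < p.1 ∧ -(κ * p.1) < p.2}.indicator
        (fun p => ENNReal.ofReal (phi (α * p.1 + β * p.2))) (s, t)) * ENNReal.ofReal (phi t)) *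
        ENNReal.ofReal (phi s) =
      ENNReal.ofReal (phi 0 / (2 * Real.pi) * (1 / Real.sqrt (1 + α ^ 2 + β ^ 2) *
        (Real.pi / 2 +
          Real.arctan (((1 + β ^ 2) * κ - α * β) / Real.sqrt (1 + α ^ 2 + β ^ 2))))) := by
  obtain ⟨c, hc⟩ : ∃ c : ℝ, c = phi 0 / (2 * Real.pi) := ⟨_, rfl⟩
  have hc0 : 0 ≤ c := by
    rw [hc]; exact div_nonneg (phi_nonneg 0) (by positivity)
  have hprod : ∀ s x : ℝ, phi (α * s + β * (s * x)) * phi (s * x) * phi s =
      c * Real.exp (-((1 + x ^ 2 + (α + β * x) ^ 2) * s ^ 2) / 2) := by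
    intro s x
    rw [hc]
    unfold phi
    have h2pi : (0:ℝ) ≤ 2 * Real.pi := by positivity
    have hs : (Real.sqrt (2 * Real.pi))⁻¹ * (Real.sqrt (2 * Real.pi))⁻¹ = (2 * Real.pi)⁻¹ := by
      rw [← mul_inv, Real.mul_self_sqrt h2pi]
    have he : Real.exp (-(α * s + β * (s * x)) ^ 2 / 2) * Real.exp (-(s * x) ^ 2 / 2) *
        Real.exp (-s ^ 2 / 2) =
        Real.exp (-((1 + x ^ 2 + (α + β * x) ^ 2) * s ^ 2) / 2) := by
      rw [← Real.exp_add, ← Real.exp_add]
      congr 1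
      ring
    rw [← he]
    have h0 : Real.exp (-(0:ℝ) ^ 2 / 2) = 1 := by norm_num
    rw [h0, mul_one, div_eq_mul_inv _ (2 * Real.pi), ← hs]
    ring
  -- the integrand on the product
  have hmeas : Measurable fun p : ℝ × ℝ =>
      ({p : ℝ × ℝ | 0 < p.1 ∧ -(κ * p.1) < p.2}.indicator
        (fun p => ENNReal.ofReal (phi (α * p.1 + β * p.2))) p) * ENNReal.ofReal (phi p.2) *
        ENNReal.ofReal (phi p.1) := by
    have hset : MeasurableSet {p : ℝ × ℝ | 0 < p.1 ∧ -(κ * p.1) < p.2} :=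
      (measurableSet_lt measurable_const measurable_fst).inter
        (measurableSet_lt (by fun_prop) measurable_snd)
    have h1 : Measurable fun p : ℝ × ℝ => ENNReal.ofReal (phi (α * p.1 + β * p.2)) :=
      (measurable_phi.comp (by fun_prop)).ennreal_ofReal
    exact ((h1.indicator hset).mul (measurable_phi.comp measurable_snd).ennreal_ofReal).mul
      (measurable_phi.comp measurable_fst).ennreal_ofReal
  have hstep : ∀ s : ℝ, (∫⁻ t : ℝ, ({p : ℝ × ℝ | 0 < p.1 ∧ -(κ * p.1) < p.2}.indicator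
        (fun p => ENNReal.ofReal (phi (α * p.1 + β * p.2))) (s, t)) * ENNReal.ofReal (phi t)) *
        ENNReal.ofReal (phi s) =
      (Ioi (0:ℝ)).indicator (fun s => ∫⁻ x in Ioi (-κ), ENNReal.ofReal (s * (c *
        Real.exp (-((1 + x ^ 2 + (α + β * x) ^ 2) * s ^ 2) / 2)))) s := by
    intro s
    by_cases hs : 0 < s
    · rw [indicator_of_mem (show s ∈ Ioi (0:ℝ) from hs)]
      rw [← lintegral_mul_const'' _ (by
        have : Measurable fun t : ℝ => ({p : ℝ × ℝ | 0 < p.1 ∧ -(κ * p.1) < p.2}.indicator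
            (fun p => ENNReal.ofReal (phi (α * p.1 + β * p.2))) (s, t)) *
            ENNReal.ofReal (phi t) := by
          have hset : MeasurableSet {p : ℝ × ℝ | 0 < p.1 ∧ -(κ * p.1) < p.2} :=
            (measurableSet_lt measurable_const measurable_fst).inter
              (measurableSet_lt (by fun_prop) measurable_snd)
          have h1 : Measurable fun p : ℝ × ℝ => ENNReal.ofReal (phi (α * p.1 + β * p.2)) :=
            (measurable_phi.comp (by fun_prop)).ennreal_ofReal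
          exact ((h1.indicator hset).comp measurable_prodMk_left).mul
            measurable_phi.ennreal_ofReal
        exact this.aemeasurable)]
      have hsc := k4_scale s hs (g := fun t : ℝ =>
        ({p : ℝ × ℝ | 0 < p.1 ∧ -(κ * p.1) < p.2}.indicator
          (fun p => ENNReal.ofReal (phi (α * p.1 + β * p.2))) (s, t)) * ENNReal.ofReal (phi t) *
          ENNReal.ofReal (phi s)) (hmeas.comp measurable_prodMk_left)
      rw [hsc]
      rw [← lintegral_const_mul' _ _ ENNReal.ofReal_ne_top, ← lintegral_indicator measurableSet_Ioi]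
      refine lintegral_congr fun x => ?_
      by_cases hx : -κ < x
      · have hmem : (s, s * x) ∈ {p : ℝ × ℝ | 0 < p.1 ∧ -(κ * p.1) < p.2} := by
          refine ⟨hs, ?_⟩
          change -(κ * s) < s * x
          nlinarith
        rw [indicator_of_mem hmem, indicator_of_mem (show x ∈ Ioi (-κ) from hx),
          ← ENNReal.ofReal_mul (phi_nonneg _), ← ENNReal.ofReal_mul
            (mul_nonneg (phi_nonneg _) (phi_nonneg _)), ← ENNReal.ofReal_mul hs.le]
        rw [← hprod s x]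
      · have hmem : (s, s * x) ∉ {p : ℝ × ℝ | 0 < p.1 ∧ -(κ * p.1) < p.2} := by
          rintro ⟨_, h2⟩
          apply hx
          change -(κ * s) < s * x at h2
          nlinarith
        rw [indicator_of_notMem hmem, indicator_of_notMem (show x ∉ Ioi (-κ) from hx)]
        simp
    · rw [indicator_of_notMem (show s ∉ Ioi (0:ℝ) from hs)]
      have : ∀ t : ℝ, ({p : ℝ × ℝ | 0 < p.1 ∧ -(κ * p.1) < p.2}.indicator
          (fun p => ENNReal.ofReal (phi (α * p.1 + β * p.2))) (s, t)) = 0 := by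
        intro t
        apply indicator_of_notMem
        rintro ⟨h1, _⟩
        exact hs h1
      simp only [this, zero_mul, lintegral_zero]
  simp_rw [hstep]
  rw [lintegral_indicator measurableSet_Ioi]
  have hswap : ∫⁻ s in Ioi (0:ℝ), ∫⁻ x in Ioi (-κ), ENNReal.ofReal (s * (c *
        Real.exp (-((1 + x ^ 2 + (α + β * x) ^ 2) * s ^ 2) / 2))) =
      ∫⁻ x in Ioi (-κ), ∫⁻ s in Ioi (0:ℝ), ENNReal.ofReal (s * (c *
        Real.exp (-((1 + x ^ 2 + (α + β * x) ^ 2) * s ^ 2) / 2))) := by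
    apply lintegral_lintegral_swap
    apply Measurable.aemeasurable
    apply Measurable.ennreal_ofReal
    change Measurable fun p : ℝ × ℝ => p.1 * (c *
        Real.exp (-((1 + p.2 ^ 2 + (α + β * p.2) ^ 2) * p.1 ^ 2) / 2))
    fun_prop
  rw [hswap]
  have hinner : ∀ x : ℝ, ∫⁻ s in Ioi (0:ℝ), ENNReal.ofReal (s * (c *
        Real.exp (-((1 + x ^ 2 + (α + β * x) ^ 2) * s ^ 2) / 2))) =
      ENNReal.ofReal c * ENNReal.ofReal (1 / (1 + x ^ 2 + (α + β * x) ^ 2)) := by
    intro x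
    rw [← k4_radial (1 + x ^ 2 + (α + β * x) ^ 2) (by positivity),
      ← lintegral_const_mul' _ _ ENNReal.ofReal_ne_top]
    refine lintegral_congr fun s => ?_
    rw [← ENNReal.ofReal_mul hc0]
    congr 1
    ring
  simp_rw [hinner]
  rw [lintegral_const_mul' _ _ ENNReal.ofReal_ne_top, k4_angular, ← ENNReal.ofReal_mul hc0, hc]

end P226
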