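import Vale.Agent.P226_h5.Assemble
import Vale.Agent.P226_h5.Cert
import Vale.Agent.P226_h5.Cost
import Vale.Agent.P226_h5.Opt
import Vale.Agent.P226_h5.Alg

open MeasureTheory ProbabilityTheory Set
open scoped RealInnerProductSpace

namespace P226

set_option linter.unusedSectionVars false
set_option linter.style.haveILetI false

variable {E : Type*} [NormedAddCommGroup E] [InnerProductSpace ℝ E] [FiniteDimensional ℝ E]
  [MeasurableSpace E] [BorelSpace E]

theorem cost_le_six (n : ℕ) (h6 : 6 ≤ n) (ε x : ℝ) (h0 : 0 ≤ ε) (h1 : ε ≤ 1) (hx : 0 ≤ x) :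
    cost n ε x ≤ cost 6 ε x := by
  induction n, h6 using Nat.le_induction with
  | base => exact le_refl _
  | succ n hn ih => exact (cost_anti n (by omega) ε x h0 h1 hx).trans ih

theorem no_crit {κ : Type*} [Fintype κ] [Nonempty κ] (C : Crit κ E)
    (h6 : 6 ≤ Fintype.card κ) : False := by
  obtain ⟨D, q, x1, G, g, T, hg, hT, hq, hg0, hgb, hgs, hT1, hT4, hD, hcert⟩ := cert6
  obtain ⟨n, hn⟩ : ∃ n, n = Fintype.card κ := ⟨_, rfl⟩
  rw [← hn] at h6
  refine no_crit_of_cert C n hn.symm (by omega) D q x1 G g T hg hT hq hg0 hgb hgs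
    (fun t => by linarith [hT1 t]) hT4 (hD n h6) ?_
  intro x hx ε h0 h1
  have h := hcert x hx ε h0 h1
  have hc := cost_le_six n h6 ε x h0 h1 hx
  have hG : 0 ≤ G := (hg0 0).trans (hgb 0)
  have hn' : (6:ℝ) ≤ n := by exact_mod_cast h6
  have hint : ∀ a b : ℝ, IntegrableOn (fun t => g t * (a * T t - b)) (Ioi x) := by
    intro a b
    have hm : Measurable (fun t => g t * (a * T t - b)) :=
      hg.mul ((hT.const_mul a).sub_const b)
    have h2 : IntegrableOn (fun _ : ℝ => G * (|a| * 4 + |b|)) (Ioc 0 x1) :=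
      integrableOn_const measure_Ioc_lt_top.ne enorm_ne_top
    have h3 : Integrable ((Ioc 0 x1).indicator (fun _ : ℝ => G * (|a| * 4 + |b|))) :=
      (integrable_indicator_iff measurableSet_Ioc).2 h2
    refine (h3.mono' hm.aestronglyMeasurable (Filter.Eventually.of_forall fun t => ?_)).integrableOn
    by_cases ht : t ∈ Ioc 0 x1
    · rw [indicator_of_mem ht, Real.norm_eq_abs, abs_mul, abs_of_nonneg (hg0 t)]
      apply mul_le_mul (hgb t) _ (abs_nonneg _) hG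
      refine (abs_sub _ _).trans (add_le_add ?_ le_rfl)
      rw [abs_mul]
      apply mul_le_mul_of_nonneg_left _ (abs_nonneg _)
      rw [abs_of_nonneg (by linarith [hT1 t])]
      exact hT4 t
    · rw [indicator_of_notMem ht, hgs t ht]
      simp
  have hI : ∫ t in Ioi x, g t * (5 * T t - 7) ≤
      ∫ t in Ioi x, g t * (((n:ℝ) - 1) * T t - ((n:ℝ) + 1)) := by
    apply setIntegral_mono (hint 5 7) (hint _ _)
    intro t
    apply mul_le_mul_of_nonneg_left _ (hg0 t)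
    nlinarith [hT1 t]
  nlinarith [mul_le_mul_of_nonneg_left hc (show (0:ℝ) ≤ 1 + ε by linarith),
    mul_le_mul_of_nonneg_left hI (show (0:ℝ) ≤ 1 + ε by linarith)]

theorem step (n : ℕ) (h6 : 6 ≤ n) (A : Fin (n + 1) → Set E) (hA : IsPart A) :
    ∃ B : Fin n → Set E, IsPart B ∧ ∑ i, ‖mom (A i)‖ ^ 2 ≤ ∑ i, ‖mom (B i)‖ ^ 2 := by
  by_contra hcon
  push Not at hcon
  obtain ⟨w, A', hA', hw, hmax, hopt⟩ := exists_opt (E := E) (n + 1) (by omega)
  have hV := hopt A hA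
  haveI : Nonempty (Fin n) := ⟨⟨0, by omega⟩⟩
  obtain ⟨C⟩ := exists_crit n (by omega) w A' hA' hw hmax
    (fun B hB => (hcon B hB).trans_le hV)
  exact no_crit C (by simpa using h6)

theorem reduce_to (K₀ : ℕ) (hstep : ∀ n, K₀ ≤ n → ∀ A : Fin (n + 1) → Set E, IsPart A →
    ∃ B : Fin n → Set E, IsPart B ∧ ∑ i, ‖mom (A i)‖ ^ 2 ≤ ∑ i, ‖mom (B i)‖ ^ 2)
    (k : ℕ) (hk : K₀ ≤ k) (A : Fin k → Set E) (hA : IsPart A) :
    ∃ B : Fin K₀ → Set E, IsPart B ∧ ∑ i, ‖mom (A i)‖ ^ 2 ≤ ∑ i, ‖mom (B i)‖ ^ 2 := by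
  induction k, hk using Nat.le_induction with
  | base => exact ⟨A, hA, le_refl _⟩
  | succ n hn ih =>
    obtain ⟨B, hB, hAB⟩ := hstep n hn A hA
    obtain ⟨B', hB', hBB'⟩ := ih B hB
    exact ⟨B', hB', hAB.trans hBB'⟩

theorem reduce_to_six (k : ℕ) (hk : 6 ≤ k) (A : Fin k → Set E) (hA : IsPart A) :
    ∃ B : Fin 6 → Set E, IsPart B ∧ ∑ i, ‖mom (A i)‖ ^ 2 ≤ ∑ i, ‖mom (B i)‖ ^ 2 :=
  reduce_to 6 (fun n hn A hA => step n hn A hA) k hk A hA

end P226
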